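import Crest.Agent.R170.Stm_995

/-!
Row 170 (swarm A), leaf BR: the Brauer map on central elements of a finite group algebra over a
field of characteristic `p`, and its relation to `localImage`.
-/

set_option autoImplicit false
open scoped BigOperators

namespace Crest.Agent.R170.BR606

open Crest.AlgebraR.Weights

/-! ### Sums over fixed points -/

section Fixed

variable {p : ℕ} {Q : Type*} [Group Q] {X : Type*} [MulAction Q X]

/-- level sets of an invariant function are acted upon -/
def levelAct {R : Type*} (f : X → R) (hf : ∀ (q : Q) x, f (q • x) = f x) (v : R) :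
    MulAction Q {x : X // f x = v} where
  smul q x := ⟨q • x.1, by rw [hf]; exact x.2⟩
  one_smul x := Subtype.ext (one_smul Q x.1)
  mul_smul a b x := Subtype.ext (mul_smul a b x.1)

theorem sum_eq_sum_fixed [Fact p.Prime] (hQ : IsPGroup p Q) [Fintype X]
    {R : Type*} [Ring R] [CharP R p] (f : X → R) (hf : ∀ (q : Q) x, f (q • x) = f x)
    [DecidablePred fun x : X => ∀ q : Q, q • x = x] :
    ∑ x, f x = ∑ x with ∀ q : Q, q • x = x, f x := by
  classical
  have key : ∀ v : R, ((Finset.univ.filter (fun a => f a = v)).card : R)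
      = ((Finset.univ.filter (fun a => (∀ q : Q, q • a = a) ∧ f a = v)).card : R) := by
    intro v
    let _ := levelAct (Q := Q) f hf v
    have h := hQ.card_modEq_card_fixedPoints {x : X // f x = v}
    have h2 := (CharP.natCast_eq_natCast R p).2 h
    have e1 : Nat.card {x : X // f x = v} = (Finset.univ.filter (fun a => f a = v)).card := by
      rw [Nat.card_eq_fintype_card]
      exact Fintype.card_subtype _
    have e2 : Nat.card (MulAction.fixedPoints Q {x : X // f x = v})
        = (Finset.univ.filter (fun a => (∀ q : Q, q • a = a) ∧ f a = v)).card := by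
      rw [← Fintype.card_subtype, ← Nat.card_eq_fintype_card]
      apply Nat.card_congr
      exact
        { toFun := fun x => ⟨x.1.1, fun q => congrArg Subtype.val (x.2 q), x.1.2⟩
          invFun := fun x => ⟨⟨x.1, x.2.2⟩, fun q => Subtype.ext (x.2.1 q)⟩
          left_inv := fun _ => rfl
          right_inv := fun _ => rfl }
    rw [e1, e2] at h2
    exact h2
  have h1 : ∑ a, f a = ∑ v ∈ Finset.univ.image f,
      ((Finset.univ.filter (fun a => f a = v)).card : R) * v := by
    rw [← Finset.sum_fiberwise_of_maps_to (g := f) (t := Finset.univ.image f)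
      (fun a _ => Finset.mem_image_of_mem _ (Finset.mem_univ a))]
    refine Finset.sum_congr rfl fun v _ => ?_
    rw [Finset.sum_congr rfl (g := fun _ => v) (fun a ha => (Finset.mem_filter.1 ha).2)]
    rw [Finset.sum_const, nsmul_eq_mul]
  have h2 : (∑ a with ∀ q : Q, q • a = a, f a) = ∑ v ∈ Finset.univ.image f,
      ((Finset.univ.filter (fun a => (∀ q : Q, q • a = a) ∧ f a = v)).card : R) * v := by
    rw [← Finset.sum_fiberwise_of_maps_to (g := f) (t := Finset.univ.image f)
      (fun a _ => Finset.mem_image_of_mem _ (Finset.mem_univ a))]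
    refine Finset.sum_congr rfl fun v _ => ?_
    rw [Finset.filter_filter]
    rw [Finset.sum_congr rfl (g := fun _ => v) (fun a ha => (Finset.mem_filter.1 ha).2.2)]
    rw [Finset.sum_const, nsmul_eq_mul]
  rw [h1, h2]
  exact Finset.sum_congr rfl fun v _ => by rw [key]

/-- the version used for `P → Q` with the second sum written as an `if` -/
theorem sum_eq_sum_ite_fixed [Fact p.Prime] (hQ : IsPGroup p Q) [Fintype X]
    {R : Type*} [Ring R] [CharP R p] (f : X → R) (hf : ∀ (q : Q) x, f (q • x) = f x)
    (P : X → Prop) [DecidablePred P] (hP : ∀ x, P x ↔ ∀ q : Q, q • x = x) :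
    ∑ x, f x = ∑ x, if P x then f x else 0 := by
  classical
  rw [sum_eq_sum_fixed hQ f hf, Finset.sum_filter]
  refine Finset.sum_congr rfl fun x _ => ?_
  by_cases h : P x
  · rw [if_pos h, if_pos ((hP x).1 h)]
  · rw [if_neg h, if_neg (fun h' => h ((hP x).2 h'))]

end Fixed

/-! ### Coefficients -/

section Coeff

variable {k G : Type} [Field k] [Group G]

theorem coeff_mul_fin [Fintype G] (x y : MonoidAlgebra k G) (g : G) :
    (x * y).coeff g = ∑ h, x.coeff h * y.coeff (h⁻¹ * g) := by
  rw [MonoidAlgebra.coeff_mul_apply_left]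
  exact Finsupp.sum_fintype _ _ (by intro i; simp)

omit [Group G] in
theorem ext_coeff {x y : MonoidAlgebra k G} (h : ∀ g, x.coeff g = y.coeff g) : x = y :=
  MonoidAlgebra.coeff_injective (Finsupp.ext h)

/-- central elements are the class functions -/
theorem central_iff (z : MonoidAlgebra k G) :
    (∀ x, z * x = x * z) ↔ ∀ g h : G, z.coeff (g * h * g⁻¹) = z.coeff h := by
  constructor
  · intro hz g h
    have h1 := congrArg (fun t : MonoidAlgebra k G => t.coeff (g * h)) (hz (MonoidAlgebra.single g 1))
    simp only [MonoidAlgebra.coeff_mul_single_apply, MonoidAlgebra.coeff_single_mul_apply,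
      mul_one, one_mul, inv_mul_cancel_left] at h1
    exact h1
  · intro hz x
    have hs : ∀ g (a : k), z * MonoidAlgebra.single g a = MonoidAlgebra.single g a * z := by
      intro g a
      apply ext_coeff
      intro h
      rw [MonoidAlgebra.coeff_mul_single_apply, MonoidAlgebra.coeff_single_mul_apply, mul_comm]
      congr 1
      have := hz g (g⁻¹ * h)
      rw [← this]
      congr 1
      group
    rw [← MonoidAlgebra.sum_coeff_single x]
    rw [Finsupp.sum, Finset.mul_sum, Finset.sum_mul]
    exact Finset.sum_congr rfl fun g _ => hs g _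

/-- coefficients of a push-forward -/
theorem mapDomain_coeff {M N : Type*} [Fintype M] [DecidableEq N] (f : M → N)
    (x : MonoidAlgebra k M) (b : N) :
    (MonoidAlgebra.mapDomain f x).coeff b = ∑ a, if f a = b then x.coeff a else 0 := by
  classical
  change (Finsupp.mapDomain f x.coeff) b = _
  rw [Finsupp.mapDomain, Finsupp.sum_apply, Finsupp.sum]
  simp only [Finsupp.single_apply]
  refine Finset.sum_subset (Finset.subset_univ _) ?_
  intro a _ ha
  rw [Finsupp.notMem_support_iff.1 ha]
  split_ifs <;> rfl

variable [Finite G]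

open Classical in
theorem br_coeff (H Q : Subgroup G) (z : MonoidAlgebra k G) (h : H) :
    (br H Q z).coeff h =
      if (h : G) ∈ Subgroup.centralizer (Q : Set G) then z.coeff (h : G) else 0 := rfl










omit [Finite G] in
/-- sum over `H` of something supported on `C_G(Q) ≤ H` -/
theorem sum_sub_eq [Fintype G] {M : Type*} [AddCommMonoid M] (H : Subgroup G) [Fintype H]
    (P : G → Prop) [DecidablePred P] (hP : ∀ x, P x → x ∈ H) (f : G → M) :
    ∑ x : H, (if P x then f x else 0) = ∑ x : G, if P x then f x else 0 := by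
  classical
  rw [← Finset.sum_filter, ← Finset.sum_filter]
  refine Finset.sum_bij (fun (x : H) _ => (x : G)) ?_ ?_ ?_ ?_
  · intro a ha
    simpa using ha
  · intro a _ b _ h
    exact Subtype.ext h
  · intro b hb
    simp only [Finset.mem_filter, Finset.mem_univ, true_and] at hb
    exact ⟨⟨b, hP b hb⟩, by simpa using hb, rfl⟩
  · intro a _
    rfl

variable {p : ℕ}

/-- multiplicativity of the Brauer map on `Q`-invariant elements -/
theorem br_mul' (hp : p.Prime) [CharP k p] {H Q : Subgroup G} (hQ : IsPGroup p Q)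
    (hCH : Subgroup.centralizer (Q : Set G) ≤ H) {z w : MonoidAlgebra k G}
    (hz : ∀ q ∈ Q, ∀ g : G, z.coeff (q * g * q⁻¹) = z.coeff g)
    (hw : ∀ q ∈ Q, ∀ g : G, w.coeff (q * g * q⁻¹) = w.coeff g) :
    br H Q (z * w) = br H Q z * br H Q w := by
  classical
  have : Fact p.Prime := ⟨hp⟩
  cases nonempty_fintype G
  apply ext_coeff
  intro h
  rw [br_coeff, coeff_mul_fin, coeff_mul_fin]
  simp only [br_coeff, Subgroup.coe_mul, Subgroup.coe_inv]
  by_cases hh : (h : G) ∈ Subgroup.centralizer (Q : Set G)
  · rw [if_pos hh]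
    have e1 : ∑ x : H, ((if (x : G) ∈ Subgroup.centralizer (Q : Set G) then z.coeff (x : G) else 0)
        * if (x : G)⁻¹ * (h : G) ∈ Subgroup.centralizer (Q : Set G) then
            w.coeff ((x : G)⁻¹ * (h : G)) else 0)
        = ∑ x : H, if (x : G) ∈ Subgroup.centralizer (Q : Set G) then
            z.coeff (x : G) * w.coeff ((x : G)⁻¹ * (h : G)) else 0 := by
      refine Finset.sum_congr rfl fun x _ => ?_
      by_cases hx : (x : G) ∈ Subgroup.centralizer (Q : Set G)
      · rw [if_pos hx, if_pos hx, if_pos (Subgroup.mul_mem _ (Subgroup.inv_mem _ hx) hh)]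
      · rw [if_neg hx, if_neg hx, zero_mul]
    rw [e1, sum_sub_eq H (fun x => x ∈ Subgroup.centralizer (Q : Set G)) (fun x hx => hCH hx)
      (fun x => z.coeff x * w.coeff (x⁻¹ * (h : G)))]
    let _ : MulAction Q G := MulAction.compHom G (MulAut.conj.comp Q.subtype)
    have hact : ∀ (q : Q) (x : G), q • x = (q : G) * x * (q : G)⁻¹ := fun q x => rfl
    refine sum_eq_sum_ite_fixed (Q := Q) hQ (fun x => z.coeff x * w.coeff (x⁻¹ * (h : G))) ?_
      (fun x => x ∈ Subgroup.centralizer (Q : Set G)) ?_
    · intro q x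
      have h1 : ((q : G) * x * (q : G)⁻¹)⁻¹ * (h : G) = (q : G) * (x⁻¹ * (h : G)) * (q : G)⁻¹ := by
        have := Subgroup.mem_centralizer_iff.1 hh (q : G) q.2
        -- q * h = h * q
        have h2 : (q : G)⁻¹ * (h : G) = (h : G) * (q : G)⁻¹ := by
          rw [inv_mul_eq_iff_eq_mul, ← mul_assoc, this, mul_assoc, mul_inv_cancel, mul_one]
        simp only [mul_inv_rev, inv_inv, mul_assoc]
        rw [h2]
      change z.coeff (q • x) * w.coeff ((q • x)⁻¹ * (h : G)) = _
      rw [hact, hz _ q.2, h1, hw _ q.2]
    · intro x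
      rw [Subgroup.mem_centralizer_iff]
      constructor
      · intro hx q
        rw [hact, hx _ q.2, mul_inv_cancel_right]
      · intro hx q hq
        have := hx ⟨q, hq⟩
        rw [hact] at this
        exact mul_inv_eq_iff_eq_mul.1 this
  · rw [if_neg hh]
    symm
    apply Finset.sum_eq_zero
    intro x _
    by_cases hx : (x : G) ∈ Subgroup.centralizer (Q : Set G)
    · rw [if_neg (c := (x : G)⁻¹ * (h : G) ∈ Subgroup.centralizer (Q : Set G)), mul_zero]
      intro hx'
      exact hh (by simpa using Subgroup.mul_mem _ hx hx')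
    · rw [if_neg hx, zero_mul]

/-- multiplicativity of the Brauer map on the centre -/
theorem br_mul (hp : p.Prime) [CharP k p] {H Q : Subgroup G} (hQ : IsPGroup p Q)
    (hCH : Subgroup.centralizer (Q : Set G) ≤ H) {z w : MonoidAlgebra k G}
    (hz : ∀ x, z * x = x * z) (hw : ∀ x, w * x = x * w) :
    br H Q (z * w) = br H Q z * br H Q w :=
  br_mul' hp hQ hCH (fun q _ g => (central_iff z).1 hz q g) (fun q _ g => (central_iff w).1 hw q g)

omit [Finite G] in
theorem conj_mem_centralizer_iff {Q : Subgroup G} {g h : G}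
    (hg : g ∈ Subgroup.normalizer (Q : Set G)) :
    g * h * g⁻¹ ∈ Subgroup.centralizer (Q : Set G) ↔ h ∈ Subgroup.centralizer (Q : Set G) := by
  rw [Subgroup.mem_centralizer_iff, Subgroup.mem_centralizer_iff]
  rw [Subgroup.mem_normalizer_iff] at hg
  constructor
  · intro H q hq
    have h1 := H (g * q * g⁻¹) ((hg q).1 hq)
    have h2 : g * (q * h) * g⁻¹ = g * (h * q) * g⁻¹ := by
      calc g * (q * h) * g⁻¹ = g * q * g⁻¹ * (g * h * g⁻¹) := by group
        _ = g * h * g⁻¹ * (g * q * g⁻¹) := h1
        _ = _ := by group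
    simpa using h2
  · intro H q hq
    have hq' : g⁻¹ * q * g ∈ Q := by
      rw [SetLike.mem_coe] at hq
      have := (hg (g⁻¹ * q * g)).2
      apply this
      have e : g * (g⁻¹ * q * g) * g⁻¹ = q := by group
      rw [e]; exact hq
    have h1 := H _ hq'
    calc q * (g * h * g⁻¹) = g * ((g⁻¹ * q * g) * h) * g⁻¹ := by group
      _ = g * (h * (g⁻¹ * q * g)) * g⁻¹ := by rw [h1]
      _ = _ := by group

/-- the Brauer map sends central elements to central elements of `k[H]`, `H ≤ N_G(Q)` -/
theorem br_central {H Q : Subgroup G} (hHN : H ≤ Subgroup.normalizer (Q : Set G))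
    {z : MonoidAlgebra k G} (hz : ∀ x, z * x = x * z) (x : MonoidAlgebra k H) :
    br H Q z * x = x * br H Q z := by
  classical
  revert x
  rw [central_iff]
  intro g h
  rw [br_coeff, br_coeff]
  simp only [Subgroup.coe_mul, Subgroup.coe_inv]
  have h1 := conj_mem_centralizer_iff (Q := Q) (g := (g : G)) (h := (h : G)) (hHN g.2)
  by_cases hh : (h : G) ∈ Subgroup.centralizer (Q : Set G)
  · rw [if_pos hh, if_pos (h1.2 hh), (central_iff z).1 hz]
  · rw [if_neg hh, if_neg (fun h' => hh (h1.1 h'))]

theorem br_CI (hp : p.Prime) [CharP k p] {H Q : Subgroup G} (hQ : IsPGroup p Q)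
    (hCH : Subgroup.centralizer (Q : Set G) ≤ H) (hHN : H ≤ Subgroup.normalizer (Q : Set G))
    {e : MonoidAlgebra k G} (he : CI e) : CI (br H Q e) := by
  refine ⟨fun x => br_central hHN he.1 x, ?_⟩
  rw [← br_mul hp hQ hCH he.1 he.1, he.2]

/-- **literal joint BR** -/
theorem sBrCI (p : ℕ) [Fact p.Prime] (k : Type) [Field k] [IsAlgClosed k] [CharP k p] :
    SBrCI p k := by
  intro G _ _ e H Q hQ hC hN he
  exact br_CI (Fact.out : p.Prime) hQ hC hN he

/-! ### `localImage` -/

/-- `localImage` is the push-forward of the Brauer map (for `Q`-invariant elements) -/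
theorem localImage_eq' (hp : p.Prime) [CharP k p] {Q : Subgroup G} (hQ : IsPGroup p Q)
    {z : MonoidAlgebra k G} (hz : ∀ q ∈ Q, ∀ g : G, z.coeff (q * g * q⁻¹) = z.coeff g) :
    localImage Q z = MonoidAlgebra.mapDomain
      (QuotientGroup.mk : Subgroup.normalizer (Q : Set G) → NormQuot Q)
      (br (Subgroup.normalizer (Q : Set G)) Q z) := by
  classical
  have : Fact p.Prime := ⟨hp⟩
  cases nonempty_fintype G
  apply ext_coeff
  intro b
  rw [localImage, mapDomain_coeff, mapDomain_coeff]
  let N := Subgroup.normalizer (Q : Set G)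
  let _ : MulAction Q N :=
    { smul := fun q x => ⟨(q : G) * (x : G) * (q : G)⁻¹, N.mul_mem (N.mul_mem
        (Subgroup.le_normalizer q.2) x.2) (N.inv_mem (Subgroup.le_normalizer q.2))⟩
      one_smul := fun x => Subtype.ext (by
        change ((1 : Q) : G) * (x : G) * ((1 : Q) : G)⁻¹ = x
        simp)
      mul_smul := fun a b x => Subtype.ext (by
        change ((a * b : Q) : G) * (x : G) * ((a * b : Q) : G)⁻¹ =
          (a : G) * ((b : G) * (x : G) * (b : G)⁻¹) * (a : G)⁻¹
        simp only [Subgroup.coe_mul]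
        group) }
  have hact : ∀ (q : Q) (x : N), ((q • x : N) : G) = (q : G) * x * (q : G)⁻¹ := fun q x => rfl
  have hmk : ∀ (q : Q) (x : N), (QuotientGroup.mk (q • x) : NormQuot Q) = QuotientGroup.mk x := by
    intro q x
    symm
    rw [QuotientGroup.eq]
    rw [Subgroup.mem_subgroupOf]
    rw [Subgroup.coe_mul, Subgroup.coe_inv, hact]
    have h1 : (x : G)⁻¹ * q * x ∈ Q := by
      have := (Subgroup.mem_normalizer_iff.1 (N.inv_mem x.2) (q : G)).1 q.2
      simpa using this
    have h2 : (x : G)⁻¹ * ((q : G) * x * (q : G)⁻¹) = ((x : G)⁻¹ * q * x) * (q : G)⁻¹ := by group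
    rw [h2]
    exact Q.mul_mem h1 (Q.inv_mem q.2)
  have key := sum_eq_sum_ite_fixed (Q := Q) (p := p) hQ (X := N) (R := k)
    (fun x => if (QuotientGroup.mk x : NormQuot Q) = b then z.coeff (x : G) else 0)
    (by
      intro q x
      change (if (QuotientGroup.mk (q • x) : NormQuot Q) = b then z.coeff ((q • x : N) : G) else 0) = _
      rw [hmk, hact, hz _ q.2])
    (fun x => (x : G) ∈ Subgroup.centralizer (Q : Set G)) (by
      intro x
      rw [Subgroup.mem_centralizer_iff]
      constructor
      · intro hx q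
        apply Subtype.ext
        rw [hact, hx _ q.2, mul_inv_cancel_right]
      · intro hx q hq
        have := congrArg Subtype.val (hx ⟨q, hq⟩)
        rw [hact] at this
        exact mul_inv_eq_iff_eq_mul.1 this)
  refine Eq.trans ?_ (key.trans ?_)
  · exact Finset.sum_congr rfl fun x _ => rfl
  · refine Finset.sum_congr rfl fun x _ => ?_
    rw [br_coeff]
    by_cases h1 : (x : G) ∈ Subgroup.centralizer (Q : Set G)
    · rw [if_pos h1, if_pos h1]
    · rw [if_neg h1, if_neg h1]
      split_ifs <;> rfl

theorem localImage_eq (hp : p.Prime) [CharP k p] {Q : Subgroup G} (hQ : IsPGroup p Q)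
    {z : MonoidAlgebra k G} (hz : ∀ x, z * x = x * z) :
    localImage Q z = MonoidAlgebra.mapDomain
      (QuotientGroup.mk : Subgroup.normalizer (Q : Set G) → NormQuot Q)
      (br (Subgroup.normalizer (Q : Set G)) Q z) :=
  localImage_eq' hp hQ fun q _ g => (central_iff z).1 hz q g

omit [Finite G] in
theorem centralizer_le_normalizer (Q : Subgroup G) :
    Subgroup.centralizer (Q : Set G) ≤ Subgroup.normalizer (Q : Set G) :=
  Subgroup.centralizer_le_normalizer _

omit [Finite G] in
/-- the push-forward `k[N_G(Q)] → k[N_G(Q)/Q]` as a ring homomorphism -/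
noncomputable def nq (k : Type) [Field k] (Q : Subgroup G) :
    MonoidAlgebra k (Subgroup.normalizer (Q : Set G)) →+* WeightAlgebra k Q :=
  MonoidAlgebra.mapDomainRingHom k
    (QuotientGroup.mk' (Q.subgroupOf (Subgroup.normalizer (Q : Set G))))

omit [Finite G] in
theorem nq_apply (Q : Subgroup G) (z : MonoidAlgebra k (Subgroup.normalizer (Q : Set G))) :
    nq k Q z = MonoidAlgebra.mapDomain
      (QuotientGroup.mk : Subgroup.normalizer (Q : Set G) → NormQuot Q) z := rfl

theorem localImage_eq_nq (hp : p.Prime) [CharP k p] {Q : Subgroup G} (hQ : IsPGroup p Q)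
    {z : MonoidAlgebra k G} (hz : ∀ x, z * x = x * z) :
    localImage Q z = nq k Q (br (Subgroup.normalizer (Q : Set G)) Q z) := localImage_eq hp hQ hz

/-- `localImage` is multiplicative on the centre -/
theorem localImage_mul (hp : p.Prime) [CharP k p] {Q : Subgroup G} (hQ : IsPGroup p Q)
    {z w : MonoidAlgebra k G} (hz : ∀ x, z * x = x * z) (hw : ∀ x, w * x = x * w) :
    localImage Q (z * w) = localImage Q z * localImage Q w := by
  have hzw : ∀ x, z * w * x = x * (z * w) := fun x => by
    rw [mul_assoc, hw, ← mul_assoc, hz, mul_assoc]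
  rw [localImage_eq_nq hp hQ hz, localImage_eq_nq hp hQ hw, localImage_eq_nq hp hQ hzw,
    br_mul hp hQ (centralizer_le_normalizer Q) hz hw, map_mul]








omit [Finite G] in
/-- the push-forward of a central element is central -/
theorem nq_central (Q : Subgroup G) {y : MonoidAlgebra k (Subgroup.normalizer (Q : Set G))}
    (hy : ∀ x, y * x = x * y) (x : WeightAlgebra k Q) : nq k Q y * x = x * nq k Q y := by
  have hsurj : Function.Surjective (nq k Q) := by
    intro t
    refine ⟨MonoidAlgebra.mapDomain Quotient.out t, ?_⟩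
    rw [nq_apply]
    apply MonoidAlgebra.coeff_injective
    change Finsupp.mapDomain _ (Finsupp.mapDomain _ t.coeff) = _
    rw [← Finsupp.mapDomain_comp]
    have : (QuotientGroup.mk : Subgroup.normalizer (Q : Set G) → NormQuot Q) ∘ Quotient.out = id := by
      funext q
      exact QuotientGroup.out_eq' q
    rw [this, Finsupp.mapDomain_id]
  obtain ⟨x', rfl⟩ := hsurj x
  rw [← map_mul, hy, map_mul]

theorem localImage_central (hp : p.Prime) [CharP k p] {Q : Subgroup G} (hQ : IsPGroup p Q)
    {z : MonoidAlgebra k G} (hz : ∀ x, z * x = x * z) (x : WeightAlgebra k Q) :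
    localImage Q z * x = x * localImage Q z := by
  rw [localImage_eq_nq hp hQ hz]
  exact nq_central Q (br_central le_rfl hz) x

/-- `localImage` sends central idempotents to central idempotents -/
theorem localImage_CI (hp : p.Prime) [CharP k p] {Q : Subgroup G} (hQ : IsPGroup p Q)
    {e : MonoidAlgebra k G} (he : CI e) : CI (localImage Q e) :=
  ⟨localImage_central hp hQ he.1, by rw [← localImage_mul hp hQ he.1 he.1, he.2]⟩



end Coeff

end Crest.Agent.R170.BR606
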