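import Mathlib
import Crest.Prelude.Def_Weights

/-!
Row 170, leaf WW3 (helper538), part 1: the counting function `simpleClassCount` is transported along
ring isomorphisms; corollaries for group algebras (group isomorphisms, coefficient automorphisms).
-/

set_option autoImplicit false

namespace Crest.Agent.R170.SCC538

open Crest.AlgebraR.Weights

universe u v

section transport

variable {A : Type u} {B : Type v} [Ring A] [Ring B]

/-- the semilinear map `A ⧸ comap φ m → B ⧸ m` -/
noncomputable def quotHom (φ : A ≃+* B) (m : Ideal B) :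
    (A ⧸ (m.comap φ)) →ₛₗ[(φ : A →+* B)] (B ⧸ m) :=
  Submodule.liftQ (m.comap φ) ((Submodule.mkQ m).comp (((φ : A →+* B)).toSemilinearMap))
    (fun x hx => by
      rw [LinearMap.mem_ker]
      have h2 : φ x ∈ m := hx
      exact (Submodule.Quotient.mk_eq_zero m).2 h2)

theorem quotHom_mk (φ : A ≃+* B) (m : Ideal B) (a : A) :
    quotHom φ m (Submodule.Quotient.mk a) = (Submodule.Quotient.mk (φ a) : B ⧸ m) := rfl

theorem quotHom_bij (φ : A ≃+* B) (m : Ideal B) : Function.Bijective (quotHom φ m) := by
  constructor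
  · rw [← LinearMap.ker_eq_bot, LinearMap.ker_eq_bot']
    intro x
    refine Submodule.Quotient.induction_on _ x ?_
    intro a ha
    have ha' : (Submodule.Quotient.mk (φ a) : B ⧸ m) = 0 := ha
    rw [Submodule.Quotient.mk_eq_zero] at ha'
    exact (Submodule.Quotient.mk_eq_zero _).2 ha'
  · intro y
    refine Submodule.Quotient.induction_on _ y ?_
    intro b
    refine ⟨Submodule.Quotient.mk (φ.symm b), ?_⟩
    rw [quotHom_mk, RingEquiv.apply_symm_apply]

/-- the semilinear isomorphism `A ⧸ comap φ m ≃ B ⧸ m` -/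
noncomputable def quotSemi (φ : A ≃+* B) (m : Ideal B) :
    letI := RingHomInvPair.of_ringEquiv φ
    letI := RingHomInvPair.symm (↑φ : A →+* B) (↑φ.symm : B →+* A)
    (A ⧸ (m.comap φ)) ≃ₛₗ[(φ : A →+* B)] (B ⧸ m) :=
  letI := RingHomInvPair.of_ringEquiv φ
  letI := RingHomInvPair.symm (↑φ : A →+* B) (↑φ.symm : B →+* A)
  LinearEquiv.ofBijective (quotHom φ m) (quotHom_bij φ m)

theorem isCoatom_comap (φ : A ≃+* B) (m : Ideal B) :
    IsCoatom (m.comap φ) ↔ IsCoatom m := by
  have := φ.idealComapOrderIso.isCoatom_iff m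
  simpa using this

theorem iso_comap (φ : A ≃+* B) (m m' : Ideal B) :
    Nonempty ((A ⧸ (m.comap φ)) ≃ₗ[A] (A ⧸ (m'.comap φ))) ↔
      Nonempty ((B ⧸ m) ≃ₗ[B] (B ⧸ m')) := by
  letI := RingHomInvPair.of_ringEquiv φ
  letI := RingHomInvPair.symm (↑φ : A →+* B) (↑φ.symm : B →+* A)
  constructor
  · rintro ⟨f⟩
    exact ⟨((quotSemi φ m).symm.trans f).trans (quotSemi φ m')⟩
  · rintro ⟨f⟩
    exact ⟨((quotSemi φ m).trans f).trans (quotSemi φ m').symm⟩

theorem projective_comap (φ : A ≃+* B) (m : Ideal B) :
    Module.Projective A (A ⧸ (m.comap φ)) ↔ Module.Projective B (B ⧸ m) := by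
  letI := RingHomInvPair.of_ringEquiv φ
  letI := RingHomInvPair.symm (↑φ : A →+* B) (↑φ.symm : B →+* A)
  constructor
  · intro h
    exact Module.Projective.of_equiv (quotSemi φ m)
  · intro h
    exact Module.Projective.of_equiv (quotSemi φ m).symm

/-- Transport of `simpleClassCount` along a ring isomorphism. -/
theorem simpleClassCount_congr (φ : A ≃+* B) (P : Submodule A A → Prop) (Q : Submodule B B → Prop)
    (h : ∀ m : Ideal B, IsCoatom m → (P (m.comap φ) ↔ Q m)) :
    simpleClassCount A P = simpleClassCount B Q := by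
  classical
  unfold simpleClassCount
  symm
  refine Nat.card_congr ?_
  refine Quotient.congr ?_ ?_
  · exact
      { toFun := fun m => ⟨Ideal.comap φ m.1, (isCoatom_comap φ m.1).2 m.2.1,
          (h m.1 m.2.1).2 m.2.2⟩
        invFun := fun m => ⟨Ideal.map φ m.1, by
            have : Ideal.comap φ (Ideal.map φ m.1) = m.1 :=
              Ideal.comap_map_of_bijective _ φ.bijective
            have h1 : IsCoatom (Ideal.map φ m.1) := by
              rw [← isCoatom_comap φ, this]; exact m.2.1
            refine ⟨h1, (h _ h1).1 ?_⟩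
            rw [this]; exact m.2.2⟩
        left_inv := fun m => Subtype.ext (Ideal.map_comap_of_surjective _ φ.surjective _)
        right_inv := fun m => Subtype.ext (Ideal.comap_map_of_bijective _ φ.bijective) }
  · intro m m'
    exact (iso_comap φ m.1 m'.1).symm


/-- the block-type predicate -/
theorem count_one_sub (φ : A ≃+* B) (e : A) :
    simpleClassCount A (fun m => 1 - e ∈ m) = simpleClassCount B (fun m => 1 - φ e ∈ m) :=
  simpleClassCount_congr φ _ _ (fun m _ => by
    show φ (1 - e) ∈ m ↔ _
    rw [map_sub, map_one])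

/-- projective + block predicate -/
theorem count_proj_one_sub (φ : A ≃+* B) (e : A) :
    simpleClassCount A (fun m => Module.Projective A (A ⧸ m) ∧ 1 - e ∈ m) =
      simpleClassCount B (fun m => Module.Projective B (B ⧸ m) ∧ 1 - φ e ∈ m) :=
  simpleClassCount_congr φ _ _ (fun m _ => by
    refine and_congr (projective_comap φ m) ?_
    show φ (1 - e) ∈ m ↔ _
    rw [map_sub, map_one])

end transport

end Crest.Agent.R170.SCC538
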