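import Crest.Agent.R170.DefW_995
import Crest.Agent.R170.SCC_538

/-!
Row 170, leaf WW3 (helper538), part 2: `f0`, `lc` under group isomorphisms and coefficient automorphisms.
-/

set_option autoImplicit false

namespace Crest.Agent.R170.SCC538

open MonoidAlgebra Crest.AlgebraR.Weights Crest.AlgebraR.Blocks Crest.Agent.R170

section iso
variable {k G H : Type} [Field k] [Group G] [Group H]

/-- `f0` is transported along a group isomorphism. -/
theorem f0_congr (f : G ≃* H) (e : MonoidAlgebra k G) (e' : MonoidAlgebra k H)
    (h : ∀ g, e'.coeff (f g) = e.coeff g) : f0 e' = f0 e := by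
  have h1 : e' = mapDomainRingEquiv k f e := by
    apply MonoidAlgebra.coeff_injective
    ext x
    obtain ⟨g, rfl⟩ := f.surjective x
    rw [h, coeff_mapDomainRingEquiv, Finsupp.equivMapDomain_apply]
    simp
  rw [h1]
  exact (count_proj_one_sub (mapDomainRingEquiv k f) e).symm

/-- `lc` is transported along a group isomorphism. -/
theorem lc_congr (f : G ≃* H) (e : MonoidAlgebra k G) (e' : MonoidAlgebra k H)
    (h : ∀ g, e'.coeff (f g) = e.coeff g) : lc e' = lc e := by
  have h1 : e' = mapDomainRingEquiv k f e := by
    apply MonoidAlgebra.coeff_injective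
    ext x
    obtain ⟨g, rfl⟩ := f.surjective x
    rw [h, coeff_mapDomainRingEquiv, Finsupp.equivMapDomain_apply]
    simp
  rw [h1]
  exact (count_one_sub (mapDomainRingEquiv k f) e).symm

/-- a ring automorphism of the coefficients does not change `f0` -/
theorem f0_coeffRingEquiv (σ : k ≃+* k) (e e' : MonoidAlgebra k G)
    (h : ∀ g, e'.coeff g = σ (e.coeff g)) : f0 e' = f0 e := by
  have h1 : e' = mapRingEquiv G σ e := by
    apply MonoidAlgebra.coeff_injective
    ext x
    rw [h, coeff_mapRingEquiv]
  rw [h1]
  exact (count_proj_one_sub (mapRingEquiv G σ) e).symm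


/-- Frobenius twist of the coefficients -/
theorem f0_frob (p : ℕ) [Fact p.Prime] [IsAlgClosed k] [CharP k p] (e e' : MonoidAlgebra k G)
    (h : ∀ g, e'.coeff g = e.coeff g ^ p) : f0 e' = f0 e :=
  f0_coeffRingEquiv (frobeniusEquiv k p) e e' (fun g => by rw [h]; rfl)


end iso

end Crest.Agent.R170.SCC538
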