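import Mathlib
import Crest.Prelude.Def_Weights

/-!
Row 170, leaf LD1 (helper170): the number of simple modules "over" a central idempotent `e` of a
finite-dimensional algebra `A` over an algebraically closed field is the dimension of
`e (A / ([A,A] + rad A))`.
-/

set_option autoImplicit false

namespace Crest.Agent.R170.LD170

open Crest.AlgebraR.Weights

section defs

variable (k : Type*) [Field k] (A : Type*) [Ring A] [Algebra k A]

/-- The `k`-span of the commutators. -/
def comm : Submodule k A := Submodule.span k {x | ∃ a b : A, x = a * b - b * a}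

/-- `[A,A] + rad A`. -/
def TT : Submodule k A := comm k A ⊔ (Ring.jacobson A).restrictScalars k

variable {k A}

theorem comm_mem (a b : A) : a * b - b * a ∈ comm k A :=
  Submodule.subset_span ⟨a, b, rfl⟩

theorem comm_le_TT : comm k A ≤ TT k A := le_sup_left


end defs

section split

variable (k : Type*) [Field k] (A : Type*) [Ring A] [Algebra k A]

/-- Wedderburn–Artin for `A / rad A`. -/
theorem exists_split [IsAlgClosed k] [FiniteDimensional k A] :
    ∃ (n : ℕ) (d : Fin n → ℕ) (_ : ∀ i, NeZero (d i))
      (phi : A →ₐ[k] Π i, Matrix (Fin (d i)) (Fin (d i)) k),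
      Function.Surjective phi ∧ ∀ a, phi a = 0 ↔ a ∈ Ring.jacobson A := by
  have : IsArtinianRing A := IsArtinianRing.of_finite k A
  let J : Ideal A := Ring.jacobson A
  have : IsArtinianRing (A ⧸ J) := inferInstance
  have : IsSemisimpleRing (A ⧸ J) :=
    IsArtinianRing.isSemisimpleRing_iff_jacobson.mpr (Ring.jacobson_quotient_jacobson A)
  have : FiniteDimensional k (A ⧸ J) :=
    Module.Finite.of_surjective (Ideal.Quotient.mkₐ k J).toLinearMap
      (Ideal.Quotient.mkₐ_surjective k J)
  obtain ⟨n, d, hd, ⟨E⟩⟩ := IsSemisimpleRing.exists_algEquiv_pi_matrix_of_isAlgClosed k (A ⧸ J)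
  refine ⟨n, d, hd, E.toAlgHom.comp (Ideal.Quotient.mkₐ k J), ?_, ?_⟩
  · exact E.surjective.comp (Ideal.Quotient.mkₐ_surjective k J)
  · intro a
    have h1 : (E.toAlgHom.comp (Ideal.Quotient.mkₐ k J)) a = E (Ideal.Quotient.mk J a) := rfl
    rw [h1, map_eq_zero_iff E E.injective, Ideal.Quotient.eq_zero_iff_mem]

end split


section count

open Matrix

variable {k : Type*} [Field k] {A : Type*} [Ring A] [Algebra k A]
  {n : ℕ} {d : Fin n → ℕ} [hd : ∀ i, NeZero (d i)]
  (phi : A →ₐ[k] Π i, Matrix (Fin (d i)) (Fin (d i)) k)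

/-- The kernel of the `i`-th projection acts as zero on `A ⧸ m`. -/
def Kills (i : Fin n) (m : Submodule A A) : Prop :=
  ∀ c : A, phi c i = 0 → ∀ x : A ⧸ m, c • x = 0

variable {phi}

omit hd in
theorem Kills.of_equiv {i : Fin n} {m m' : Submodule A A} (f : (A ⧸ m) ≃ₗ[A] (A ⧸ m'))
    (h : Kills phi i m) : Kills phi i m' := by
  intro c hc x
  have h1 := h c hc (f.symm x)
  have h2 := congrArg f h1
  simpa using h2

omit hd in
theorem kills_iff_mem {i : Fin n} {m : Submodule A A} :
    Kills phi i m ↔ ∀ c, phi c i = 0 → ∀ b : A, c * b ∈ m := by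
  constructor
  · intro h c hc b
    have h1 := h c hc (Submodule.Quotient.mk b)
    rw [← Submodule.Quotient.mk_smul, Submodule.Quotient.mk_eq_zero] at h1
    simpa using h1
  · intro h c hc x
    obtain ⟨b, rfl⟩ := Submodule.Quotient.mk_surjective m x
    rw [← Submodule.Quotient.mk_smul, Submodule.Quotient.mk_eq_zero]
    simpa using h c hc b

omit hd in
theorem exists_lift_single (hs : Function.Surjective phi) (i : Fin n)
    (M : Matrix (Fin (d i)) (Fin (d i)) k) :
    ∃ a : A, phi a i = M ∧ ∀ j, j ≠ i → phi a j = 0 := by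
  obtain ⟨a, ha⟩ := hs (Pi.single i M)
  refine ⟨a, by rw [ha, Pi.single_eq_same], fun j hj => by rw [ha, Pi.single_eq_of_ne hj]⟩

omit hd in
theorem exists_kills (hs : Function.Surjective phi)
    (hk : ∀ a, phi a = 0 ↔ a ∈ Ring.jacobson A) {m : Submodule A A} (hm : IsCoatom m) :
    ∃ i, Kills phi i m := by
  classical
  have hsimple : IsSimpleModule A (A ⧸ m) := isSimpleModule_iff_isCoatom.mpr hm
  have hrad : ∀ a, phi a = 0 → ∀ x : A ⧸ m, a • x = 0 := by
    intro a ha x
    have h1 : a ∈ Module.annihilator A (A ⧸ m) :=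
      IsSemisimpleModule.jacobson_le_annihilator A (A ⧸ m) ((hk a).mp ha)
    exact Module.mem_annihilator.mp h1 x
  choose a ha1 ha2 using fun i => exists_lift_single (phi := phi) hs i 1
  have h0 : ∃ i, ∃ x : A ⧸ m, a i • x ≠ 0 := by
    by_contra hcon
    push Not at hcon
    have h1 : phi (∑ i, a i - 1) = 0 := by
      rw [map_sub, map_one, map_sum]
      ext j : 1
      rw [Pi.sub_apply, Finset.sum_apply, Finset.sum_eq_single j, ha1]
      · simp
      · intro b _ hb
        exact ha2 b j hb.symm
      · simp
    have : Nontrivial (A ⧸ m) := IsSimpleModule.nontrivial A (A ⧸ m)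
    obtain ⟨x, hx⟩ := exists_ne (0 : A ⧸ m)
    have h2 := hrad _ h1 x
    rw [sub_smul, one_smul, Finset.sum_smul, Finset.sum_eq_zero (fun i _ => hcon i x),
      zero_sub, neg_eq_zero] at h2
    exact hx h2
  obtain ⟨i, x, hx⟩ := h0
  refine ⟨i, ?_⟩
  intro c hc y
  obtain ⟨b, hb⟩ := IsSimpleModule.toSpanSingleton_surjective A hx y
  rw [LinearMap.toSpanSingleton_apply] at hb
  rw [← hb, smul_smul, smul_smul]
  refine hrad _ ?_ x
  ext j : 1
  rw [map_mul, map_mul, Pi.mul_apply, Pi.mul_apply]
  by_cases hj : j = i
  · subst hj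
    rw [hc]; simp
  · rw [ha2 i j hj]; simp

omit hd in
theorem kills_unique (hs : Function.Surjective phi) {m : Submodule A A} (hm : IsCoatom m)
    {i j : Fin n} (hi : Kills phi i m) (hj : Kills phi j m) : i = j := by
  by_contra hne
  obtain ⟨a, ha1, ha2⟩ := exists_lift_single (phi := phi) hs i 1
  have hsimple : IsSimpleModule A (A ⧸ m) := isSimpleModule_iff_isCoatom.mpr hm
  have : Nontrivial (A ⧸ m) := IsSimpleModule.nontrivial A (A ⧸ m)
  obtain ⟨x, hx⟩ := exists_ne (0 : A ⧸ m)
  have h1 : a • x = 0 := hj a (ha2 j (Ne.symm hne)) x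
  have h2 : (1 - a) • x = 0 := hi (1 - a) (by rw [map_sub, map_one, Pi.sub_apply, ha1]; simp) x
  rw [sub_smul, one_smul, h1, sub_zero] at h2
  exact hx h2

/-- The standard vector. -/
theorem exists_std (hs : Function.Surjective phi) {m : Submodule A A} (hm : IsCoatom m)
    {i : Fin n} (hi : Kills phi i m) :
    ∃ x : A ⧸ m, x ≠ 0 ∧ ∀ a : A, a • x = 0 ↔ phi a i * Matrix.single 0 0 1 = 0 := by
  classical
  have hsimple : IsSimpleModule A (A ⧸ m) := isSimpleModule_iff_isCoatom.mpr hm
  have : Nontrivial (A ⧸ m) := IsSimpleModule.nontrivial A (A ⧸ m)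
  obtain ⟨aE, haE, -⟩ := exists_lift_single (phi := phi) hs i (Matrix.single 0 0 1)
  have h0 : ∃ x : A ⧸ m, aE • x ≠ 0 := by
    by_contra hcon
    push Not at hcon
    obtain ⟨x, hx⟩ := exists_ne (0 : A ⧸ m)
    choose a ha using fun j : Fin (d i) =>
      exists_lift_single (phi := phi) hs i (Matrix.single j 0 1)
    choose b hb using fun j : Fin (d i) =>
      exists_lift_single (phi := phi) hs i (Matrix.single 0 j 1)
    have h1 : phi (∑ j, a j * aE * b j - 1) i = 0 := by
      rw [map_sub, map_one, map_sum, Pi.sub_apply, Finset.sum_apply]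
      have : ∀ j, phi (a j * aE * b j) i = Matrix.single j j 1 := by
        intro j
        rw [map_mul, map_mul, Pi.mul_apply, Pi.mul_apply, (ha j).1, haE, (hb j).1]
        simp
      rw [Finset.sum_congr rfl (fun j _ => this j), Pi.one_apply]
      rw [sub_eq_zero]
      ext r s
      rw [Matrix.sum_apply, Matrix.one_apply, Finset.sum_eq_single r]
      · by_cases hrs : r = s
        · simp [hrs]
        · simp [hrs]
      · intro b _ hb
        simp [hb]
      · simp
    have h2 := hi _ h1 x
    rw [sub_smul, one_smul, Finset.sum_smul, Finset.sum_eq_zero, zero_sub, neg_eq_zero] at h2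
    · exact hx h2
    · intro j _
      rw [mul_smul, mul_smul, hcon, smul_zero]
  obtain ⟨x, hx⟩ := h0
  refine ⟨aE • x, hx, ?_⟩
  intro a
  constructor
  · intro h
    by_contra hne
    have h1 : ∃ r, phi a i r 0 ≠ 0 := by
      by_contra hcon
      push Not at hcon
      apply hne
      ext r s
      rw [Matrix.mul_apply, Finset.sum_eq_single 0]
      · rw [hcon]; simp
      · intro b _ hb
        simp [Ne.symm hb]
      · simp
    obtain ⟨r, hr⟩ := h1
    obtain ⟨b, hb, -⟩ := exists_lift_single (phi := phi) hs i
      (Matrix.single 0 r (phi a i r 0)⁻¹)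
    have h2 : phi (b * a * aE - aE) i = 0 := by
      rw [map_sub, map_mul, map_mul, Pi.sub_apply, Pi.mul_apply, Pi.mul_apply, hb, haE]
      rw [Matrix.single_mul_mul_single, inv_mul_cancel₀ hr]
      simp
    have h3 := hi _ h2 x
    rw [sub_smul, mul_smul, mul_smul, h, smul_zero, zero_sub, neg_eq_zero] at h3
    exact hx h3
  · intro h
    rw [smul_smul]
    refine hi _ ?_ x
    rw [map_mul, Pi.mul_apply, haE, h]

theorem equiv_of_kills (hs : Function.Surjective phi) {m m' : Submodule A A} (hm : IsCoatom m)
    (hm' : IsCoatom m') {i : Fin n} (hi : Kills phi i m) (hi' : Kills phi i m') :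
    Nonempty ((A ⧸ m) ≃ₗ[A] (A ⧸ m')) := by
  have hsimple : IsSimpleModule A (A ⧸ m) := isSimpleModule_iff_isCoatom.mpr hm
  have hsimple' : IsSimpleModule A (A ⧸ m') := isSimpleModule_iff_isCoatom.mpr hm'
  obtain ⟨x, hx, h1⟩ := exists_std hs hm hi
  obtain ⟨y, hy, h2⟩ := exists_std hs hm' hi'
  have e1 := LinearMap.quotKerEquivOfSurjective _ (IsSimpleModule.toSpanSingleton_surjective A hx)
  have e2 := LinearMap.quotKerEquivOfSurjective _ (IsSimpleModule.toSpanSingleton_surjective A hy)
  have hker : LinearMap.ker (LinearMap.toSpanSingleton A _ x) =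
      LinearMap.ker (LinearMap.toSpanSingleton A _ y) := by
    ext a
    simp only [LinearMap.mem_ker, LinearMap.toSpanSingleton_apply]
    rw [h1, h2]
  exact ⟨e1.symm.trans ((Submodule.quotEquivOfEq _ _ hker).trans e2)⟩

theorem exists_coatom (i : Fin n) : ∃ m : Submodule A A, IsCoatom m ∧ Kills phi i m := by
  let L : Ideal A :=
    { carrier := {a | phi a i = 0}
      add_mem' := by
        intro a b ha hb
        simp only [Set.mem_ofPred_eq] at *
        rw [map_add, Pi.add_apply, ha, hb, add_zero]
      zero_mem' := by simp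
      smul_mem' := by
        intro c a ha
        simp only [Set.mem_ofPred_eq, smul_eq_mul] at *
        rw [map_mul, Pi.mul_apply, ha, mul_zero] }
  have hL : L ≠ ⊤ := by
    intro h
    have h1 : (1 : A) ∈ L := by rw [h]; trivial
    have h2 : phi 1 i = 0 := h1
    rw [map_one, Pi.one_apply] at h2
    exact one_ne_zero h2
  obtain ⟨m, hm, hLm⟩ := Ideal.exists_le_maximal L hL
  refine ⟨m, Ideal.isMaximal_def.mp hm, ?_⟩
  rw [kills_iff_mem]
  intro c hc b
  apply hLm
  change phi (c * b) i = 0
  rw [map_mul, Pi.mul_apply, hc, zero_mul]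

/-- General count: an isomorphism-invariant (in the sense `h`) predicate on maximal left ideals. -/
theorem simpleClassCount_eq_card (hs : Function.Surjective phi)
    (hk : ∀ a, phi a = 0 ↔ a ∈ Ring.jacobson A) (P : Submodule A A → Prop) (J : Set (Fin n))
    (h : ∀ m, IsCoatom m → ∀ i, Kills phi i m → (P m ↔ i ∈ J)) :
    simpleClassCount A P = Nat.card J := by
  classical
  choose f hf using fun m : {m : Submodule A A // IsCoatom m ∧ P m} =>
    exists_kills (phi := phi) hs hk m.2.1
  have hfJ : ∀ m, f m ∈ J := fun m => (h m.1 m.2.1 (f m) (hf m)).mp m.2.2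
  have hresp : ∀ m m' : {m : Submodule A A // IsCoatom m ∧ P m},
      (quotIsoSetoid A P).r m m' → (⟨f m, hfJ m⟩ : J) = ⟨f m', hfJ m'⟩ := by
    rintro m m' ⟨e⟩
    apply Subtype.ext
    exact kills_unique hs m'.2.1 ((hf m).of_equiv e) (hf m')
  apply Nat.card_eq_of_bijective (Quotient.lift (fun m => (⟨f m, hfJ m⟩ : J)) hresp)
  constructor
  · intro q q'
    refine Quotient.inductionOn₂ q q' ?_
    intro m m' hmm
    simp only [Quotient.lift_mk, Subtype.mk.injEq] at hmm
    apply Quotient.sound
    have h1 := hf m
    rw [hmm] at h1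
    exact equiv_of_kills hs m.2.1 m'.2.1 h1 (hf m')
  · rintro ⟨i, hi⟩
    obtain ⟨m, hm, hmi⟩ := exists_coatom (phi := phi) i
    refine ⟨Quotient.mk _ ⟨m, hm, (h m hm i hmi).mpr hi⟩, ?_⟩
    simp only [Quotient.lift_mk, Subtype.mk.injEq]
    exact kills_unique hs hm (hf _) hmi

theorem central_apply (hs : Function.Surjective phi) {e : A} (hc : ∀ x, e * x = x * e)
    (he : e * e = e) (i : Fin n) : phi e i = 0 ∨ phi e i = 1 := by
  classical
  have h1 : ∀ M : Matrix (Fin (d i)) (Fin (d i)) k, phi e i * M = M * phi e i := by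
    intro M
    obtain ⟨a, ha, -⟩ := exists_lift_single (phi := phi) hs i M
    have := congrArg (fun t => phi t i) (hc a)
    simpa [map_mul, ha] using this
  obtain ⟨r, hr⟩ := Matrix.mem_range_scalar_iff_commute_single'.mpr
    (fun a b => (h1 (Matrix.single a b 1)).symm)
  have h2 : phi e i * phi e i = phi e i := by
    have := congrArg (fun t => phi t i) he
    simpa [map_mul] using this
  rw [← hr] at h2 ⊢
  rw [← map_mul] at h2
  have h3 : r * r = r := by
    have := congrFun (congrFun h2 0) 0
    simpa [Matrix.scalar_apply, Matrix.diagonal_apply] using this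
  have h4 : r * (r - 1) = 0 := by rw [mul_sub, h3, mul_one, sub_self]
  rcases mul_eq_zero.mp h4 with h | h
  · left; rw [h, map_zero]
  · right; rw [sub_eq_zero.mp h, map_one]

theorem simpleClassCount_central (hs : Function.Surjective phi)
    (hk : ∀ a, phi a = 0 ↔ a ∈ Ring.jacobson A) {e : A} (hc : ∀ x, e * x = x * e)
    (he : e * e = e) :
    simpleClassCount A (fun m => 1 - e ∈ m) = Nat.card {i // phi e i = 1} := by
  refine simpleClassCount_eq_card hs hk _ {i | phi e i = 1} ?_
  intro m hm i hi
  rw [kills_iff_mem] at hi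
  constructor
  · intro h
    rcases central_apply hs hc he i with h0 | h1
    · exfalso
      have h2 : e * 1 ∈ m := hi e h0 1
      rw [mul_one] at h2
      have h3 : (1 : A) ∈ m := by simpa using m.add_mem h h2
      exact hm.1 ((Ideal.eq_top_iff_one m).mpr h3)
    · exact h1
  · intro h
    have h2 : (1 - e) * 1 ∈ m := hi (1 - e) (by
      rw [map_sub, map_one, Pi.sub_apply, Pi.one_apply]
      rw [Set.mem_ofPred_eq] at h
      rw [h, sub_self]) 1
    rwa [mul_one] at h2

end count

section trace

open Matrix

variable {k : Type*} [Field k]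

theorem matrix_mem_comm {d : ℕ} [NeZero d] (M : Matrix (Fin d) (Fin d) k)
    (hM : M.trace = 0) : M ∈ comm k (Matrix (Fin d) (Fin d) k) := by
  classical
  have h1 : M = ∑ r, ∑ s, (single r s (M r s) - if r = s then single 0 0 (M r r) else 0) := by
    have h2 : ∑ r, ∑ s, (if r = s then single (0 : Fin d) (0 : Fin d) (M r r) else 0) = 0 := by
      simp only [Finset.sum_ite_eq, Finset.mem_univ, if_true]
      ext a b
      rw [Matrix.sum_apply]
      by_cases hab : 0 = a ∧ 0 = b
      · obtain ⟨rfl, rfl⟩ := hab
        simpa [Matrix.trace] using hM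
      · simp [hab]
    simp only [Finset.sum_sub_distrib]
    rw [h2, sub_zero]
    exact Matrix.matrix_eq_sum_single M
  rw [h1]
  refine Submodule.sum_mem _ fun r _ => Submodule.sum_mem _ fun s _ => ?_
  by_cases hrs : r = s
  · subst hrs
    rw [if_pos rfl]
    have := comm_mem (k := k) (single r (0 : Fin d) (M r r)) (single (0 : Fin d) r (1 : k))
    simpa using this
  · rw [if_neg hrs, sub_zero]
    have := comm_mem (k := k) (single r r (1 : k)) (single r s (M r s))
    have h0 : single r s (M r s) * single r r (1 : k) = 0 :=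
      Matrix.single_mul_single_of_ne (h := Ne.symm hrs) ..
    rw [Matrix.single_mul_single_same, h0] at this
    simpa using this

variable {A : Type*} [Ring A] [Algebra k A]
  {n : ℕ} {d : Fin n → ℕ} [hd : ∀ i, NeZero (d i)]
  (phi : A →ₐ[k] Π i, Matrix (Fin (d i)) (Fin (d i)) k)

/-- All the traces. -/
def trMap : A →ₗ[k] (Fin n → k) :=
  LinearMap.pi fun i => (Matrix.traceLinearMap (Fin (d i)) k k) ∘ₗ (LinearMap.proj i) ∘ₗ
    phi.toLinearMap

omit hd in
theorem trMap_apply (a : A) (i : Fin n) : trMap phi a i = (phi a i).trace := rfl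

variable {phi}

theorem trMap_surjective (hs : Function.Surjective phi) : Function.Surjective (trMap phi) := by
  intro v
  obtain ⟨a, ha⟩ := hs (fun i => single 0 0 (v i))
  refine ⟨a, ?_⟩
  ext i
  rw [trMap_apply, ha]
  simp

omit hd in
theorem exists_comm_lift (hs : Function.Surjective phi) (i : Fin n)
    {M : Matrix (Fin (d i)) (Fin (d i)) k} (hM : M ∈ comm k (Matrix (Fin (d i)) (Fin (d i)) k)) :
    ∃ c ∈ comm k A, phi c = Pi.single i M := by
  induction hM using Submodule.span_induction with
  | mem x hx =>
    obtain ⟨X, Y, rfl⟩ := hx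
    obtain ⟨x, hx⟩ := hs (Pi.single i X)
    obtain ⟨y, hy⟩ := hs (Pi.single i Y)
    refine ⟨x * y - y * x, comm_mem x y, ?_⟩
    rw [map_sub, map_mul, map_mul, hx, hy, ← Pi.single_mul, ← Pi.single_mul, ← Pi.single_sub]
  | zero => exact ⟨0, Submodule.zero_mem _, by simp⟩
  | add x y _ _ hx hy =>
    obtain ⟨c, hc, hc'⟩ := hx
    obtain ⟨e, he, he'⟩ := hy
    exact ⟨c + e, Submodule.add_mem _ hc he, by rw [map_add, hc', he', ← Pi.single_add]⟩
  | smul r x _ hx =>
    obtain ⟨c, hc, hc'⟩ := hx
    exact ⟨r • c, Submodule.smul_mem _ r hc, by rw [map_smul, hc', ← Pi.single_smul]⟩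

theorem ker_trMap (hs : Function.Surjective phi)
    (hk : ∀ a, phi a = 0 ↔ a ∈ Ring.jacobson A) : LinearMap.ker (trMap phi) = TT k A := by
  apply le_antisymm
  · intro a ha
    rw [LinearMap.mem_ker] at ha
    have h1 : ∀ i, ∃ c ∈ comm k A, phi c = Pi.single i (phi a i) := fun i =>
      exists_comm_lift hs i (matrix_mem_comm _ (by rw [← trMap_apply, ha]; rfl))
    choose c hc hc' using h1
    have h2 : a - ∑ i, c i ∈ Ring.jacobson A := by
      rw [← hk, map_sub, map_sum, Finset.sum_congr rfl (fun i _ => hc' i),
        Finset.univ_sum_single, sub_self]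
    have h3 : a = ∑ i, c i + (a - ∑ i, c i) := by abel
    rw [h3]
    exact Submodule.add_mem_sup (Submodule.sum_mem _ fun i _ => hc i) h2
  · refine sup_le ?_ ?_
    · refine Submodule.span_le.mpr ?_
      rintro x ⟨a, b, rfl⟩
      rw [SetLike.mem_coe, LinearMap.mem_ker]
      ext i
      rw [trMap_apply, map_sub, map_mul, map_mul, Pi.sub_apply, Pi.mul_apply, Pi.mul_apply,
        Matrix.trace_sub, Matrix.trace_mul_comm, sub_self, Pi.zero_apply]
    · intro a ha
      have h1 : phi a = 0 := (hk a).mpr ha
      rw [LinearMap.mem_ker]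
      ext i
      rw [trMap_apply, h1]
      simp

/-- `e·(image)` in coordinates. -/
theorem finrank_map_trMap (hs : Function.Surjective phi) {e : A} (hc : ∀ x, e * x = x * e)
    (he : e * e = e) :
    Module.finrank k ((LinearMap.range (LinearMap.mulLeft k e)).map (trMap phi)) =
      Nat.card {i // phi e i = 1} := by
  classical
  let g : ({i // phi e i = 1} → k) →ₗ[k] (Fin n → k) :=
    { toFun := fun v i => if h : phi e i = 1 then v ⟨i, h⟩ else 0
      map_add' := by
        intro v w; ext i
        by_cases h : phi e i = 1 <;> simp [h]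
      map_smul' := by
        intro r v; ext i
        by_cases h : phi e i = 1 <;> simp [h] }
  have hginj : Function.Injective g := by
    intro v w hvw
    ext ⟨i, hi⟩
    have := congrFun hvw i
    simpa [g, hi] using this
  have hrange : LinearMap.range g =
      (LinearMap.range (LinearMap.mulLeft k e)).map (trMap phi) := by
    apply le_antisymm
    · rintro _ ⟨v, rfl⟩
      obtain ⟨a, ha⟩ := trMap_surjective hs (g v)
      refine ⟨e * a, ⟨a, rfl⟩, ?_⟩
      ext i
      rw [trMap_apply, map_mul, Pi.mul_apply]
      have h1 : (phi a i).trace = g v i := by rw [← trMap_apply, ha]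
      rcases central_apply hs hc he i with h0 | h0
      · rw [h0, zero_mul, Matrix.trace_zero]
        have : ¬ phi e i = 1 := by rw [h0]; exact zero_ne_one
        simp [g, this]
      · rw [h0, one_mul, h1]
    · rintro _ ⟨_, ⟨a, rfl⟩, rfl⟩
      refine ⟨fun i => trMap phi (e * a) i.1, ?_⟩
      ext i
      by_cases h : phi e i = 1
      · simp [g, h]
      · have h0 : phi e i = 0 := (central_apply hs hc he i).resolve_right h
        simp [g, trMap_apply, h0]
  rw [← hrange, LinearMap.finrank_range_of_inj hginj, Module.finrank_fintype_fun_eq_card,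
    Nat.card_eq_fintype_card]

end trace

section main

variable {k : Type*} [Field k] {A : Type*} [Ring A] [Algebra k A]

/-- Images of `U` under two maps with the same kernel have the same dimension. -/
theorem finrank_map_eq_of_ker_eq {V W W' : Type*} [AddCommGroup V] [Module k V]
    [AddCommGroup W] [Module k W] [AddCommGroup W'] [Module k W'] (f : V →ₗ[k] W)
    (g : V →ₗ[k] W') (h : LinearMap.ker f = LinearMap.ker g) (U : Submodule k V) :
    Module.finrank k (U.map f) = Module.finrank k (U.map g) := by
  have h1 : LinearMap.ker (f.domRestrict U) = LinearMap.ker (g.domRestrict U) := by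
    ext x
    have := SetLike.ext_iff.mp h x.1
    simpa [LinearMap.mem_ker] using this
  have e1 := (f.domRestrict U).quotKerEquivRange
  have e2 := (g.domRestrict U).quotKerEquivRange
  have e3 := Submodule.quotEquivOfEq _ _ h1
  have r1 : LinearMap.range (f.domRestrict U) = U.map f := LinearMap.range_domRestrict U f
  have r2 : LinearMap.range (g.domRestrict U) = U.map g := LinearMap.range_domRestrict U g
  rw [← r1, ← r2]
  exact (e1.symm.trans (e3.trans e2)).finrank_eq

/-- **LD1.** The number of simple `A`-modules on which the central idempotent `e` acts as `1` is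
the dimension of the image of `e A` in `A / ([A,A] + rad A)`. -/
theorem simpleClassCount_eq_finrank [IsAlgClosed k] [FiniteDimensional k A] (e : A)
    (hc : ∀ x, e * x = x * e) (he : e * e = e) :
    simpleClassCount A (fun m => 1 - e ∈ m) =
      Module.finrank k ((LinearMap.range (LinearMap.mulLeft k e)).map (TT k A).mkQ) := by
  obtain ⟨n, d, hd, phi, hs, hk⟩ := exists_split k A
  rw [simpleClassCount_central hs hk hc he, ← finrank_map_trMap hs hc he]
  apply finrank_map_eq_of_ker_eq
  rw [ker_trMap hs hk, Submodule.ker_mkQ]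

/-- The space of trace functions of `A` vanishing on the radical and "belonging to `e`". -/
def dualSpace (k : Type*) [Field k] (A : Type*) [Ring A] [Algebra k A] (e : A) :
    Submodule k (A →ₗ[k] k) where
  carrier := {l | (∀ x ∈ TT k A, l x = 0) ∧ ∀ x, l (e * x) = l x}
  add_mem' := by
    rintro l l' ⟨h1, h2⟩ ⟨h1', h2'⟩
    exact ⟨fun x hx => by rw [LinearMap.add_apply, h1 x hx, h1' x hx, add_zero],
      fun x => by rw [LinearMap.add_apply, LinearMap.add_apply, h2, h2']⟩
  zero_mem' := ⟨fun x _ => rfl, fun x => rfl⟩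
  smul_mem' := by
    rintro c l ⟨h1, h2⟩
    exact ⟨fun x hx => by rw [LinearMap.smul_apply, h1 x hx, smul_zero],
      fun x => by rw [LinearMap.smul_apply, LinearMap.smul_apply, h2]⟩


/-- **LD1, dual form.** -/
theorem simpleClassCount_eq_finrank_dual [IsAlgClosed k] [FiniteDimensional k A] (e : A)
    (hc : ∀ x, e * x = x * e) (he : e * e = e) :
    simpleClassCount A (fun m => 1 - e ∈ m) = Module.finrank k (dualSpace k A e) := by
  classical
  obtain ⟨n, d, hd, phi, hs, hk⟩ := exists_split k A
  rw [simpleClassCount_central hs hk hc he]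
  let g : ({i // phi e i = 1} → k) →ₗ[k] (A →ₗ[k] k) :=
    ∑ i : {i // phi e i = 1},
      (LinearMap.smulRight (LinearMap.proj i : ({i // phi e i = 1} → k) →ₗ[k] k)
        ((LinearMap.proj i.1 : (Fin n → k) →ₗ[k] k) ∘ₗ trMap phi))
  have hg : ∀ v a, g v a = ∑ i : {i // phi e i = 1}, v i * trMap phi a i.1 := by
    intro v a
    simp [g, LinearMap.sum_apply]
  have hginj : Function.Injective g := by
    intro v w hvw
    ext i
    obtain ⟨a, ha⟩ := trMap_surjective hs (Pi.single i.1 1)
    have h1 := LinearMap.congr_fun hvw a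
    rw [hg, hg, ha] at h1
    rw [Finset.sum_eq_single i, Finset.sum_eq_single i] at h1
    · simpa using h1
    · intro j _ hj
      rw [Pi.single_eq_of_ne (fun h => hj (Subtype.ext h)), mul_zero]
    · simp
    · intro j _ hj
      rw [Pi.single_eq_of_ne (fun h => hj (Subtype.ext h)), mul_zero]
    · simp
  have hker := ker_trMap hs hk
  have hrange : LinearMap.range g = dualSpace k A e := by
    apply le_antisymm
    · rintro _ ⟨v, rfl⟩
      refine ⟨?_, ?_⟩
      · intro x hx
        rw [← hker, LinearMap.mem_ker] at hx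
        rw [hg, hx]; simp
      · intro x
        rw [hg, hg]
        refine Finset.sum_congr rfl fun i _ => ?_
        rw [trMap_apply, trMap_apply, map_mul, Pi.mul_apply, i.2, one_mul]
    · rintro l ⟨h1, h2⟩
      obtain ⟨s, hs'⟩ := (trMap phi).exists_rightInverse_of_surjective
        (LinearMap.range_eq_top.mpr (trMap_surjective hs))
      refine ⟨fun i => l (s (Pi.single i.1 1)), ?_⟩
      ext a
      rw [hg]
      have h3 : l a = l (s (trMap phi (e * a))) := by
        have h4 : e * a - s (trMap phi (e * a)) ∈ TT k A := by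
          rw [← hker, LinearMap.mem_ker, map_sub]
          have := LinearMap.congr_fun hs' (trMap phi (e * a))
          rw [LinearMap.comp_apply, LinearMap.id_apply] at this
          rw [this, sub_self]
        have h5 := h1 _ h4
        rw [map_sub, sub_eq_zero, h2] at h5
        exact h5
      have h6 : trMap phi (e * a) =
          ∑ i : {i // phi e i = 1}, trMap phi a i.1 • (Pi.single i.1 1 : Fin n → k) := by
        ext j
        rw [Finset.sum_apply]
        rcases central_apply hs hc he j with h0 | h0
        · rw [trMap_apply, map_mul, Pi.mul_apply, h0, zero_mul, Matrix.trace_zero]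
          symm
          apply Finset.sum_eq_zero
          intro i _
          have hij : j ≠ i.1 := by
            rintro rfl
            rw [i.2] at h0
            exact one_ne_zero h0
          rw [Pi.smul_apply, Pi.single_eq_of_ne hij, smul_zero]
        · rw [Finset.sum_eq_single ⟨j, h0⟩]
          · rw [Pi.smul_apply, Pi.single_eq_same, trMap_apply, trMap_apply, map_mul,
              Pi.mul_apply, h0, one_mul, smul_eq_mul, mul_one]
          · intro i _ hi
            have hij : j ≠ i.1 := by
              rintro rfl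
              exact hi rfl
            rw [Pi.smul_apply, Pi.single_eq_of_ne hij, smul_zero]
          · simp
      rw [h3, h6, map_sum, map_sum]
      refine Finset.sum_congr rfl fun i _ => ?_
      rw [map_smul, map_smul, smul_eq_mul, mul_comm]
  rw [← hrange, LinearMap.finrank_range_of_inj hginj, Module.finrank_fintype_fun_eq_card,
    Nat.card_eq_fintype_card]

end main

section group

variable {k : Type*} [Field k] [IsAlgClosed k] {G : Type*} [Group G] [Finite G]

instance finiteDimensional_monoidAlgebra : FiniteDimensional k (MonoidAlgebra k G) := by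
  have : Module.Finite k (G →₀ k) := inferInstance
  exact Module.Finite.equiv (MonoidAlgebra.coeffLinearEquiv k : MonoidAlgebra k G ≃ₗ[k] (G →₀ k)).symm

/-- **LD1 for `kG`.** -/
theorem blockSimpleCount_eq_finrank (e : MonoidAlgebra k G) (hc : ∀ x, e * x = x * e)
    (he : e * e = e) :
    blockSimpleCount e = Module.finrank k
      ((LinearMap.range (LinearMap.mulLeft k e)).map (TT k (MonoidAlgebra k G)).mkQ) :=
  simpleClassCount_eq_finrank e hc he

/-- **LD1 for `kG`, dual form.** -/
theorem blockSimpleCount_eq_finrank_dual (e : MonoidAlgebra k G) (hc : ∀ x, e * x = x * e)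
    (he : e * e = e) :
    blockSimpleCount e = Module.finrank k (dualSpace k (MonoidAlgebra k G) e) :=
  simpleClassCount_eq_finrank_dual e hc he

end group

end Crest.Agent.R170.LD170
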