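import Mathlib

-- ▼ part R170/J_482
section

/-!
Row 170 (swarm A): the modular trace lemma, inside `kG` only.

* `sum_fixed`: a function on a finite set invariant under a map of `p`-power order, with values
  in a ring of characteristic `p`, has the same sum as over the fixed points.
* `trace_pow` (P1): `lam ((∑ x_i)^(p^n)) = ∑ lam (x_i^(p^n))` for `lam` additive with
  `lam (a b) = lam (b a)`.
-/

set_option autoImplicit false
open scoped BigOperators

namespace Crest.Agent.R170.J482

/-! ### Sums over sets with a map of `p`-power order -/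

section SumFixed
variable {α R : Type*} [Fintype α] [DecidableEq α] [Ring R] [DecidableEq R]

open Function in
theorem sum_fixed (p n : ℕ) [hp : Fact p.Prime] [CharP R p] (f : Function.End α)
    (hf : f ^ p ^ n = 1) (φ : α → R) (hφ : ∀ a, φ (f a) = φ a) :
    ∑ a, φ a = ∑ a with f a = a, φ a := by
  classical
  have key : ∀ v : R, ((Finset.univ.filter (fun a => φ a = v)).card : R)
      = ((Finset.univ.filter (fun a => f a = a ∧ φ a = v)).card : R) := by
    intro v
    -- restrict `f` to the level set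
    let β := {a : α // φ a = v}
    let g : Function.End β := fun b => ⟨f b.1, by rw [hφ]; exact b.2⟩
    have hg : ∀ m (b : β), ((g ^ m) b).1 = (f ^ m) b.1 := by
      intro m
      induction m with
      | zero => intro b; rfl
      | succ m ih =>
        intro b
        rw [pow_succ', pow_succ']
        change (g ((g ^ m) b)).1 = f ((f ^ m) b.1)
        rw [← ih b]
    have hg1 : g ^ p ^ n = 1 := by
      funext b
      apply Subtype.ext
      rw [hg, hf]
      rfl
    have h := Equiv.Perm.card_fixedPoints_modEq (p := p) (n := n) hg1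
    have h2 := (CharP.natCast_eq_natCast R p).2 h
    have e1 : Fintype.card β = (Finset.univ.filter (fun a => φ a = v)).card :=
      Fintype.card_subtype _
    have e2 : Fintype.card (Function.fixedPoints g)
        = (Finset.univ.filter (fun a => f a = a ∧ φ a = v)).card := by
      rw [← Fintype.card_subtype]
      apply Fintype.card_congr
      exact
        { toFun := fun x => ⟨x.1.1, congrArg Subtype.val x.2, x.1.2⟩
          invFun := fun x => ⟨⟨x.1, x.2.2⟩, Subtype.ext x.2.1⟩
          left_inv := fun _ => rfl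
          right_inv := fun _ => rfl }
    rw [e1, e2] at h2
    exact h2
  have h1 : ∑ a, φ a = ∑ v ∈ Finset.univ.image φ,
      ((Finset.univ.filter (fun a => φ a = v)).card : R) * v := by
    rw [← Finset.sum_fiberwise_of_maps_to (g := φ) (t := Finset.univ.image φ)
      (fun a _ => Finset.mem_image_of_mem _ (Finset.mem_univ a))]
    refine Finset.sum_congr rfl fun v _ => ?_
    rw [Finset.sum_congr rfl (g := fun _ => v) (fun a ha => (Finset.mem_filter.1 ha).2)]
    rw [Finset.sum_const, nsmul_eq_mul]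
  have h2 : ∑ a with f a = a, φ a = ∑ v ∈ Finset.univ.image φ,
      ((Finset.univ.filter (fun a => f a = a ∧ φ a = v)).card : R) * v := by
    rw [← Finset.sum_fiberwise_of_maps_to (g := φ) (t := Finset.univ.image φ)
      (fun a _ => Finset.mem_image_of_mem _ (Finset.mem_univ a))]
    refine Finset.sum_congr rfl fun v _ => ?_
    rw [Finset.filter_filter]
    rw [Finset.sum_congr rfl (g := fun _ => v) (fun a ha => (Finset.mem_filter.1 ha).2.2)]
    rw [Finset.sum_const, nsmul_eq_mul]
  rw [h1, h2]
  exact Finset.sum_congr rfl fun v _ => by rw [key]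

end SumFixed

/-! ### Words -/

section Words
variable {ι A : Type*} [Fintype ι] [Ring A]

theorem sum_pow_words (x : ι → A) (N : ℕ) :
    (∑ i, x i) ^ N = ∑ f : Fin N → ι, (List.ofFn fun j => x (f j)).prod := by
  classical
  induction N with
  | zero => simp
  | succ N ih =>
    rw [pow_succ', ih, Finset.sum_mul_sum, ← Finset.sum_product', Finset.univ_product_univ]
    refine Fintype.sum_equiv (Fin.consEquiv (fun _ : Fin (N + 1) => ι)) _ _ ?_
    rintro ⟨i, g⟩
    simp [Fin.consEquiv, List.ofFn_succ]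

end Words

section P1
variable {ι A R : Type*} [Fintype ι] [Ring A] [Ring R]

/-- rotation of words -/
def rot (N : ℕ) [NeZero N] (ι : Type*) : Function.End (Fin N → ι) := fun f i => f (i + 1)

theorem rot_pow_apply (N : ℕ) [NeZero N] (m : ℕ) (f : Fin N → ι) (i : Fin N) :
    ((rot N ι) ^ m) f i = f (i + Fin.ofNat N m) := by
  induction m generalizing f i with
  | zero =>
    change f i = f (i + Fin.ofNat N 0)
    simp
  | succ m ih =>
    rw [pow_succ]
    change ((rot N ι) ^ m) (rot N ι f) i = _
    rw [ih]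
    change f (i + Fin.ofNat N m + 1) = _
    congr 1
    rw [add_assoc]
    congr 1
    apply Fin.ext
    simp [Fin.val_add, Fin.ofNat]

theorem rot_pow_card (N : ℕ) [NeZero N] : (rot N ι) ^ N = 1 := by
  funext f i
  rw [rot_pow_apply]
  change _ = f i
  congr 1
  have : (Fin.ofNat N N : Fin N) = 0 := by
    apply Fin.ext
    simp [Fin.ofNat]
  rw [this, add_zero]

omit [Fintype ι] in
theorem lam_rot (lam : A →+ R) (hlam : ∀ a b, lam (a * b) = lam (b * a)) (x : ι → A)
    (N : ℕ) [NeZero N] (f : Fin N → ι) :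
    lam (List.ofFn fun j => x (rot N ι f j)).prod = lam (List.ofFn fun j => x (f j)).prod := by
  obtain ⟨M, rfl⟩ : ∃ M, N = M + 1 := ⟨N - 1, by have := NeZero.ne N; omega⟩
  rw [List.ofFn_succ (f := fun j => x (f j)), List.ofFn_succ' (f := fun j => x (rot (M+1) ι f j))]
  rw [List.prod_cons, List.concat_eq_append, List.prod_append, List.prod_singleton]
  rw [hlam]
  have e1 : rot (M+1) ι f (Fin.last M) = f 0 := by
    change f (Fin.last M + 1) = f 0
    simp
  have e2 : ∀ i : Fin M, rot (M+1) ι f (Fin.castSucc i) = f i.succ := by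
    intro i
    change f (Fin.castSucc i + 1) = _
    simp
  simp only [e1, e2]

/-- (P1): a trace form with values in characteristic `p` is additive on `p^n`-th powers. -/
theorem trace_pow (p n : ℕ) [hp : Fact p.Prime] [CharP R p] (lam : A →+ R)
    (hlam : ∀ a b, lam (a * b) = lam (b * a)) (x : ι → A) :
    lam ((∑ i, x i) ^ p ^ n) = ∑ i, lam (x i ^ p ^ n) := by
  classical
  have hN : NeZero (p ^ n) := ⟨(pow_pos hp.out.pos n).ne'⟩
  rw [sum_pow_words, map_sum]
  rw [sum_fixed p n (rot (p ^ n) ι) (rot_pow_card _) (fun f => lam (List.ofFn fun j => x (f j)).prod)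
    (fun f => lam_rot lam hlam x _ f)]
  -- fixed points are constants
  symm
  refine Finset.sum_bij (fun i _ => fun _ => i) ?_ ?_ ?_ ?_
  · intro i _
    simp only [Finset.mem_filter, Finset.mem_univ, true_and]
    rfl
  · intro i _ j _ h
    exact congrFun h 0
  · intro f hf
    simp only [Finset.mem_filter, Finset.mem_univ, true_and] at hf
    refine ⟨f 0, Finset.mem_univ _, ?_⟩
    have hpow : ∀ m, ((rot (p ^ n) ι) ^ m) f = f := by
      intro m
      induction m with
      | zero => rfl
      | succ m ih =>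
        rw [pow_succ]
        change ((rot (p ^ n) ι) ^ m) (rot (p ^ n) ι f) = f
        rw [hf, ih]
    funext j
    have := congrFun (hpow j.1) 0
    rw [rot_pow_apply] at this
    rw [← this]
    congr 1
    apply Fin.ext
    simp [Fin.ofNat, Nat.mod_eq_of_lt j.2]
  · intro i _
    simp

end P1

end Crest.Agent.R170.J482
end

-- ▼ part R170/P2_482

/-!
Row 170 (swarm A): the modular trace lemma, part 2.

`k` a field of characteristic `p`, `G` a finite group, `J` the sum of the `p`-elements of `G`.
* `P2`: `coeff_1 (x^(p^n)) = (coeff_1 (J x))^(p^n)` for `n >= |G|`.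
* `tr1_J_nilpotent`: `coeff_1 (J x) = 0` for nilpotent `x`.
* `tr1_J_idem`: `coeff_1 (J i) = coeff_1 i` for idempotent `i`.
-/

set_option autoImplicit false
open scoped BigOperators

namespace Crest.Agent.R170.J482

section GA
variable {k G : Type*} [Field k] [Group G] [Fintype G]

/-- coefficient at `1` -/
noncomputable def tr1 : MonoidAlgebra k G →ₗ[k] k where
  toFun x := x.coeff 1
  map_add' _ _ := rfl
  map_smul' _ _ := rfl

omit [Fintype G] in
theorem tr1_apply (x : MonoidAlgebra k G) : tr1 x = x.coeff 1 := rfl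

theorem coeff_mul_fin (x y : MonoidAlgebra k G) (g : G) :
    (x * y).coeff g = ∑ h, x.coeff h * y.coeff (h⁻¹ * g) := by
  rw [MonoidAlgebra.coeff_mul_apply_left]
  exact Finsupp.sum_fintype _ _ (by intro i; simp)

theorem tr1_comm (x y : MonoidAlgebra k G) : tr1 (x * y) = tr1 (y * x) := by
  rw [tr1_apply, tr1_apply, coeff_mul_fin, coeff_mul_fin]
  refine Fintype.sum_equiv (Equiv.inv G) _ _ ?_
  intro h
  simp [mul_comm]

theorem eq_sum_single (x : MonoidAlgebra k G) : x = ∑ g, MonoidAlgebra.single g (x.coeff g) := by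
  conv_lhs => rw [← MonoidAlgebra.sum_coeff_single x]
  exact Finsupp.sum_fintype _ _ (by intro i; simp)

omit [Fintype G] in
/-- nondegeneracy of the trace form -/
theorem eq_zero_of_tr1 (y : MonoidAlgebra k G) (h : ∀ z, tr1 (y * z) = 0) : y = 0 := by
  apply MonoidAlgebra.coeff_injective
  ext g
  have := h (MonoidAlgebra.single g⁻¹ 1)
  rw [tr1_apply, MonoidAlgebra.coeff_mul_single_apply] at this
  simpa using this

/-- `p`-elements -/
def IsPE (p : ℕ) (g : G) : Prop := g ^ p ^ (Fintype.card G) = 1

theorem isPE_of_pow {p : ℕ} (hp : p.Prime) {g : G} {n : ℕ} (h : g ^ p ^ n = 1) : IsPE p g := by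
  obtain ⟨a, _, ha⟩ := (Nat.dvd_prime_pow hp).1 (orderOf_dvd_of_pow_eq_one h)
  have h1 : p ^ a ≤ Fintype.card G := ha ▸ orderOf_le_card_univ
  have h2 : a < p ^ a := Nat.lt_pow_self hp.one_lt
  have h3 : a ≤ Fintype.card G := by omega
  unfold IsPE
  rw [← orderOf_dvd_iff_pow_eq_one, ha]
  exact pow_dvd_pow p h3

theorem isPE_iff_exists {p : ℕ} (hp : p.Prime) (g : G) : IsPE p g ↔ ∃ n, g ^ p ^ n = 1 :=
  ⟨fun h => ⟨_, h⟩, fun ⟨_, h⟩ => isPE_of_pow hp h⟩

theorem isPE_iff_pow {p : ℕ} (hp : p.Prime) {n : ℕ} (hn : Fintype.card G ≤ n) (g : G) :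
    g ^ p ^ n = 1 ↔ IsPE p g := by
  refine ⟨fun h => isPE_of_pow hp h, fun h => ?_⟩
  obtain ⟨m, rfl⟩ := Nat.exists_eq_add_of_le hn
  rw [pow_add, pow_mul]
  have : g ^ p ^ (Fintype.card G) = 1 := h
  rw [this, one_pow]

theorem isPE_inv {p : ℕ} {g : G} : IsPE p g⁻¹ ↔ IsPE p g := by
  unfold IsPE; rw [inv_pow, inv_eq_one]

theorem isPE_conj {p : ℕ} {g : G} (h : G) : IsPE p (h * g * h⁻¹) ↔ IsPE p g := by
  unfold IsPE; rw [conj_pow]; simp

open Classical in
/-- the sum of the `p`-elements -/
noncomputable def J (k : Type*) (G : Type*) [Field k] [Group G] [Fintype G] (p : ℕ) :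
    MonoidAlgebra k G :=
  MonoidAlgebra.ofCoeff (Finsupp.equivFunOnFinite.symm fun g => if IsPE p g then 1 else 0)

open Classical in
theorem J_coeff (p : ℕ) (g : G) : (J k G p).coeff g = if IsPE p g then 1 else 0 := rfl

open Classical in
theorem tr1_J_mul (p : ℕ) (x : MonoidAlgebra k G) :
    tr1 (J k G p * x) = ∑ g, if IsPE p g then x.coeff g else 0 := by
  rw [tr1_comm, tr1_apply, coeff_mul_fin]
  refine Finset.sum_congr rfl fun g _ => ?_
  rw [J_coeff, mul_one]
  simp only [isPE_inv]
  split_ifs <;> simp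

theorem J_central (p : ℕ) (x : MonoidAlgebra k G) : J k G p * x = x * J k G p := by
  classical
  rw [eq_sum_single x, Finset.mul_sum, Finset.sum_mul]
  refine Finset.sum_congr rfl fun g _ => ?_
  apply MonoidAlgebra.coeff_injective
  ext h
  rw [MonoidAlgebra.coeff_mul_single_apply, MonoidAlgebra.coeff_single_mul_apply, J_coeff, J_coeff,
    mul_comm]
  have : IsPE p (h * g⁻¹) ↔ IsPE p (g⁻¹ * h) := by
    rw [← isPE_conj (p := p) (g := h * g⁻¹) g⁻¹]
    simp [mul_assoc]
  simp only [this]

/-- (P2) -/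
theorem P2 (p : ℕ) [hp : Fact p.Prime] [CharP k p] {n : ℕ} (hn : Fintype.card G ≤ n)
    (x : MonoidAlgebra k G) : tr1 (x ^ p ^ n) = (tr1 (J k G p * x)) ^ p ^ n := by
  classical
  have h := trace_pow (A := MonoidAlgebra k G) (R := k) p n (tr1 (k := k) (G := G)).toAddMonoidHom
    (fun a b => tr1_comm a b) (fun g : G => MonoidAlgebra.single g (x.coeff g))
  rw [← eq_sum_single] at h
  change tr1 (x ^ p ^ n) = ∑ g, tr1 (MonoidAlgebra.single g (x.coeff g) ^ p ^ n) at h
  rw [h, tr1_J_mul, sum_pow_char_pow]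
  refine Finset.sum_congr rfl fun g _ => ?_
  rw [MonoidAlgebra.single_pow, tr1_apply, MonoidAlgebra.coeff_single_apply, isPE_iff_pow hp.out hn]
  split_ifs
  · rfl
  · rw [zero_pow (pow_pos hp.out.pos n).ne']

theorem tr1_J_nilpotent (p : ℕ) [hp : Fact p.Prime] [CharP k p] (x : MonoidAlgebra k G)
    (hx : IsNilpotent x) : tr1 (J k G p * x) = 0 := by
  obtain ⟨m, hm⟩ := hx
  have h := P2 p (n := Fintype.card G + m) (by omega) x
  have h2 : x ^ p ^ (Fintype.card G + m) = 0 := by
    refine pow_eq_zero_of_le ?_ hm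
    have : Fintype.card G + m < p ^ (Fintype.card G + m) := Nat.lt_pow_self hp.out.one_lt
    omega
  rw [h2, map_zero] at h
  exact pow_eq_zero_iff (pow_pos hp.out.pos _).ne' |>.1 h.symm

theorem tr1_J_idem (p : ℕ) [hp : Fact p.Prime] [CharP k p] (i : MonoidAlgebra k G)
    (hi : i * i = i) : tr1 (J k G p * i) = tr1 i := by
  have hpow : ∀ m, 0 < m → i ^ m = i := fun m hm => IsIdempotentElem.pow_eq hi hm.ne'
  set N := Fintype.card G with hN
  have h0 := P2 p (n := N) le_rfl i
  have h1 := P2 p (n := N + 1) (by omega) i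
  rw [hpow _ (pow_pos hp.out.pos _)] at h0 h1
  have h2 : tr1 i ^ p = tr1 i := by
    conv_lhs => rw [h0]
    rw [← pow_mul, ← pow_succ, ← h1]
  have h3 : tr1 i ^ p ^ N = tr1 i := by
    clear h0 h1 hN
    induction N with
    | zero => simp
    | succ m ih => rw [pow_succ, pow_mul, ih, h2]
  have h4 : (tr1 (J k G p * i)) ^ p ^ N = tr1 i ^ p ^ N := by rw [← h0, h3]
  exact iterateFrobenius_inj k p N h4

end GA

end Crest.Agent.R170.J482
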