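import Mathlib
import Crest.Prelude.Def_Weights

-- ▼ part R170/Q_940
section

/-!
Row 170 (swarm A), leaf Q, part 1 (helper940): quotients by a normal `p`-subgroup.

* `iso_iff` : for maximal left ideals, `A/m ≅ A/m'` iff `m * a ⊆ m'` for some `a ∉ m'`;
* `proj_iff` : `A/m` is projective iff there is `f` with `1 - f ∈ m`, `m * f = 0`;
* `scc_surj` : `simpleClassCount` along a surjective ring map whose kernel is in every maximal left
  ideal;
* `fix_all` : a normal `p`-subgroup acts trivially on a simple `k[G]`-module, `char k = p`;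
* `lc_quot` : `blockSimpleCount e = blockSimpleCount (image of e in k[G/N])`.
-/

set_option autoImplicit false

namespace Crest.Agent.R170.Q940

open Crest.AlgebraR.Weights

section ring

variable {A B : Type*} [Ring A] [Ring B]

/-- criterion for isomorphic simple quotients -/
theorem iso_iff {m m' : Submodule A A} (hm : IsCoatom m) (hm' : IsCoatom m') :
    Nonempty ((A ⧸ m) ≃ₗ[A] (A ⧸ m')) ↔ ∃ a, a ∉ m' ∧ ∀ x ∈ m, x * a ∈ m' := by
  constructor
  · rintro ⟨f⟩
    obtain ⟨a, ha⟩ := Submodule.Quotient.mk_surjective m' (f (Submodule.Quotient.mk 1))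
    refine ⟨a, ?_, ?_⟩
    · intro h
      have h1 : f (Submodule.Quotient.mk 1) = 0 := by
        rw [← ha, Submodule.Quotient.mk_eq_zero]
        exact h
      have h2 : (Submodule.Quotient.mk 1 : A ⧸ m) = 0 := f.map_eq_zero_iff.1 h1
      rw [Submodule.Quotient.mk_eq_zero] at h2
      exact hm.1 (Ideal.eq_top_of_isUnit_mem (I := m) h2 isUnit_one)
    · intro x hx
      rw [← Submodule.Quotient.mk_eq_zero, ← smul_eq_mul, Submodule.Quotient.mk_smul, ha,
        ← map_smul, ← Submodule.Quotient.mk_smul, smul_eq_mul, mul_one]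
      rw [(Submodule.Quotient.mk_eq_zero m).2 hx, map_zero]
  · rintro ⟨a, ha, h⟩
    have : IsSimpleModule A (A ⧸ m) := isSimpleModule_iff_isCoatom.2 hm
    have : IsSimpleModule A (A ⧸ m') := isSimpleModule_iff_isCoatom.2 hm'
    let g : A →ₗ[A] A ⧸ m' := LinearMap.toSpanSingleton A (A ⧸ m') (Submodule.Quotient.mk a)
    have hg : ∀ x, g x = Submodule.Quotient.mk (x * a) := fun x => by
      show x • (Submodule.Quotient.mk a : A ⧸ m') = _
      rw [← Submodule.Quotient.mk_smul, smul_eq_mul]
    have hk : m ≤ LinearMap.ker g := fun x hx => by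
      rw [LinearMap.mem_ker, hg, Submodule.Quotient.mk_eq_zero]
      exact h x hx
    have hne : m.liftQ g hk ≠ 0 := by
      intro h0
      have h1 : m.liftQ g hk (Submodule.Quotient.mk 1) = 0 := by rw [h0]; rfl
      rw [Submodule.liftQ_apply, hg, one_mul, Submodule.Quotient.mk_eq_zero] at h1
      exact ha h1
    exact ⟨LinearEquiv.ofBijective _ (LinearMap.bijective_of_ne_zero hne)⟩

/-- criterion for projective quotients -/
theorem proj_iff (m : Submodule A A) :
    Module.Projective A (A ⧸ m) ↔ ∃ f, 1 - f ∈ m ∧ ∀ x ∈ m, x * f = 0 := by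
  constructor
  · intro hP
    obtain ⟨s, hs⟩ := Module.projective_lifting_property (m.mkQ) (LinearMap.id : (A ⧸ m) →ₗ[A] _)
      m.mkQ_surjective
    have hs' : ∀ y, m.mkQ (s y) = y := fun y => LinearMap.congr_fun hs y
    refine ⟨s (m.mkQ 1), ?_, ?_⟩
    · rw [← Submodule.Quotient.mk_eq_zero, ← Submodule.mkQ_apply, map_sub, hs', sub_self]
    · intro x hx
      rw [← smul_eq_mul, ← map_smul, ← map_smul, smul_eq_mul, mul_one, Submodule.mkQ_apply,
        (Submodule.Quotient.mk_eq_zero m).2 hx, map_zero]
  · rintro ⟨f, h1, h2⟩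
    let g : A →ₗ[A] A := LinearMap.toSpanSingleton A A f
    have hg : ∀ x, g x = x * f := fun x => rfl
    have hk : m ≤ LinearMap.ker g := fun x hx => by
      rw [LinearMap.mem_ker, hg]
      exact h2 x hx
    refine Module.Projective.of_split (m.liftQ g hk) m.mkQ ?_
    apply Submodule.linearMap_qext
    ext
    show m.mkQ (m.liftQ g hk (Submodule.Quotient.mk 1)) = Submodule.Quotient.mk 1
    rw [Submodule.liftQ_apply, hg, one_mul, Submodule.mkQ_apply]
    have := (Submodule.Quotient.mk_eq_zero m).2 h1
    rw [Submodule.Quotient.mk_sub, sub_eq_zero] at this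
    exact this.symm

/-- `simpleClassCount` along a surjective ring map -/
theorem scc_surj (π : A →+* B) (hπ : Function.Surjective π)
    (P : Submodule A A → Prop) (P' : Submodule B B → Prop)
    (hker : ∀ m : Ideal A, IsCoatom m → P m → ∀ a, π a = 0 → a ∈ m)
    (hP : ∀ m' : Ideal B, IsCoatom m' → (P (Ideal.comap π m') ↔ P' m')) :
    simpleClassCount A P = simpleClassCount B P' := by
  have hco : ∀ m' : Ideal B, IsCoatom m' ↔ IsCoatom (Ideal.comap π m') := by
    intro m'
    constructor
    · intro h
      have : m'.IsMaximal := ⟨h⟩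
      exact (Ideal.comap_isMaximal_of_surjective π hπ).out
    · intro h
      refine ⟨fun ht => h.1 (by rw [ht, Ideal.comap_top]), fun J hJ => ?_⟩
      have h1 : Ideal.comap π m' < Ideal.comap π J := by
        refine lt_of_le_of_ne (Ideal.comap_mono hJ.le) fun he => hJ.ne ?_
        rw [← Ideal.map_comap_of_surjective π hπ m', he, Ideal.map_comap_of_surjective π hπ J]
      have h2 := h.2 _ h1
      rw [← Ideal.map_comap_of_surjective π hπ J, h2]
      exact Ideal.map_top π
  have hcm : ∀ m : Ideal A, IsCoatom m → P m → Ideal.comap π (Ideal.map π m) = m := by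
    intro m hm hPm
    rw [Ideal.comap_map_of_surjective π hπ, sup_eq_left]
    intro a ha
    exact hker m hm hPm a (by simpa using ha)
  let E : {m : Submodule B B // IsCoatom m ∧ P' m} ≃ {m : Submodule A A // IsCoatom m ∧ P m} :=
    { toFun := fun m => ⟨Ideal.comap π m.1, (hco m.1).1 m.2.1, (hP m.1 m.2.1).2 m.2.2⟩
      invFun := fun m => ⟨Ideal.map π m.1, by
        have h1 := hcm m.1 m.2.1 m.2.2
        have h2 : IsCoatom (Ideal.map π m.1) := (hco _).2 (by rw [h1]; exact m.2.1)
        exact ⟨h2, (hP _ h2).1 (by rw [h1]; exact m.2.2)⟩⟩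
      left_inv := fun m => Subtype.ext (Ideal.map_comap_of_surjective π hπ m.1)
      right_inv := fun m => Subtype.ext (hcm m.1 m.2.1 m.2.2) }
  unfold simpleClassCount
  refine (Nat.card_congr (Quotient.congr E ?_)).symm
  intro m m'
  show Nonempty _ ↔ Nonempty _
  rw [iso_iff m.2.1 m'.2.1, iso_iff (E m).2.1 (E m').2.1]
  constructor
  · rintro ⟨b, hb, h⟩
    obtain ⟨a, rfl⟩ := hπ b
    refine ⟨a, hb, fun x hx => ?_⟩
    show π (x * a) ∈ m'.1
    rw [map_mul]
    exact h _ hx
  · rintro ⟨a, ha, h⟩
    refine ⟨π a, ha, fun y hy => ?_⟩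
    obtain ⟨x, rfl⟩ := hπ y
    rw [← map_mul]
    exact h x hy



end ring

end Crest.Agent.R170.Q940
end

-- ▼ part R170/Q2_940

/-!
Row 170 (swarm A), leaf Q, part 2 (helper940): a normal `p`-subgroup acts trivially on the simple
modules in characteristic `p`.

* `exists_fixed` : a finite `p`-group acting on a nonzero abelian group of exponent `p` fixes a
  nonzero vector;
* `fix_all` : `n - 1 ∈ m` for every maximal left ideal `m` of `k[G]` and `n` in a normal `p`-subgroup;
* `ker_le` : the kernel of `k[G] → k[G/N]` is in every maximal left ideal;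
* `lc_quot`.
-/

set_option autoImplicit false

namespace Crest.Agent.R170.Q940

open Crest.AlgebraR.Weights

/-- a fixed vector -/
theorem exists_fixed {p : ℕ} [hp : Fact p.Prime] {N V : Type*} [Group N] [Finite N]
    [AddCommGroup V] [DistribMulAction N V] (hN : IsPGroup p N) (hV : ∀ v : V, p • v = 0)
    {v : V} (hv : v ≠ 0) : ∃ w : V, w ≠ 0 ∧ ∀ n : N, n • w = w := by
  classical
  let M : AddSubgroup V := AddSubgroup.closure (Set.range fun n : N => n • v)
  have hst : ∀ n : N, ∀ x ∈ M, n • x ∈ M := by
    intro n x hx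
    induction hx using AddSubgroup.closure_induction with
    | mem x hx =>
      obtain ⟨m, rfl⟩ := hx
      exact AddSubgroup.subset_closure ⟨n * m, by simp [mul_smul]⟩
    | zero => rw [smul_zero]; exact M.zero_mem
    | add x y _ _ hx hy => rw [smul_add]; exact M.add_mem hx hy
    | neg x _ hx => rw [smul_neg]; exact M.neg_mem hx
  have hfg : AddGroup.FG M := by
    rw [AddGroup.fg_iff_addSubgroup_fg]
    exact ⟨(Set.range fun n : N => n • v).toFinite.toFinset, by simp [M]⟩
  have hfin : Finite M := by
    let _ : Module (ZMod p) M := AddCommGroup.zmodModule (fun x => Subtype.ext (by simpa using hV x.1))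
    have h1 : Module.Finite ℤ M := Module.Finite.iff_addGroup_fg.2 hfg
    have h2 : Module.Finite (ZMod p) M := Module.Finite.of_restrictScalars_finite ℤ (ZMod p) M
    exact @Module.finite_of_finite (ZMod p) M _ _ _ _ h2
  let _ : MulAction N M :=
    { smul := fun n x => ⟨n • x.1, hst n x.1 x.2⟩
      one_smul := fun x => Subtype.ext (one_smul _ _)
      mul_smul := fun a b x => Subtype.ext (mul_smul _ _ _) }
  have hvM : v ∈ M := AddSubgroup.subset_closure ⟨1, by simp⟩
  have hdvd : p ∣ Nat.card M := by
    have h1 : addOrderOf (⟨v, hvM⟩ : M) = p := by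
      refine addOrderOf_eq_prime (Subtype.ext (hV v)) fun h => hv (congrArg Subtype.val h)
    rw [← h1]
    exact addOrderOf_dvd_natCard _
  have h0 : (0 : M) ∈ MulAction.fixedPoints N M := fun n => Subtype.ext (smul_zero n)
  obtain ⟨b, hb, hne⟩ := hN.exists_fixed_point_of_prime_dvd_card_of_fixed_point M hdvd h0
  exact ⟨b.1, fun h => hne (Subtype.ext h.symm), fun n => congrArg Subtype.val (hb n)⟩

section ga

variable {k G : Type*} [Field k] [Group G] {p : ℕ} [hp : Fact p.Prime] [CharP k p]
  (N : Subgroup G) [hN : N.Normal] [Finite N]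

open MonoidAlgebra

include hp in
/-- a normal `p`-subgroup acts trivially on simple modules -/
theorem fix_all (hNp : IsPGroup p N) {m : Submodule (MonoidAlgebra k G) (MonoidAlgebra k G)}
    (hm : IsCoatom m) {n : G} (hn : n ∈ N) : single n (1 : k) - 1 ∈ m := by
  have hS : IsSimpleModule (MonoidAlgebra k G) (MonoidAlgebra k G ⧸ m) :=
    isSimpleModule_iff_isCoatom.2 hm
  let W : Submodule (MonoidAlgebra k G) (MonoidAlgebra k G ⧸ m) :=
    { carrier := {s | ∀ n ∈ N, single n (1 : k) • s = s}
      zero_mem' := fun n _ => smul_zero _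
      add_mem' := fun {a b} ha hb n hn => by rw [smul_add, ha n hn, hb n hn]
      smul_mem' := fun a s hs n hn => by
        induction a using MonoidAlgebra.induction_linear with
        | zero => simp
        | add x y hx hy => rw [add_smul, smul_add, hx, hy]
        | single g c =>
          rw [← mul_smul]
          have h1 : single n (1 : k) * single g c = single g c * single (g⁻¹ * n * g) (1 : k) := by
            rw [MonoidAlgebra.single_mul_single, MonoidAlgebra.single_mul_single]
            congr 1
            · group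
            · ring
          have h2 : g⁻¹ * n * g ∈ N := by
            have := hN.conj_mem n hn g⁻¹
            simpa using this
          rw [h1, mul_smul, hs _ h2] }
  have hW : W ≠ ⊥ := by
    let _ : MulAction N (MonoidAlgebra k G ⧸ m) :=
      { smul := fun n s => single (n : G) (1 : k) • s
        one_smul := fun s => by
          show single ((1 : N) : G) (1 : k) • s = s
          rw [Subgroup.coe_one]
          exact one_smul (MonoidAlgebra k G) s
        mul_smul := fun a b s => by
          show single ((a * b : N) : G) (1 : k) • s = single (a : G) (1 : k) • single (b : G) (1 : k) • s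
          rw [← mul_smul, MonoidAlgebra.single_mul_single, one_mul, Subgroup.coe_mul] }
    let _ : DistribMulAction N (MonoidAlgebra k G ⧸ m) :=
      { smul_zero := fun n => smul_zero (single (n : G) (1 : k))
        smul_add := fun n x y => smul_add (single (n : G) (1 : k)) x y }
    have hV : ∀ v : MonoidAlgebra k G ⧸ m, p • v = 0 := by
      intro v
      have h1 : (p : MonoidAlgebra k G) = 0 := by
        rw [← map_natCast (algebraMap k (MonoidAlgebra k G)) p, CharP.cast_eq_zero, map_zero]
      rw [← Nat.cast_smul_eq_nsmul (MonoidAlgebra k G), h1, zero_smul]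
    have hv : (Submodule.Quotient.mk 1 : MonoidAlgebra k G ⧸ m) ≠ 0 := by
      intro h
      rw [Submodule.Quotient.mk_eq_zero] at h
      exact hm.1 (Ideal.eq_top_of_isUnit_mem (I := m) h isUnit_one)
    obtain ⟨w, hw, hf⟩ := exists_fixed hNp hV hv
    intro hb
    have : w ∈ W := fun n hn => hf ⟨n, hn⟩
    rw [hb, Submodule.mem_bot] at this
    exact hw this
  have htop : W = ⊤ := (eq_bot_or_eq_top W).resolve_left hW
  have h1 : (Submodule.Quotient.mk 1 : MonoidAlgebra k G ⧸ m) ∈ W := by rw [htop]; trivial
  have h2 := h1 n hn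
  rw [← Submodule.Quotient.mk_smul, smul_eq_mul, mul_one] at h2
  rw [← Submodule.Quotient.mk_eq_zero, Submodule.Quotient.mk_sub, h2, sub_self]

include hp in
/-- the kernel of `k[G] → k[G/N]` is in every maximal left ideal -/
theorem ker_le (hNp : IsPGroup p N) {m : Submodule (MonoidAlgebra k G) (MonoidAlgebra k G)}
    (hm : IsCoatom m) (a : MonoidAlgebra k G)
    (ha : MonoidAlgebra.mapDomain (QuotientGroup.mk : G → G ⧸ N) a = 0) : a ∈ m := by
  classical
  let F : (G ⧸ N) → (MonoidAlgebra k G ⧸ m) := fun q =>
    Submodule.Quotient.mk (single q.out (1 : k))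
  have hF : ∀ g : G, (Submodule.Quotient.mk (single g (1 : k)) : MonoidAlgebra k G ⧸ m) =
      F (QuotientGroup.mk g) := by
    intro g
    show _ = Submodule.Quotient.mk (single (QuotientGroup.mk g : G ⧸ N).out (1 : k))
    obtain ⟨n, hn⟩ := QuotientGroup.mk_out_eq_mul N g
    rw [hn]
    have h1 : single (g * (n : G)) (1 : k) = single g (1 : k) * single (n : G) (1 : k) := by
      rw [MonoidAlgebra.single_mul_single, one_mul]
    rw [Eq.comm, ← sub_eq_zero, ← Submodule.Quotient.mk_sub, Submodule.Quotient.mk_eq_zero, h1]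
    have h2 : single g (1 : k) * single (n : G) (1 : k) - single g (1 : k) =
        single g (1 : k) * (single (n : G) (1 : k) - 1) := by rw [mul_sub, mul_one]
    rw [h2]
    exact m.smul_mem _ (fix_all N hNp hm n.2)
  rw [← Submodule.Quotient.mk_eq_zero]
  -- the `k`-linear map `k[G/N] → k[G]/m`
  let T : MonoidAlgebra k (G ⧸ N) →+ (MonoidAlgebra k G ⧸ m) :=
    { toFun := fun b => b.coeff.sum fun q c => (algebraMap k (MonoidAlgebra k G) c) • F q
      map_zero' := by simp
      map_add' := fun b b' => by
        show Finsupp.sum (b.coeff + b'.coeff) _ = _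
        refine Finsupp.sum_add_index' (fun q => ?_) fun q c c' => ?_
        · rw [map_zero, zero_smul]
        · rw [map_add, add_smul] }
  have key : ∀ x : MonoidAlgebra k G,
      T (MonoidAlgebra.mapDomain (QuotientGroup.mk : G → G ⧸ N) x) = Submodule.Quotient.mk x := by
    intro x
    induction x using MonoidAlgebra.induction_linear with
    | zero => rw [MonoidAlgebra.mapDomain_zero, map_zero, Submodule.Quotient.mk_zero]
    | add x y hx hy => rw [MonoidAlgebra.mapDomain_add, map_add, hx, hy, Submodule.Quotient.mk_add]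
    | single g c =>
      rw [MonoidAlgebra.mapDomain_single]
      have h1 : T (MonoidAlgebra.single (QuotientGroup.mk g : G ⧸ N) c) =
          (algebraMap k (MonoidAlgebra k G) c) • F (QuotientGroup.mk g) :=
        Finsupp.sum_single_index (h := fun q c => (algebraMap k (MonoidAlgebra k G) c) • F q)
          (by rw [map_zero, zero_smul])
      rw [h1, ← hF, ← Submodule.Quotient.mk_smul]
      congr 1
      simp
  rw [← key, ha, map_zero]

include hp in
/-- **`lc` does not change modulo a normal `p`-subgroup** -/
theorem lc_quot (hNp : IsPGroup p N) (e : MonoidAlgebra k G) :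
    blockSimpleCount e =
      blockSimpleCount (MonoidAlgebra.mapDomain (QuotientGroup.mk : G → G ⧸ N) e) := by
  let π : MonoidAlgebra k G →+* MonoidAlgebra k (G ⧸ N) :=
    MonoidAlgebra.mapDomainRingHom k (QuotientGroup.mk' N)
  have hπ : ∀ x, π x = MonoidAlgebra.mapDomain (QuotientGroup.mk : G → G ⧸ N) x := fun x => rfl
  have hs : Function.Surjective π := by
    intro y
    induction y using MonoidAlgebra.induction_linear with
    | zero => exact ⟨0, map_zero _⟩
    | add x y hx hy =>
      obtain ⟨a, rfl⟩ := hx
      obtain ⟨b, rfl⟩ := hy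
      exact ⟨a + b, map_add _ _ _⟩
    | single q c =>
      obtain ⟨g, rfl⟩ := QuotientGroup.mk_surjective q
      exact ⟨single g c, by rw [hπ, MonoidAlgebra.mapDomain_single]⟩
  refine scc_surj π hs _ _ (fun m hm _ a ha => ker_le N hNp hm a (by rw [← hπ]; exact ha))
    fun m' _ => ?_
  show π (1 - e) ∈ m' ↔ _
  rw [map_sub, map_one]
  rfl

end ga

end Crest.Agent.R170.Q940
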