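import Crest.Agent.R170.DefW_995

/-!
# Row 170: literal statements of the joints of chain A (helper995)
-/

set_option autoImplicit false

namespace Crest.Agent.R170

open MonoidAlgebra Crest.AlgebraR.Weights Crest.AlgebraR.Blocks

section one
variable (p : ℕ) [Fact p.Prime] (k : Type) [Field k] [IsAlgClosed k] [CharP k p]


/-- BR, idempotents -/
def SBrCI : Prop := ∀ (G : Type) [Group G] [Finite G] (e : MonoidAlgebra k G) (H Q : Subgroup G),
  IsPGroup p Q → Subgroup.centralizer (Q : Set G) ≤ H → H ≤ Subgroup.normalizer (Q : Set G) →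
  CI e → CI (br H Q e)

/-- OS -/
def SOs : Prop := ∀ (G : Type) [Group G] [Finite G] (e : MonoidAlgebra k G), CI e →
  ∀ g : G, ¬ (orderOf g).Coprime p → e.coeff g = 0

/-- B2 : sum over the classes of `p`-elements -/
def SB2 : Prop := ∀ (G : Type) [Group G] [Finite G] (e : MonoidAlgebra k G), CI e →
  kc e = ∑ᶠ c : {c : ConjClasses G // IsPElt p c.out},
    lc (br (Subgroup.centralizer ({c.1.out} : Set G)) (Subgroup.zpowers c.1.out) e)

/-- J1 -/
def SJ1 : Prop := ∀ (G : Type) [Group G] [Finite G] (e : MonoidAlgebra k G)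
  (z : Subalgebra.center k (MonoidAlgebra k G)), CI e →
  (z : MonoidAlgebra k G) = e * (.ofCoeff (Finsupp.equivFunOnFinite.symm fun g : G =>
    (open Classical in if IsPElt p g then (1 : k) else 0))) → trZ z = (f0 e : k)

/-- J2 -/
def SJ2 : Prop := ∀ (G : Type) [Group G] [Finite G] (e : MonoidAlgebra k G), CI e →
  (∃ N : Subgroup G, N.Normal ∧ IsPGroup p N ∧ N ≠ ⊥) → f0 e = 0

/-- Q, simple modules -/
def SQl : Prop := ∀ (G : Type) [Group G] [Finite G] (e : MonoidAlgebra k G) (N : Subgroup G)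
  [N.Normal], IsPGroup p N → CI e →
  lc (MonoidAlgebra.mapDomain (QuotientGroup.mk : G → G ⧸ N) e) = lc e

/-- Q, `d` : `|G/N| W(G/N) |N| = |G| W(G)` -/
def SQd : Prop := ∀ (G : Type) [Group G] [Finite G] (e : MonoidAlgebra k G) (N : Subgroup G)
  [N.Normal], IsPGroup p N → CI e →
  dG p e = (Nat.card N : ℤ) * dG p (MonoidAlgebra.mapDomain (QuotientGroup.mk : G → G ⧸ N) e)

/-- M : `∑_σ (-1)^|σ| |G_σ| W(G_σ, e_σ) = |G| f0(G, e)` over ALL chains -/
def SM : Prop := ∀ (G : Type) [Group G] [Finite G] (e : MonoidAlgebra k G), CI e →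
  ∑ᶠ σ : Ch p G, sgn σ * (Wt p (eC σ e) : ℤ) = (Nat.card G : ℤ) * f0 e

/-- K : over ALL chains, with `|G_σ|` -/
def SK : Prop := ∀ (G : Type) [Group G] [Finite G] (e : MonoidAlgebra k G), CI e →
  ∑ᶠ σ : Ch p G, sgn σ * ((Nat.card (st σ) : ℤ) * kc (eC σ e)) =
    ∑ᶠ σ : Ch p G, sgn σ * ((Nat.card (st σ) : ℤ) * lc (eC σ e))

/-- ORB : sums over all chains against sums over orbits -/
def SOrb : Prop := ∀ (G : Type) [Group G] [Finite G] (f : Ch p G → ℤ),
  (∀ σ τ, chRel σ τ → f σ = f τ) →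
  ∑ᶠ σ : Ch p G, sgn σ * ((Nat.card (st σ) : ℤ) * f σ) = (Nat.card G : ℤ) * altSum f

/-- S4 = the only use of (WC_c): integer form, one label `c`; `a_H(c) = #{[x,y] = c} / |C_H(c)|` -/
def SS4 : Prop := WCc p → ∀ (G : Type) [Group G] [Finite G] (c : G), (orderOf c).Coprime p →
  ((p * pPart p (Nat.card G) : ℕ) : ℤ) ∣
    ∑ᶠ σ : Ch p G, sgn σ * (Nat.card {w : st σ × st σ //
        IsConj ((w.1 * w.2 * w.1⁻¹ * w.2⁻¹ : st σ) : G) c} : ℤ) -
      (Nat.card {w : G × G × G // IsConj w.2.2 c ∧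
        IsPElt p (w.2.2⁻¹ * (w.1 * w.2.1 * w.1⁻¹ * w.2.1⁻¹))} : ℤ)

/-- TP = T + C + S4 + OS + J1 + K + ORB: `∑_{σ/G} (-1)^|σ| lc(G_σ, e_σ) = f0(G, e)` mod p -/
def STP : Prop := WCc p → ∀ (G : Type) [Group G] [Finite G] (e : MonoidAlgebra k G), CI e →
  (p : ℤ) ∣ altSum (fun σ : Ch p G => (lc (eC σ e) : ℤ)) - f0 e

/-- P -/
def SP : Prop := WCc p → ∀ (G : Type) [Group G] [Finite G] (e : MonoidAlgebra k G), CI e →
  ∃ m : ℤ, dG p e = (Nat.card G : ℤ) * (p * m)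

/-- WR = WL + WW: the wreath product; `l = lc e`, `W = Wt / |G|` -/
def SWR : Prop := ∀ (G : Type) [Group G] [Finite G] (e : MonoidAlgebra k G) (W : ℕ), CI e →
  Wt p e = Nat.card G * W →
  ∃ (Γ : Type) (_ : Group Γ) (_ : Finite Γ) (E : MonoidAlgebra k Γ) (W' : ℕ), CI E ∧
    Wt p E = Nat.card Γ * W' ∧ (p : ℤ) * lc E = (lc e : ℤ) ^ p - lc e + p * lc e ∧
      (p : ℤ) * W' = (W : ℤ) ^ p - W + p * W

end one

end Crest.Agent.R170
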