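import Mathlib
import Crest.Agent.R170.P2_482

-- ▼ part R170/WLa_512
section

/-! Row 170, leaf WL, part a (helper512): interpolation for functions on a power `ι → X` all of whose partial
functions lie in a finite-dimensional space `V` of functions on `X`, its compatibility with permutations of
`ι`, and the dimension of the functions invariant under a group of permutations. -/

set_option autoImplicit false

namespace Crest.Agent.R170.WL512

open Function

variable {k : Type*} [Field k]

/-- Interpolation points. -/
theorem exists_points {X : Type*} (V : Submodule k (X → k)) [FiniteDimensional k V] :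
    ∃ (κ : Type) (_ : Fintype κ) (a : κ → X), Nat.card κ = Module.finrank k V ∧
      Bijective (fun v : V => fun j : κ => (v : X → k) (a j)) := by
  classical
  -- evaluation functionals
  let ev : X → Module.Dual k V := fun x => (LinearMap.proj x).comp V.subtype
  obtain ⟨κ, a, ha, hspan, hli⟩ := exists_linearIndependent' k ev
  have hfin : Finite κ := hli.finite
  let _ := Fintype.ofFinite κ
  have htop : Submodule.span k (Set.range ev) = ⊤ := by
    have hbot : (Submodule.span k (Set.range ev)).dualCoannihilator = ⊥ := by
      rw [eq_bot_iff]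
      intro v hv
      rw [Submodule.mem_dualCoannihilator] at hv
      simp only [Submodule.mem_bot]
      ext x
      exact hv (ev x) (Submodule.subset_span ⟨x, rfl⟩)
    rw [← Subspace.dualCoannihilator_dualAnnihilator_eq (W := Submodule.span k (Set.range ev)), hbot,
      Submodule.dualAnnihilator_bot]
  let b : Module.Basis κ k (Module.Dual k V) :=
    Module.Basis.mk hli (by rw [hspan, htop])
  have hcard : Fintype.card κ = Module.finrank k V := by
    rw [← Subspace.dual_finrank_eq (K := k) (V := V)]
    exact (Module.finrank_eq_card_basis b).symm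
  have hinj : Injective (fun v : V => fun j : κ => (v : X → k) (a j)) := by
    intro v w hvw
    have h0 : ∀ f : Module.Dual k V, f (v - w) = 0 := by
      intro f
      have : f ∈ Submodule.span k (Set.range (ev ∘ a)) := by rw [hspan, htop]; trivial
      induction this using Submodule.span_induction with
      | mem f hf =>
        obtain ⟨j, rfl⟩ := hf
        have := congrFun hvw j
        simp only [comp, ev, LinearMap.comp_apply, map_sub]
        exact sub_eq_zero.2 this
      | zero => rfl
      | add f g _ _ hf hg => simp [hf, hg]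
      | smul c f _ hf => simp [hf]
    have := (Module.forall_dual_apply_eq_zero_iff k (v - w)).1 h0
    exact sub_eq_zero.1 this
  let L : V →ₗ[k] (κ → k) :=
    { toFun := fun v j => (v : X → k) (a j)
      map_add' := fun _ _ => rfl
      map_smul' := fun _ _ => rfl }
  have hinjL : Injective L := hinj
  have hsurj : Surjective L := by
    refine (LinearMap.injective_iff_surjective_of_finrank_eq_finrank ?_).1 hinjL
    rw [Module.finrank_fintype_fun_eq_card, hcard]
  -- universe change of κ
  refine ⟨Fin (Fintype.card κ), inferInstance, a ∘ (Fintype.equivFin κ).symm, ?_, ?_, ?_⟩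
  · simp [hcard]
  · intro v w hvw
    apply hinj
    funext j
    have := congrFun hvw (Fintype.equivFin κ j)
    simpa using this
  · intro f
    obtain ⟨v, hv⟩ := hsurj (f ∘ Fintype.equivFin κ)
    refine ⟨v, ?_⟩
    funext j
    have := congrFun hv ((Fintype.equivFin κ).symm j)
    simpa [L] using this

/-! ### Functions on a power whose partial functions are in `V` -/

variable {ι X : Type*} [Fintype ι] [DecidableEq ι]

/-- Functions on `ι → X` all of whose partial functions lie in `V`. -/
def Part (ι : Type*) [DecidableEq ι] {X : Type*} (V : Submodule k (X → k)) : Submodule k ((ι → X) → k) where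
  carrier := {F | ∀ (i : ι) (g : ι → X), (fun x => F (update g i x)) ∈ V}
  add_mem' := by
    intro F G hF hG i g
    exact V.add_mem (hF i g) (hG i g)
  zero_mem' := by
    intro i g
    exact V.zero_mem
  smul_mem' := by
    intro c F hF i g
    exact V.smul_mem c (hF i g)


/-- An element of `Part ι V` vanishing on the grid of points is zero. -/
theorem Part.eq_zero {V : Submodule k (X → k)} {κ : Type*} {a : κ → X}
    (ha : Injective (fun v : V => fun j : κ => (v : X → k) (a j)))
    {F : (ι → X) → k} (hF : F ∈ Part ι V) (h0 : ∀ I : ι → κ, F (fun i => a (I i)) = 0) : F = 0 := by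
  classical
  have key : ∀ s : Finset ι, ∀ g : ι → X, (∀ i ∉ s, g i ∈ Set.range a) → F g = 0 := by
    intro s
    induction s using Finset.induction_on with
    | empty =>
      intro g hg
      choose I hI using fun i => hg i (by simp)
      have : g = fun i => a (I i) := funext fun i => (hI i).symm
      rw [this]
      exact h0 I
    | insert i s hi ih =>
      intro g hg
      have hv : (⟨fun x => F (update g i x), hF i g⟩ : V) = 0 := by
        apply ha
        funext j
        change F (update g i (a j)) = 0
        apply ih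
        intro i' hi'
        by_cases h : i' = i
        · subst h
          simp
        · rw [update_of_ne h]
          exact hg i' (by simp [h, hi'])
      have := congrFun (congrArg Subtype.val hv) (g i)
      simpa using this
  funext g
  exact key Finset.univ g (by simp)


/-- The explicit interpolation: every `f` on the grid is the restriction of a combination of products of
elements of `V`. -/
theorem exists_prod {V : Submodule k (X → k)} {κ : Type*} [Fintype κ] {a : κ → X}
    (ha : Bijective (fun v : V => fun j : κ => (v : X → k) (a j))) :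
    ∃ φ : κ → X → k, (∀ j, φ j ∈ V) ∧ ∀ f : (ι → κ) → k, ∀ J : ι → κ,
      (∑ I : ι → κ, f I * ∏ i, φ (I i) (a (J i))) = f J := by
  classical
  have h1 : ∀ j : κ, ∃ v : V, ∀ i, (v : X → k) (a i) = if j = i then 1 else 0 := by
    intro j
    obtain ⟨v, hv⟩ := ha.2 (fun i => if j = i then 1 else 0)
    exact ⟨v, fun i => congrFun hv i⟩
  choose v hv using h1
  refine ⟨fun j => v j, fun j => (v j).2, ?_⟩
  intro f J
  rw [Finset.sum_eq_single J]
  · simp [hv]
  · intro I _ hI
    obtain ⟨i, hi⟩ := Function.ne_iff.1 hI
    rw [Finset.prod_eq_zero (Finset.mem_univ i), mul_zero]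
    change (v (I i) : X → k) (a (J i)) = 0
    rw [hv, if_neg hi]
  · simp

/-! ### Invariant functions and orbits -/

/-- Functions invariant under a group. -/
def Inv (k Q Y : Type*) [Field k] [Group Q] [MulAction Q Y] : Submodule k (Y → k) where
  carrier := {f | ∀ (q : Q) (y : Y), f (q • y) = f y}
  add_mem' := by
    intro f g hf hg q y
    simp [hf q y, hg q y]
  zero_mem' := by
    intro q y
    rfl
  smul_mem' := by
    intro c f hf q y
    simp [hf q y]

theorem finrank_Inv (k Q Y : Type*) [Field k] [Group Q] [MulAction Q Y] [Finite Y] :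
    Module.finrank k (Inv k Q Y) = Nat.card (MulAction.orbitRel.Quotient Q Y) := by
  classical
  have hfin : Finite (MulAction.orbitRel.Quotient Q Y) := Quotient.finite _
  let _ := Fintype.ofFinite (MulAction.orbitRel.Quotient Q Y)
  let L : (MulAction.orbitRel.Quotient Q Y → k) →ₗ[k] Inv k Q Y :=
    { toFun := fun f => ⟨fun y => f (Quotient.mk _ y), by
        intro q y
        exact congrArg f (Quotient.sound (s := MulAction.orbitRel Q Y)
          (show (q • y) ∈ MulAction.orbit Q y from ⟨q, rfl⟩))⟩
      map_add' := fun _ _ => rfl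
      map_smul' := fun _ _ => rfl }
  have hinj : Injective L := by
    intro f g hfg
    funext ω
    induction ω using Quotient.inductionOn with
    | h y => exact congrFun (congrArg Subtype.val hfg) y
  have hsurj : Surjective L := by
    intro f
    refine ⟨fun ω => Quotient.liftOn ω f.1 ?_, ?_⟩
    · rintro y z ⟨q, rfl⟩
      exact f.2 q z
    · rfl
  rw [← (LinearEquiv.ofBijective L ⟨hinj, hsurj⟩).finrank_eq, Module.finrank_fintype_fun_eq_card,
    Nat.card_eq_fintype_card]

/-- The number of orbits of rotations: `Q` of prime order `p` acting on `Q → κ` by translations. -/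
theorem card_orbits {p : ℕ} (hp : p.Prime) (Q κ : Type*) [Group Q] [Finite Q] (hQ : Nat.card Q = p)
    [Finite κ] [MulAction Q (Q → κ)] (hact : ∀ (q : Q) (I : Q → κ), q • I = fun x => I (q⁻¹ * x)) :
    Nat.card (MulAction.orbitRel.Quotient Q (Q → κ)) =
      (Nat.card κ ^ p - Nat.card κ) / p + Nat.card κ := by
  classical
  let _ := Fintype.ofFinite Q
  let _ := Fintype.ofFinite κ
  have hfin : Finite (MulAction.orbitRel.Quotient Q (Q → κ)) := Quotient.finite _
  let _ := Fintype.ofFinite (MulAction.orbitRel.Quotient Q (Q → κ))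
  have hB := MulAction.sum_card_fixedBy_eq_card_orbits_mul_card_group Q (Q → κ)
  have hQ' : Fintype.card Q = p := by rw [← Nat.card_eq_fintype_card, hQ]
  have h1 : Fintype.card (MulAction.fixedBy (Q → κ) (1 : Q)) = Fintype.card κ ^ p := by
    rw [← hQ', ← Fintype.card_fun]
    apply Fintype.card_congr
    refine (Equiv.subtypeUnivEquiv ?_)
    intro I
    simp
  have h2 : ∀ q : Q, q ≠ 1 → Fintype.card (MulAction.fixedBy (Q → κ) q) = Fintype.card κ := by
    intro q hq
    have hzt : Subgroup.zpowers q = ⊤ := by
      have : Fact p.Prime := ⟨hp⟩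
      exact zpowers_eq_top_of_prime_card hQ hq
    refine (Fintype.card_congr (Equiv.ofBijective
      (fun c : κ => (⟨fun _ => c, by simp [MulAction.mem_fixedBy, hact]⟩ :
        MulAction.fixedBy (Q → κ) q)) ⟨?_, ?_⟩)).symm
    · intro c d hcd
      have := congrArg (fun F : MulAction.fixedBy (Q → κ) q => (F : Q → κ) 1) hcd
      exact this
    · rintro ⟨I, hI⟩
      rw [MulAction.mem_fixedBy] at hI
      refine ⟨I 1, ?_⟩
      apply Subtype.ext
      funext x
      change I 1 = I x
      have hstab : ∀ r ∈ Subgroup.zpowers q, r • I = I := by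
        intro r hr
        have : Subgroup.zpowers q ≤ MulAction.stabilizer Q I := by
          rw [Subgroup.zpowers_le]
          exact hI
        exact this hr
      have := congrFun (hstab x (by rw [hzt]; trivial)) x
      rw [hact] at this
      simpa using this
  have hsum : (∑ q : Q, Fintype.card (MulAction.fixedBy (Q → κ) q)) =
      Fintype.card κ ^ p + (p - 1) * Fintype.card κ := by
    rw [← Finset.add_sum_erase Finset.univ _ (Finset.mem_univ (1 : Q)), h1,
      Finset.sum_congr rfl (fun q hq => h2 q (Finset.ne_of_mem_erase hq))]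
    simp [hQ']
  rw [hsum, hQ'] at hB
  have hpos := hp.pos
  have hle : Fintype.card κ ≤ Fintype.card κ ^ p := Nat.le_self_pow hp.ne_zero _
  rw [Nat.card_eq_fintype_card, Nat.card_eq_fintype_card]
  set l := Fintype.card κ
  set o := Fintype.card (MulAction.orbitRel.Quotient Q (Q → κ))
  have h3 : l ^ p - l + p * l = o * p := by
    obtain ⟨p', rfl⟩ : ∃ p', p = p' + 1 := ⟨p - 1, by omega⟩
    simp only [Nat.add_sub_cancel] at hB
    have : (p' + 1) * l = p' * l + l := by ring
    rw [this]
    omega
  have h4 : (l ^ p - l + p * l) / p = (l ^ p - l) / p + l := by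
    rw [Nat.add_mul_div_left _ _ hpos]
  rw [← h4, h3, Nat.mul_div_cancel _ hpos]

end Crest.Agent.R170.WL512
end

-- ▼ part R170/WLb_512

/-! Row 170, leaf WL, part b (helper512): class functions constant on `p`-sections, stability under the
action of central elements of `kH`, values on `x^{p^n}`. -/

set_option autoImplicit false

namespace Crest.Agent.R170.WL512

open Crest.Agent.R170

/-- `p^n`-th power maps `H` onto its `p`-regular elements and fixes them. -/
def Good (p n : ℕ) (H : Type*) [Group H] : Prop := 1 ≤ n ∧ ∀ h : H, (h ^ p ^ n) ^ p ^ n = h ^ p ^ n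

section
variable {k H : Type*} [Field k] [Group H] [Fintype H]

/-- class functions `φ` with `φ(g^(p^n)) = φ(g)` and `φ(e g) = φ(g)` -/
def TFf (p n : ℕ) (e : MonoidAlgebra k H) : Submodule k (H → k) where
  carrier := {φ | (∀ g h, φ (g * h) = φ (h * g)) ∧ (∀ g, φ (g ^ p ^ n) = φ g) ∧
    ∀ g, ∑ h, e.coeff h * φ (h * g) = φ g}
  add_mem' := by
    rintro φ ψ ⟨h1, h2, h3⟩ ⟨i1, i2, i3⟩
    refine ⟨fun g h => ?_, fun g => ?_, fun g => ?_⟩
    · simp [h1 g h, i1 g h]
    · simp [h2 g, i2 g]
    · simp only [Pi.add_apply, mul_add, Finset.sum_add_distrib, h3 g, i3 g]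
  zero_mem' := by
    refine ⟨fun g h => rfl, fun g => rfl, fun g => ?_⟩
    simp
  smul_mem' := by
    rintro c φ ⟨h1, h2, h3⟩
    refine ⟨fun g h => ?_, fun g => ?_, fun g => ?_⟩
    · simp [h1 g h]
    · simp [h2 g]
    · simp only [Pi.smul_apply, smul_eq_mul]
      rw [← h3 g, Finset.mul_sum]
      refine Finset.sum_congr rfl fun h _ => by ring

/-- the linear extension of a function on the group -/
noncomputable def ext (φ : H → k) : MonoidAlgebra k H →+ k where
  toFun x := ∑ g, x.coeff g * φ g
  map_zero' := by simp
  map_add' x y := by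
    simp [add_mul, Finset.sum_add_distrib]

theorem ext_apply (φ : H → k) (x : MonoidAlgebra k H) : ext φ x = ∑ g, x.coeff g * φ g := rfl

theorem ext_single (φ : H → k) (g : H) (c : k) : ext φ (MonoidAlgebra.single g c) = c * φ g := by
  classical
  rw [ext_apply, Finset.sum_eq_single g]
  · simp
  · intro h _ hh
    rw [MonoidAlgebra.coeff_single, Finsupp.single_apply, if_neg (fun h' => hh h'.symm), zero_mul]
  · simp

theorem ext_mul_single (φ : H → k) (x : MonoidAlgebra k H) (g : H) :
    ext φ (x * MonoidAlgebra.single g 1) = ∑ h, x.coeff h * φ (h * g) := by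
  rw [ext_apply]
  refine Fintype.sum_equiv (Equiv.mulRight g⁻¹) _ _ ?_
  intro h
  rw [MonoidAlgebra.coeff_mul_single_apply]
  simp

theorem ext_trace {φ : H → k} (hφ : ∀ g h, φ (g * h) = φ (h * g)) (x y : MonoidAlgebra k H) :
    ext φ (x * y) = ext φ (y * x) := by
  have key : ∀ x y : MonoidAlgebra k H,
      ext φ (x * y) = ∑ g, ∑ h, x.coeff g * y.coeff h * φ (g * h) := by
    intro x y
    conv_lhs => rw [J482.eq_sum_single x, J482.eq_sum_single y]
    rw [Finset.sum_mul_sum, map_sum]
    refine Finset.sum_congr rfl fun g _ => ?_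
    rw [map_sum]
    refine Finset.sum_congr rfl fun h _ => ?_
    rw [MonoidAlgebra.single_mul_single, ext_single]
  rw [key, key, Finset.sum_comm]
  refine Finset.sum_congr rfl fun g _ => Finset.sum_congr rfl fun h _ => ?_
  rw [hφ, mul_comm (x.coeff h)]

/-- the value on a `p^n`-th power -/
theorem ext_pow (p n : ℕ) [Fact p.Prime] [CharP k p] {φ : H → k}
    (hφ : ∀ g h, φ (g * h) = φ (h * g)) (h2 : ∀ g, φ (g ^ p ^ n) = φ g) (x : MonoidAlgebra k H) :
    ext (fun g => φ g ^ p ^ n) (x ^ p ^ n) = ext φ x ^ p ^ n := by
  classical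
  have h3 : ∀ g h, (fun g => φ g ^ p ^ n) (g * h) = (fun g => φ g ^ p ^ n) (h * g) := by
    intro g h
    simp only [hφ g h]
  conv_lhs => rw [J482.eq_sum_single x]
  rw [J482.trace_pow p n (ext fun g => φ g ^ p ^ n) (fun a b => ext_trace h3 a b)]
  rw [ext_apply, sum_pow_char_pow]
  refine Finset.sum_congr rfl fun g _ => ?_
  rw [MonoidAlgebra.single_pow, ext_single, h2, mul_pow]

theorem ext_nilpotent (p n : ℕ) [Fact p.Prime] [CharP k p] {φ : H → k}
    (hφ : ∀ g h, φ (g * h) = φ (h * g)) (h2 : ∀ g, φ (g ^ p ^ n) = φ g) (x : MonoidAlgebra k H)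
    (hx : x ^ p ^ n = 0) : ext φ x = 0 := by
  have := ext_pow p n hφ h2 x
  rw [hx, map_zero] at this
  exact pow_eq_zero_iff (pow_pos (Fact.out : p.Prime).pos n).ne' |>.1 this.symm

/-- stability: for central `z`, the function `g ↦ φ(z g)` is again invariant under `g ↦ g^(p^n)` -/
theorem stab (p n : ℕ) [Fact p.Prime] [CharP k p] (hg : Good p n H) {φ : H → k}
    (hφ : ∀ g h, φ (g * h) = φ (h * g)) (h2 : ∀ g, φ (g ^ p ^ n) = φ g) {z : MonoidAlgebra k H}
    (hz : ∀ x, z * x = x * z) (g : H) :
    ∑ h, z.coeff h * φ (h * g ^ p ^ n) = ∑ h, z.coeff h * φ (h * g) := by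
  rw [← ext_mul_single, ← ext_mul_single, ← sub_eq_zero, ← map_sub, ← mul_sub]
  apply ext_nilpotent p n hφ h2
  have hc : Commute z (MonoidAlgebra.single (g ^ p ^ n) 1 - MonoidAlgebra.single g 1) := hz _
  rw [hc.mul_pow]
  have hcg : Commute (MonoidAlgebra.single (g ^ p ^ n) (1 : k)) (MonoidAlgebra.single g 1) := by
    change _ * _ = _ * _
    rw [MonoidAlgebra.single_mul_single, MonoidAlgebra.single_mul_single]
    congr 1
    exact (Commute.pow_self g _)
  have hchar : CharP (MonoidAlgebra k H) p := by
    exact charP_of_injective_algebraMap (FaithfulSMul.algebraMap_injective k (MonoidAlgebra k H)) p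
  rw [sub_pow_char_pow_of_commute (p := p) (n := n) hcg, MonoidAlgebra.single_pow, MonoidAlgebra.single_pow,
    one_pow, hg.2 g, sub_self, mul_zero]

end

end Crest.Agent.R170.WL512
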