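import Mathlib
import Crest.Agent.R170.Wr_350
import Crest.Agent.R170.HD_534
import Crest.Agent.R170.J2_356
import Crest.Agent.R170.BR_606
import Crest.Agent.R170.WW4_148
import Crest.Agent.R170.F0iso_538

-- ▼ part R170/WWa_350
section

/-!
# Row 170, leaf WW, part a: sums over conjugacy classes of subgroups (helper350)
-/

set_option autoImplicit false

namespace Crest.Agent.R170

open MonoidAlgebra Crest.AlgebraR.Weights Crest.AlgebraR.Blocks

section conj
variable {G : Type} [Group G]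

/-- conjugate subgroup -/
def cj (g : G) (Q : Subgroup G) : Subgroup G := Q.map (MulAut.conj g).toMonoidHom

theorem mem_cj (g x : G) (Q : Subgroup G) : x ∈ cj g Q ↔ g⁻¹ * x * g ∈ Q := by
  unfold cj
  rw [Subgroup.mem_map]
  constructor
  · rintro ⟨y, hy, rfl⟩
    simpa [MulAut.conj_apply, mul_assoc] using hy
  · intro h
    exact ⟨_, h, by simp [MulAut.conj_apply, mul_assoc]⟩

theorem cj_one (Q : Subgroup G) : cj 1 Q = Q := by
  ext x; simp [mem_cj]

theorem cj_mul (g h : G) (Q : Subgroup G) : cj (g * h) Q = cj g (cj h Q) := by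
  ext x; simp [mem_cj, mul_assoc]

theorem cj_inv_cj (g : G) (Q : Subgroup G) : cj g⁻¹ (cj g Q) = Q := by
  rw [← cj_mul, inv_mul_cancel, cj_one]


theorem cj_eq_iff (g : G) (Q : Subgroup G) :
    cj g Q = Q ↔ g ∈ Subgroup.normalizer (Q : Set G) := by
  rw [Subgroup.mem_normalizer_iff]
  constructor
  · intro h x
    have h1 : g * x * g⁻¹ ∈ cj g Q ↔ x ∈ Q := by
      rw [mem_cj]; simp [mul_assoc]
    rw [h] at h1
    exact h1.symm
  · intro h
    ext x
    rw [mem_cj]
    have h1 := h (g⁻¹ * x * g)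
    have h2 : g * (g⁻¹ * x * g) * g⁻¹ = x := by group
    rw [h2] at h1
    exact h1

theorem isPGroup_cj {p : ℕ} (g : G) {Q : Subgroup G} (h : IsPGroup p Q) : IsPGroup p (cj g Q) :=
  h.map _

theorem normalizer_cj (g : G) (Q : Subgroup G) :
    Subgroup.normalizer ((cj g Q : Subgroup G) : Set G) =
      cj g (Subgroup.normalizer (Q : Set G)) := by
  ext x
  rw [← cj_eq_iff, mem_cj, ← cj_eq_iff]
  constructor
  · intro h
    rw [cj_mul, cj_mul, h, cj_inv_cj]
  · intro h
    have h1 : cj g (cj (g⁻¹ * x * g) Q) = cj g Q := by rw [h]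
    rw [← cj_mul] at h1
    have h2 : g * (g⁻¹ * x * g) = x * g := by group
    rw [h2, cj_mul] at h1
    exact h1

theorem card_cj (g : G) (Q : Subgroup G) : Nat.card (cj g Q : Subgroup G) = Nat.card Q := by
  unfold cj
  exact Nat.card_congr (Subgroup.equivMapOfInjective Q _ (MulAut.conj g).injective).toEquiv.symm

theorem card_normalizer_cj (g : G) (Q : Subgroup G) :
    Nat.card (Subgroup.normalizer ((cj g Q : Subgroup G) : Set G)) =
      Nat.card (Subgroup.normalizer (Q : Set G)) := by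
  rw [normalizer_cj, card_cj]

/-- the action of `G` on its subgroups by conjugation -/
@[reducible] def cjAct : MulAction G (Subgroup G) where
  smul g Q := cj g Q
  one_smul := cj_one
  mul_smul := cj_mul

/-- orbit-stabiliser for conjugation of subgroups -/
theorem card_conj_mul [Finite G] (Q : Subgroup G) :
    Nat.card {R : Subgroup G // ∃ g : G, R = cj g Q} *
      Nat.card (Subgroup.normalizer (Q : Set G)) = Nat.card G := by
  let _i : MulAction G (Subgroup G) := cjAct
  have h1 : MulAction.stabilizer G Q = Subgroup.normalizer (Q : Set G) := by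
    ext x
    rw [MulAction.mem_stabilizer_iff, ← cj_eq_iff]
    rfl
  have h2 := MulAction.orbitEquivQuotientStabilizer G Q
  have h3 : Nat.card {R : Subgroup G // ∃ g : G, R = cj g Q} = Nat.card (G ⧸ MulAction.stabilizer G Q) := by
    rw [← Nat.card_congr h2]
    apply Nat.card_congr
    apply Equiv.subtypeEquivRight
    intro R
    constructor
    · rintro ⟨g, rfl⟩; exact ⟨g, rfl⟩
    · rintro ⟨g, rfl⟩; exact ⟨g, rfl⟩
  rw [h3, ← h1]
  exact (Subgroup.card_eq_card_quotient_mul_card_subgroup _).symm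

/-- conjugacy of the subgroups with property `P` -/
def cRel (P : Subgroup G → Prop) (Q R : {Q : Subgroup G // P Q}) : Prop := ∃ g : G, R.1 = cj g Q.1

theorem cRel_equiv (P : Subgroup G → Prop) : Equivalence (cRel P) where
  refl Q := ⟨1, (cj_one _).symm⟩
  symm := by
    rintro Q R ⟨g, hg⟩
    exact ⟨g⁻¹, by rw [hg, cj_inv_cj]⟩
  trans := by
    rintro Q R S ⟨g, hg⟩ ⟨h, hh⟩
    exact ⟨h * g, by rw [hh, hg, cj_mul]⟩

theorem cRel_of_mk (P : Subgroup G → Prop) {Q R : {Q : Subgroup G // P Q}}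
    (h : Quot.mk (cRel P) Q = Quot.mk (cRel P) R) : cRel P Q R := by
  have h1 := Quot.eqvGen_exact h
  exact (cRel_equiv P).eqvGen_iff.1 h1

/-- sums over a conjugation invariant set of subgroups -/
theorem conjSum [Finite G] (P : Subgroup G → Prop) (hP : ∀ g Q, P Q → P (cj g Q))
    (f : Subgroup G → ℕ) (hf : ∀ g Q, f (cj g Q) = f Q) :
    ∑ᶠ Q : {Q : Subgroup G // P Q}, Nat.card (Subgroup.normalizer (Q.1 : Set G)) * f Q.1 =
      Nat.card G * ∑ᶠ ω : Quot (cRel P), f ω.out.1 := by
  classical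
  have : Fintype {Q : Subgroup G // P Q} := Fintype.ofFinite _
  have : Finite (Quot (cRel P)) := Finite.of_surjective _ Quot.mk_surjective
  have : Fintype (Quot (cRel P)) := Fintype.ofFinite _
  rw [finsum_eq_sum_of_fintype, finsum_eq_sum_of_fintype, Finset.mul_sum,
    ← Finset.sum_fiberwise (s := Finset.univ) (g := fun Q => Quot.mk (cRel P) Q)]
  apply Finset.sum_congr rfl
  intro ω _
  have h1 : ∀ Q ∈ Finset.univ.filter (fun Q : {Q : Subgroup G // P Q} => Quot.mk (cRel P) Q = ω),
      Nat.card (Subgroup.normalizer (Q.1 : Set G)) * f Q.1 =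
        Nat.card (Subgroup.normalizer (ω.out.1 : Set G)) * f ω.out.1 := by
    intro Q hQ
    rw [Finset.mem_filter] at hQ
    have h2 : cRel P ω.out Q := cRel_of_mk P (by rw [hQ.2]; exact Quot.out_eq ω)
    obtain ⟨g, hg⟩ := h2
    rw [hg, card_normalizer_cj, hf]
  rw [Finset.sum_congr rfl h1, Finset.sum_const, smul_eq_mul, ← mul_assoc]
  congr 1
  have h3 := card_conj_mul (ω.out.1)
  have h4 : (Finset.univ.filter (fun Q : {Q : Subgroup G // P Q} => Quot.mk (cRel P) Q = ω)).card =
      Nat.card {R : Subgroup G // ∃ g : G, R = cj g ω.out.1} := by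
    rw [← Fintype.card_subtype, ← Nat.card_eq_fintype_card]
    refine Nat.card_congr ⟨fun Q => ⟨Q.1.1, ?_⟩, fun R => ⟨⟨R.1, ?_⟩, ?_⟩, fun _ => rfl, fun _ => rfl⟩
    · exact cRel_of_mk P (by rw [Q.2]; exact Quot.out_eq ω)
    · obtain ⟨g, hg⟩ := R.2
      rw [hg]
      exact hP g _ ω.out.2
    · have h5 : ∃ g : G, R.1 = cj g ω.out.1 := R.2
      have h6 : Quot.mk (cRel P) ω.out = Quot.mk (cRel P) ⟨R.1, by
          obtain ⟨g, hg⟩ := h5
          rw [hg]
          exact hP g _ ω.out.2⟩ := Quot.sound h5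
      exact h6.symm.trans (Quot.out_eq ω)
  rw [h4]
  exact h3

end conj

end Crest.Agent.R170
end

-- ▼ part R170/WWb_350
section

/-!
# Row 170, leaf WW, part b: type 2 subgroups `R ≀ C` and the assembly (helper350)
-/

set_option autoImplicit false

namespace Crest.Agent.R170

open MonoidAlgebra Crest.AlgebraR.Weights Crest.AlgebraR.Blocks

section inv
variable {k G : Type} [Field k] [Group G] [Finite G]

/-- `f0` of the local image is invariant under conjugation -/
theorem f0_cj {e : MonoidAlgebra k G} (he : ∀ x : MonoidAlgebra k G, e * x = x * e)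
    (g : G) (Q : Subgroup G) :
    f0 (localImage (cj g Q) e) = f0 (localImage Q e) := by
  have h := HD534.f0_transport (MulAut.conj g) Q e
  rw [HD534.domConj_eq he] at h
  exact h

/-- only radical `p`-subgroups contribute -/
theorem isRad_of_f0 {p : ℕ} [Fact p.Prime] [IsAlgClosed k] [CharP k p] {Q : Subgroup G}
    (hQ : IsPGroup p Q) {x : MonoidAlgebra k (NormQuot Q)} (hx : CI x)
    (h : f0 x ≠ 0) : IsRad p Q := by
  refine ⟨hQ, fun K hK hKN hNK => ?_⟩
  by_contra hKQ
  apply h
  refine J356.sj2 p k (NormQuot Q) x hx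
    ⟨(K.subgroupOf (Subgroup.normalizer (Q : Set G))).map (QuotientGroup.mk' _), ?_, ?_, ?_⟩
  · have h1 : (K.subgroupOf (Subgroup.normalizer (Q : Set G))).Normal := by
      constructor
      intro n hn g
      rw [Subgroup.mem_subgroupOf] at hn ⊢
      have h2 := Subgroup.mem_normalizer_iff.1 (hNK g.2) (n : G)
      exact h2.1 hn
    exact h1.map _ (QuotientGroup.mk'_surjective _)
  · exact IsPGroup.map (IsPGroup.comap_subtype hK) _
  · intro h2
    apply hKQ
    intro x hxK
    have h3 : (QuotientGroup.mk' (Q.subgroupOf (Subgroup.normalizer (Q : Set G)))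
        ⟨x, hKN hxK⟩) ∈ ((K.subgroupOf (Subgroup.normalizer (Q : Set G))).map
          (QuotientGroup.mk' (Q.subgroupOf (Subgroup.normalizer (Q : Set G))))) :=
      Subgroup.mem_map_of_mem _ (Subgroup.mem_subgroupOf.2 hxK)
    rw [h2, Subgroup.mem_bot, QuotientGroup.mk'_apply, QuotientGroup.eq_one_iff,
      Subgroup.mem_subgroupOf] at h3
    exact h3

end inv

section type2
variable {k G C : Type} [Field k] [Group G] [Finite G] [Group C] [Fintype C]

/-- subgroups conjugate to some `R ≀ C` -/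
def P2 (p : ℕ) (G C : Type) [Group G] [Group C] (Q : Subgroup (G ≀ᵣ C)) : Prop :=
  ∃ (g : G ≀ᵣ C) (R : Subgroup G), IsPGroup p R ∧ Q = cj g (wrSub R)

theorem P2_cj {p : ℕ} (g : G ≀ᵣ C) (Q : Subgroup (G ≀ᵣ C)) (h : P2 p G C Q) :
    P2 p G C (cj g Q) := by
  obtain ⟨h, R, hR, rfl⟩ := h
  exact ⟨g * h, R, hR, by rw [cj_mul]⟩

theorem sum_type2 {p : ℕ} {e : MonoidAlgebra k G} (hE : CI (wE C e)) (he : CI e)
    (hd : ∀ R R' : Subgroup G, (∃ g : G ≀ᵣ C, wrSub R' = cj g (wrSub R)) ↔ ∃ g : G, R' = cj g R)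
    (hf : ∀ R : Subgroup G, IsPGroup p R →
      f0 (localImage (wrSub R) (wE C e)) = f0 (localImage R e)) :
    ∑ᶠ Q : {Q : Subgroup (G ≀ᵣ C) // P2 p G C Q},
      Nat.card (Subgroup.normalizer (Q.1 : Set (G ≀ᵣ C))) * f0 (localImage Q.1 (wE C e)) =
      Nat.card (G ≀ᵣ C) * ∑ᶠ ω : Quot (cRel fun R : Subgroup G => IsPGroup p R),
        f0 (localImage ω.out.1 e) := by
  have h1 := conjSum (P2 p G C) P2_cj (fun Q => f0 (localImage Q (wE C e)))
    (fun g Q => f0_cj hE.1 g Q)
  rw [h1]
  congr 1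
  symm
  let F : {R : Subgroup G // IsPGroup p R} → {Q : Subgroup (G ≀ᵣ C) // P2 p G C Q} :=
    fun R => ⟨wrSub R.1, 1, R.1, R.2, (cj_one _).symm⟩
  have hF : ∀ R R', cRel (fun R : Subgroup G => IsPGroup p R) R R' → cRel (P2 p G C) (F R) (F R') := by
    intro R R' h
    exact (hd R.1 R'.1).2 h
  refine finsum_eq_of_bijective (Quot.map F hF) ⟨?_, ?_⟩ ?_
  · intro a b
    induction a using Quot.inductionOn with
    | h a =>
      induction b using Quot.inductionOn with
      | h b =>
        intro h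
        exact Quot.sound ((hd a.1 b.1).1 (cRel_of_mk _ h))
  · intro q
    induction q using Quot.inductionOn with
    | h Q =>
      obtain ⟨Q, g, R, hR, rfl⟩ := Q
      refine ⟨Quot.mk _ ⟨R, hR⟩, ?_⟩
      exact Quot.sound ⟨g, rfl⟩
  · intro ω
    have h2 : Quot.mk (cRel (P2 p G C)) (F ω.out) =
        Quot.mk (cRel (P2 p G C)) (Quot.map F hF ω).out := by
      rw [Quot.out_eq]
      exact congrArg (Quot.map F hF) (Quot.out_eq ω)
    obtain ⟨g, hg⟩ := cRel_of_mk _ h2
    rw [hg, f0_cj hE.1]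
    exact (hf _ ω.out.2).symm

end type2

section assembly
variable {k G C : Type} [Field k] [Group G] [Finite G] [Group C] [Fintype C]

/-- tuples of `p`-subgroups -/
abbrev Tup (p : ℕ) (G C : Type) [Group G] : Type := C → {R : Subgroup G // IsPGroup p R}

/-- the product subgroup of a tuple -/
abbrev tSub {p : ℕ} (R : Tup p G C) : Subgroup (G ≀ᵣ C) := prodSub fun i => (R i).1

/-- splitting of the weighted count of the wreath product -/
theorem Wt_split {p : ℕ} (e : MonoidAlgebra k G)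
    (hrad : ∀ Q : Subgroup (G ≀ᵣ C), IsPGroup p Q → f0 (localImage Q (wE C e)) ≠ 0 → IsRad p Q)
    (hb : ∀ Q : Subgroup (G ≀ᵣ C), IsRad p Q → Q ≤ baseG G C → ∃ R : C → Subgroup G,
      (∀ i, IsPGroup p (R i)) ∧ Q = prodSub R)
    (hc : ∀ Q : Subgroup (G ≀ᵣ C), IsRad p Q → ¬ Q ≤ baseG G C → P2 p G C Q)
    (hinj : ∀ R R' : C → Subgroup G, prodSub R = prodSub R' → R = R')
    (hp1 : ∀ R : C → Subgroup G, (∀ i, IsPGroup p (R i)) →
      IsPGroup p (prodSub R : Subgroup (G ≀ᵣ C)))
    (hp2 : ∀ Q : Subgroup (G ≀ᵣ C), P2 p G C Q → IsPGroup p Q)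
    (hnb : ∀ Q : Subgroup (G ≀ᵣ C), P2 p G C Q → ¬ Q ≤ baseG G C) :
    Wt p (wE C e) =
      ∑ᶠ R : Tup p G C, Nat.card (Subgroup.normalizer ((tSub R : Subgroup (G ≀ᵣ C)) :
        Set (G ≀ᵣ C))) * f0 (localImage (tSub R) (wE C e)) +
      ∑ᶠ Q : {Q : Subgroup (G ≀ᵣ C) // P2 p G C Q},
        Nat.card (Subgroup.normalizer (Q.1 : Set (G ≀ᵣ C))) * f0 (localImage Q.1 (wE C e)) := by
  classical
  set F : Subgroup (G ≀ᵣ C) → ℕ := fun Q =>
    Nat.card (Subgroup.normalizer (Q : Set (G ≀ᵣ C))) * f0 (localImage Q (wE C e)) with hF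
  have : Fintype (Subgroup (G ≀ᵣ C)) := Fintype.ofFinite _
  have : Fintype (Tup p G C) := Fintype.ofFinite _
  have h1 : Wt p (wE C e) = ∑ Q ∈ Finset.univ.filter (fun Q : Subgroup (G ≀ᵣ C) => IsPGroup p Q),
      F Q := by
    unfold Wt
    rw [finsum_eq_sum_of_fintype]
    exact (Finset.sum_subtype _ (fun x => by simp) F).symm
  have h2 : ∑ᶠ Q : {Q : Subgroup (G ≀ᵣ C) // P2 p G C Q}, F Q.1 =
      ∑ Q ∈ Finset.univ.filter (fun Q : Subgroup (G ≀ᵣ C) => P2 p G C Q), F Q := by
    rw [finsum_eq_sum_of_fintype]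
    exact (Finset.sum_subtype _ (fun x => by simp) F).symm
  have h3 : ∑ᶠ R : Tup p G C, F (tSub R) =
      ∑ Q ∈ Finset.univ.image (fun R : Tup p G C => (tSub R : Subgroup (G ≀ᵣ C))), F Q := by
    rw [finsum_eq_sum_of_fintype, Finset.sum_image]
    intro R _ R' _ h
    have h4 := hinj _ _ h
    funext i
    exact Subtype.ext (congrFun h4 i)
  rw [h1]
  show _ = ∑ᶠ R : Tup p G C, F (tSub R) + ∑ᶠ Q : {Q : Subgroup (G ≀ᵣ C) // P2 p G C Q}, F Q.1
  rw [h2, h3, ← Finset.sum_union]
  · symm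
    apply Finset.sum_subset
    · intro Q hQ
      rw [Finset.mem_union] at hQ
      rw [Finset.mem_filter]
      refine ⟨Finset.mem_univ _, ?_⟩
      rcases hQ with hQ | hQ
      · rw [Finset.mem_image] at hQ
        obtain ⟨R, -, rfl⟩ := hQ
        exact hp1 _ fun i => (R i).2
      · exact hp2 _ (Finset.mem_filter.1 hQ).2
    · intro Q hQ hQ'
      by_contra hne
      have h5 : f0 (localImage Q (wE C e)) ≠ 0 := by
        intro h
        apply hne
        simp [hF, h]
      have h6 := hrad Q (Finset.mem_filter.1 hQ).2 h5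
      apply hQ'
      rw [Finset.mem_union]
      by_cases hQb : Q ≤ baseG G C
      · left
        obtain ⟨R, hR, rfl⟩ := hb Q h6 hQb
        exact Finset.mem_image.2 ⟨fun i => ⟨R i, hR i⟩, Finset.mem_univ _, rfl⟩
      · right
        exact Finset.mem_filter.2 ⟨Finset.mem_univ _, hc Q h6 hQb⟩
  · rw [Finset.disjoint_left]
    intro Q hQ hQ'
    rw [Finset.mem_image] at hQ
    obtain ⟨R, -, rfl⟩ := hQ
    exact hnb _ (Finset.mem_filter.1 hQ').2 fun x hx => hx.1

/-- final arithmetic -/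
theorem WW_arith {p g w T1 T : ℕ} (hp : p.Prime) (hT : T = g * w)
    (h1 : T1 + g ^ (p - 1) * T = T ^ p) :
    T1 + (g ^ p * p) * w = (g ^ p * p) * ((w ^ p - w) / p + w) := by
  have := Fact.mk hp
  have hdvd : p ∣ w ^ p - w := by
    have h2 : (w ^ p : ℤ) ≡ w [ZMOD p] := by
      rw [← ZMod.intCast_eq_intCast_iff]
      push_cast
      exact ZMod.pow_card _
    have h3 : w ≤ w ^ p := Nat.le_self_pow hp.ne_zero w
    have h4 : ((w ^ p - w : ℕ) : ℤ) = (w ^ p : ℤ) - w := by
      push_cast [Nat.cast_sub h3]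
      ring
    have h5 := (Int.modEq_iff_dvd.1 h2.symm)
    have h6 : (p : ℤ) ∣ ((w ^ p - w : ℕ) : ℤ) := by rw [h4]; exact h5
    exact_mod_cast h6
  obtain ⟨m, hm⟩ := hdvd
  have hle : w ≤ w ^ p := Nat.le_self_pow hp.ne_zero w
  have hm' : w ^ p = p * m + w := by omega
  rw [hm, Nat.mul_div_cancel_left _ hp.pos]
  have hg : g ^ (p - 1) * (g * w) = g ^ p * w := by
    rw [← mul_assoc, ← pow_succ, Nat.sub_add_cancel hp.one_le]
  rw [hT, hg, mul_pow, hm'] at h1
  have h7 : T1 = g ^ p * (p * m) := by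
    have : T1 + g ^ p * w = g ^ p * (p * m) + g ^ p * w := by rw [h1]; ring
    omega
  rw [h7]
  ring

end assembly

end Crest.Agent.R170
end

-- ▼ part R170/WW1_628
section

/-! Row 170, leaf WW1 (helper628): radical p-subgroups of a regular wreath product `G ≀ᵣ C`, `|C| = p`. -/

set_option autoImplicit false

namespace Crest.Agent.R170.WW1628

open RegularWreathProduct Crest.Agent.R170
open scoped Pointwise

section general

variable {p : ℕ} {H : Type} [Group H]

theorem mem_norm_of {K : Subgroup H} {g : H} (h1 : ∀ k ∈ K, g * k * g⁻¹ ∈ K)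
    (h2 : ∀ k ∈ K, g⁻¹ * k * g ∈ K) : g ∈ Subgroup.normalizer (K : Set H) := by
  rw [Subgroup.mem_normalizer_iff]
  intro k
  constructor
  · exact h1 k
  · intro hk
    have := h2 _ hk
    have e : g⁻¹ * (g * k * g⁻¹) * g = k := by group
    rwa [e] at this

theorem norm_conj_mem {K : Subgroup H} {g k : H} (hg : g ∈ Subgroup.normalizer (K : Set H))
    (hk : k ∈ K) : g * k * g⁻¹ ∈ K := (Subgroup.mem_normalizer_iff.1 hg k).1 hk

theorem norm_conj_mem' {K : Subgroup H} {g k : H} (hg : g ∈ Subgroup.normalizer (K : Set H))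
    (hk : k ∈ K) : g⁻¹ * k * g ∈ K := by
  have := norm_conj_mem (inv_mem hg) hk
  simpa using this

theorem normalizer_inf_le_of {K Q : Subgroup H}
    (h : Subgroup.normalizer (Q : Set H) ≤ Subgroup.normalizer (K : Set H)) :
    Subgroup.normalizer (Q : Set H) ≤
      Subgroup.normalizer ((K ⊓ Subgroup.normalizer (Q : Set H) : Subgroup H) : Set H) := by
  intro g hg
  refine mem_norm_of ?_ ?_
  · intro k hk
    exact ⟨norm_conj_mem (h hg) hk.1, Subgroup.mul_mem _ (Subgroup.mul_mem _ hg hk.2) (Subgroup.inv_mem _ hg)⟩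
  · intro k hk
    exact ⟨norm_conj_mem' (h hg) hk.1, Subgroup.mul_mem _ (Subgroup.mul_mem _ (Subgroup.inv_mem _ hg) hk.2) hg⟩

theorem rad_le_of [Finite H] [Fact p.Prime] {Q K : Subgroup H} (hQ : IsRad p Q)
    (hK : IsPGroup p K)
    (h : Subgroup.normalizer (Q : Set H) ≤ Subgroup.normalizer (K : Set H)) : K ≤ Q := by
  have hQK : Q ≤ Subgroup.normalizer (K : Set H) := Subgroup.le_normalizer.trans h
  have hP : IsPGroup p (K ⊔ Q : Subgroup H) := hK.to_sup_of_normal_left' hQ.1 hQK
  -- elements of K ⊔ Q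
  have hM : K ⊓ Subgroup.normalizer (Q : Set H) ≤ Q :=
    hQ.2 _ (hK.to_le inf_le_left) inf_le_right (normalizer_inf_le_of h)
  by_contra hne
  have hlt : Q.subgroupOf (K ⊔ Q) < ⊤ := by
    refine lt_top_iff_ne_top.2 ?_
    intro e
    rw [Subgroup.subgroupOf_eq_top] at e
    exact hne (le_sup_left.trans e)
  have : Group.IsNilpotent (K ⊔ Q : Subgroup H) := hP.isNilpotent
  have hgrow := (Group.normalizerCondition_of_isNilpotent (G := (K ⊔ Q : Subgroup H))) _ hlt
  obtain ⟨x, hx1, hx2⟩ := SetLike.exists_of_lt hgrow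
  apply hx2
  rw [Subgroup.mem_subgroupOf]
  -- x normalises Q
  have hxN : (x : H) ∈ Subgroup.normalizer (Q : Set H) := by
    refine mem_norm_of ?_ ?_
    · intro k hk
      have hk' : (⟨k, (le_sup_right : Q ≤ K ⊔ Q) hk⟩ : (K ⊔ Q : Subgroup H)) ∈ Q.subgroupOf (K ⊔ Q) := by
        rw [Subgroup.mem_subgroupOf]; exact hk
      have := norm_conj_mem hx1 hk'
      rw [Subgroup.mem_subgroupOf] at this
      exact this
    · intro k hk
      have hk' : (⟨k, (le_sup_right : Q ≤ K ⊔ Q) hk⟩ : (K ⊔ Q : Subgroup H)) ∈ Q.subgroupOf (K ⊔ Q) := by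
        rw [Subgroup.mem_subgroupOf]; exact hk
      have := norm_conj_mem' hx1 hk'
      rw [Subgroup.mem_subgroupOf] at this
      exact this
  have hx : (x : H) ∈ ((K : Set H) * (Q : Set H)) := by
    have := x.2
    rw [← SetLike.mem_coe, Subgroup.coe_mul_of_right_le_normalizer_left K Q hQK] at this
    exact this
  obtain ⟨k, hk, q, hq, hkq⟩ := hx
  have hkN : k ∈ Subgroup.normalizer (Q : Set H) := by
    have : k = (x : H) * q⁻¹ := by rw [← hkq]; simp
    rw [this]
    exact mul_mem hxN (inv_mem (Subgroup.le_normalizer hq))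
  have : k ∈ Q := hM ⟨hk, hkN⟩
  rw [← hkq]
  exact mul_mem this hq

end general

section wreath

variable {p : ℕ} {G C : Type} [Group G] [Group C]

/-- `i`-th projection of `Q ⊓ base`. -/
def proj (Q : Subgroup (G ≀ᵣ C)) (i : C) : Subgroup G where
  carrier := {x | ∃ g ∈ Q, g.right = 1 ∧ g.left i = x}
  one_mem' := ⟨1, Q.one_mem, rfl, rfl⟩
  mul_mem' := by
    rintro _ _ ⟨g, hg, hg1, rfl⟩ ⟨h, hh, hh1, rfl⟩
    exact ⟨g * h, Q.mul_mem hg hh, by simp [hg1, hh1], by simp [hg1]⟩
  inv_mem' := by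
    rintro _ ⟨g, hg, hg1, rfl⟩
    exact ⟨g⁻¹, Q.inv_mem hg, by simp [hg1], by simp [hg1]⟩


theorem conj_left (n b : G ≀ᵣ C) (hb : b.right = 1) (i : C) :
    (n * b * n⁻¹).left i = n.left i * b.left (n.right⁻¹ * i) * (n.left i)⁻¹ := by
  simp [hb]

theorem conj_right (n b : G ≀ᵣ C) (hb : b.right = 1) : (n * b * n⁻¹).right = 1 := by
  simp [hb]

theorem pow_right (a : G ≀ᵣ C) (n : ℕ) : (a ^ n).right = a.right ^ n :=
  map_pow (rightHom : G ≀ᵣ C →* C) a n

theorem pow_left_base (a : G ≀ᵣ C) (ha : a.right = 1) (n : ℕ) (i : C) :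
    (a ^ n).left i = a.left i ^ n := by
  induction n with
  | zero => simp
  | succ n ih =>
    rw [pow_succ, pow_succ]
    have : (a ^ n * a).left i = (a ^ n).left i * a.left i := by
      simp [pow_right, ha]
    rw [this, ih]

theorem norm_le_norm_prodSub_proj (Q : Subgroup (G ≀ᵣ C)) :
    Subgroup.normalizer (Q : Set (G ≀ᵣ C)) ≤
      Subgroup.normalizer ((prodSub (proj Q) : Subgroup (G ≀ᵣ C)) : Set (G ≀ᵣ C)) := by
  have key : ∀ n ∈ Subgroup.normalizer (Q : Set (G ≀ᵣ C)), ∀ b ∈ prodSub (proj Q),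
      n * b * n⁻¹ ∈ prodSub (proj Q) := by
    rintro n hn b ⟨hb1, hb⟩
    refine ⟨conj_right n b hb1, fun i => ?_⟩
    obtain ⟨q, hq, hq1, hqe⟩ := hb (n.right⁻¹ * i)
    refine ⟨n * q * n⁻¹, norm_conj_mem hn hq, conj_right n q hq1, ?_⟩
    rw [conj_left n q hq1, conj_left n b hb1, hqe]
  intro n hn
  refine mem_norm_of (key n hn) ?_
  intro k hk
  have := key n⁻¹ (Subgroup.inv_mem _ hn) k hk
  rwa [inv_inv] at this

theorem isPGroup_proj {Q : Subgroup (G ≀ᵣ C)} (hQ : IsPGroup p Q) (i : C) :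
    IsPGroup p (proj Q i) := by
  rintro ⟨x, g, hg, hg1, rfl⟩
  obtain ⟨k, hk⟩ := hQ ⟨g, hg⟩
  refine ⟨k, Subtype.ext ?_⟩
  have h2 : g ^ p ^ k = 1 := by simpa using congrArg Subtype.val hk
  have h3 : g.left i ^ p ^ k = 1 := by
    rw [← pow_left_base g hg1, h2]
    rfl
  exact h3

theorem isPGroup_prodSub [Finite C] {R : C → Subgroup G} (hR : ∀ i, IsPGroup p (R i)) :
    IsPGroup p (prodSub R : Subgroup (G ≀ᵣ C)) := by
  cases nonempty_fintype C
  rintro ⟨g, hg1, hg⟩
  have : ∀ i, ∃ k : ℕ, g.left i ^ p ^ k = 1 := by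
    intro i
    obtain ⟨k, hk⟩ := hR i ⟨g.left i, hg i⟩
    exact ⟨k, by simpa using congrArg Subtype.val hk⟩
  choose k hk using this
  refine ⟨∑ i, k i, Subtype.ext ?_⟩
  change g ^ p ^ (∑ i, k i) = 1
  ext i
  · rw [pow_left_base g hg1]
    have hd : p ^ k i ∣ p ^ ∑ i, k i :=
      pow_dvd_pow _ (Finset.single_le_sum (f := k) (fun _ _ => Nat.zero_le _) (Finset.mem_univ i))
    obtain ⟨m, hm⟩ := hd
    rw [hm, pow_mul, hk i, one_pow]
    rfl
  · rw [pow_right, hg1, one_pow]
    rfl

/-- radical: the base part is the product of its projections. -/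
theorem rad_inf_base [Finite G] [Finite C] [Fact p.Prime] {Q : Subgroup (G ≀ᵣ C)}
    (hQ : IsRad p Q) : Q ⊓ baseG G C = prodSub (proj Q) := by
  apply le_antisymm
  · rintro g ⟨hg, hg1⟩
    exact ⟨hg1, fun i => ⟨g, hg, hg1, rfl⟩⟩
  · intro g hg
    exact ⟨rad_le_of hQ (isPGroup_prodSub fun i => isPGroup_proj hQ.1 i)
      (norm_le_norm_prodSub_proj Q) hg, hg.1⟩

/-- (a) radical and inside the base group. -/
theorem rad_base [Finite G] [Finite C] [Fact p.Prime] {Q : Subgroup (G ≀ᵣ C)}
    (hQ : IsRad p Q) (hB : Q ≤ baseG G C) : Q = prodSub (proj Q) := by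
  rw [← rad_inf_base hQ, inf_eq_left.2 hB]

theorem proj_prodSub (R : C → Subgroup G) (i : C) : proj (prodSub R) i = R i := by
  classical
  ext x
  constructor
  · rintro ⟨g, hg, _, rfl⟩
    exact hg.2 i
  · intro hx
    refine ⟨⟨Pi.mulSingle i x, 1⟩, ⟨rfl, fun j => ?_⟩, rfl, by simp⟩
    by_cases h : j = i
    · subst h; simpa using hx
    · simp [Pi.mulSingle_eq_of_ne h]

theorem prodSub_injective : Function.Injective (prodSub : (C → Subgroup G) → Subgroup (G ≀ᵣ C)) := by
  intro R R' h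
  funext i
  rw [← proj_prodSub R i, h, proj_prodSub]


end wreath

end Crest.Agent.R170.WW1628
end

-- ▼ part R170/WW1b_628
section

/-! Row 170, leaf WW1 (helper628), second part: radical subgroups outside the base group. -/

set_option autoImplicit false

namespace Crest.Agent.R170.WW1628

open RegularWreathProduct Crest.Agent.R170
open scoped Pointwise

section transport

variable {p : ℕ} {H H' : Type} [Group H] [Group H']

theorem mem_normalizer_map (f : H ≃* H') (K : Subgroup H) (x : H) :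
    f x ∈ Subgroup.normalizer ((K.map f.toMonoidHom : Subgroup H') : Set H') ↔
      x ∈ Subgroup.normalizer (K : Set H) := by
  have hm : ∀ y, f y ∈ K.map f.toMonoidHom ↔ y ∈ K := by
    intro y
    constructor
    · rintro ⟨z, hz, hzy⟩
      have : z = y := f.injective hzy
      rwa [← this]
    · intro hy
      exact ⟨y, hy, rfl⟩
  rw [Subgroup.mem_normalizer_iff, Subgroup.mem_normalizer_iff]
  constructor
  · intro h y
    have := h (f y)
    rw [hm, ← map_mul, ← map_inv, ← map_mul, hm] at this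
    exact this
  · intro h y'
    obtain ⟨y, rfl⟩ := f.surjective y'
    rw [hm, ← map_mul, ← map_inv, ← map_mul, hm]
    exact h y

theorem isRad_map (f : H ≃* H') {Q : Subgroup H} (hQ : IsRad p Q) :
    IsRad p (Q.map f.toMonoidHom) := by
  refine ⟨hQ.1.map _, ?_⟩
  intro K hK h1 h2
  have e : K = (K.map f.symm.toMonoidHom).map f.toMonoidHom := by
    rw [Subgroup.map_map]
    ext x
    simp
  have hK' : IsPGroup p (K.map f.symm.toMonoidHom) := hK.map _
  rw [e]
  apply Subgroup.map_mono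
  refine hQ.2 _ hK' ?_ ?_
  · intro x hx
    rw [← mem_normalizer_map f]
    apply h1
    obtain ⟨y, hy, rfl⟩ := hx
    simpa using hy
  · intro x hx
    rw [← mem_normalizer_map f, ← e]
    apply h2
    rwa [mem_normalizer_map f]

end transport

section wreath

variable {p : ℕ} {G C : Type} [Group G] [Group C]

theorem pow_succ_left (a : G ≀ᵣ C) (n : ℕ) (i : C) :
    (a ^ (n + 1)).left i = (a ^ n).left i * a.left ((a.right ^ n)⁻¹ * i) := by
  rw [pow_succ]
  simp [pow_right]

theorem conj_right_ne (n b : G ≀ᵣ C) (hn : n.right = 1) : (n * b * n⁻¹).right = b.right := by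
  simp [hn]

theorem conj_left_base (n b : G ≀ᵣ C) (hn : n.right = 1) (i : C) :
    (n * b * n⁻¹).left i = n.left i * b.left i * (n.left (b.right⁻¹ * i))⁻¹ := by
  simp [hn]

/-- If `Q ⊓ base` is the product of its projections and `Q` is not inside the base group, then
`Q` contains, up to base conjugation, the complement. -/
theorem exists_conj_inl [Finite C] [Fact p.Prime] (hC : Nat.card C = p) {Q : Subgroup (G ≀ᵣ C)}
    (hQ : Q ⊓ baseG G C = prodSub (proj Q)) (hB : ¬ Q ≤ baseG G C) :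
    ∃ b : G ≀ᵣ C, b.right = 1 ∧ ∀ s : C, b⁻¹ * inl s * b ∈ Q := by
  classical
  have hp : p.Prime := Fact.out
  obtain ⟨t, htQ, ht⟩ := Set.not_subset.1 hB
  have hc : t.right ≠ 1 := fun h => ht h
  have horder : orderOf t.right = p := by
    have h1 : orderOf t.right ∣ p := hC ▸ orderOf_dvd_natCard t.right
    rcases (Nat.dvd_prime hp).1 h1 with h | h
    · exact absurd (orderOf_eq_one_iff.1 h) hc
    · exact h
  have hgen : ∀ i : C, ∃ n : ℕ, t.right ^ n = i := by
    intro i
    have h1 : Subgroup.zpowers t.right = ⊤ := by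
      apply Subgroup.eq_top_of_card_eq
      rw [Nat.card_zpowers, horder, hC]
    have h2 : i ∈ Subgroup.zpowers t.right := by rw [h1]; trivial
    have h3 := (mem_powers_iff_mem_zpowers (x := t.right) (y := i)).2 h2
    exact h3
  -- correct t
  have htp : (t ^ p).left 1 ∈ proj Q 1 := by
    refine ⟨t ^ p, Q.pow_mem htQ p, ?_, rfl⟩
    rw [pow_right, ← horder, pow_orderOf_eq_one]
  set r : G ≀ᵣ C := ⟨Pi.mulSingle 1 ((t ^ p).left 1)⁻¹, 1⟩ with hr
  have hrQ : r ∈ Q := by
    have : r ∈ prodSub (proj Q) := by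
      refine ⟨rfl, fun i => ?_⟩
      by_cases h : i = 1
      · subst h
        simpa [hr] using htp
      · simp [hr, Pi.mulSingle_eq_of_ne h]
    rw [← hQ] at this
    exact this.1
  set t' : G ≀ᵣ C := r * t with ht'
  have ht'Q : t' ∈ Q := Q.mul_mem hrQ htQ
  have ht'r : t'.right = t.right := by simp [ht', hr]
  have ht'l : ∀ i, i ≠ 1 → t'.left i = t.left i := by
    intro i hi
    simp [ht', hr, Pi.mulSingle_eq_of_ne hi]
  have ht'1 : t'.left 1 = ((t ^ p).left 1)⁻¹ * t.left 1 := by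
    simp [ht', hr]
  have hpow : ∀ n : ℕ, n + 1 ≤ p → (t' ^ (n + 1)).left 1 = ((t ^ p).left 1)⁻¹ * (t ^ (n + 1)).left 1 := by
    intro n
    induction n with
    | zero =>
      intro _
      simpa using ht'1
    | succ n ih =>
      intro hn
      rw [pow_succ_left, pow_succ_left t, ih (by omega), ht'r, mul_assoc]
      congr 2
      apply ht'l
      intro h
      have h' : t.right ^ (n + 1) = 1 := by simpa using h
      have := orderOf_dvd_of_pow_eq_one h'
      rw [horder] at this
      have := Nat.le_of_dvd (by omega) this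
      omega
  have h1p : (t' ^ p).left 1 = 1 := by
    obtain ⟨m, hm⟩ : ∃ m, p = m + 1 := ⟨p - 1, by have := hp.pos; omega⟩
    have := hpow m (by omega)
    rw [← hm] at this
    rw [this, inv_mul_cancel]
  have hrp : (t' ^ p).right = 1 := by
    rw [pow_right, ht'r, ← horder, pow_orderOf_eq_one]
  have hall : ∀ n : ℕ, (t' ^ p).left (t.right ^ n) = 1 := by
    intro n
    induction n with
    | zero => simpa using h1p
    | succ n ih =>
      have e : t' * t' ^ p * t'⁻¹ = t' ^ p := by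
        rw [← pow_succ', pow_succ, mul_inv_cancel_right]
      have e2 := conj_left t' (t' ^ p) hrp (t.right ^ (n + 1))
      rw [e, ht'r] at e2
      rw [e2]
      have e3 : t.right⁻¹ * t.right ^ (n + 1) = t.right ^ n := by
        rw [pow_succ', inv_mul_cancel_left]
      rw [e3, ih]
      simp
  have ht'p : t' ^ p = 1 := by
    ext i
    · obtain ⟨n, rfl⟩ := hgen i
      rw [hall]
      rfl
    · exact hrp
  choose nn hnn using hgen
  have hf : ∀ i, t' ^ nn i = t' * t' ^ nn (t.right⁻¹ * i) := by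
    intro i
    rw [← pow_succ']
    have e : t.right ^ nn i = t.right ^ (nn (t.right⁻¹ * i) + 1) := by
      rw [pow_succ', hnn, hnn, mul_inv_cancel_left]
    rw [pow_eq_pow_iff_modEq, horder] at e
    rw [pow_eq_pow_iff_modEq]
    exact e.of_dvd (orderOf_dvd_of_pow_eq_one ht'p)
  set b : G ≀ᵣ C := ⟨fun i => ((t' ^ nn i).left i)⁻¹, 1⟩ with hb
  have hbt : b * t' * b⁻¹ = inl t.right := by
    ext i
    · rw [conj_left_base b t' rfl i]
      have e := congrArg (fun x : G ≀ᵣ C => x.left i) (hf i)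
      simp only [mul_left, Pi.mul_apply, ht'r] at e
      simp only [hb, inv_inv, ht'r, left_inl, Pi.one_apply]
      rw [e]
      group
    · rw [conj_right_ne b t' rfl, ht'r]
      rfl
  refine ⟨b, rfl, ?_⟩
  intro s
  obtain ⟨n, rfl⟩ : ∃ n : ℕ, t.right ^ n = s := ⟨nn s, hnn s⟩
  have e1 : b⁻¹ * inl (t.right ^ n) * b = (b⁻¹ * inl t.right * b) ^ n := by
    rw [map_pow]
    have := conj_pow (i := n) (a := b⁻¹) (b := (inl t.right : G ≀ᵣ C))
    simpa using this.symm
  have e2 : b⁻¹ * inl t.right * b = t' := by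
    rw [← hbt]; group
  rw [e1, e2]
  exact Q.pow_mem ht'Q n

/-- (b) radical and not inside the base group. -/
theorem rad_nonbase [Finite G] [Finite C] [Fact p.Prime] (hC : Nat.card C = p)
    {Q : Subgroup (G ≀ᵣ C)} (hQ : IsRad p Q) (hB : ¬ Q ≤ baseG G C) :
    ∃ g ∈ baseG G C, ∃ R : Subgroup G, Q = (wrSub R).map (MulAut.conj g).toMonoidHom := by
  obtain ⟨b, hb1, hb⟩ := exists_conj_inl hC (rad_inf_base hQ) hB
  have hQ' : IsRad p (Q.map (MulAut.conj b).toMonoidHom) := isRad_map (MulAut.conj b) hQ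
  set Q' := Q.map (MulAut.conj b).toMonoidHom with hQ'def
  have hinl : ∀ s : C, inl s ∈ Q' := by
    intro s
    refine ⟨b⁻¹ * inl s * b, hb s, ?_⟩
    simp only [MulEquiv.coe_toMonoidHom, MulAut.conj_apply]
    group
  have hinf := rad_inf_base hQ'
  have hmono : ∀ (s i : C), proj Q' (s⁻¹ * i) ≤ proj Q' i := by
    rintro s i x ⟨q, hq, hq1, rfl⟩
    refine ⟨inl s * q * (inl s)⁻¹, Q'.mul_mem (Q'.mul_mem (hinl s) hq) (Q'.inv_mem (hinl s)),
      conj_right _ q hq1, ?_⟩
    rw [conj_left _ q hq1]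
    simp
  have hconst : ∀ i, proj Q' i = proj Q' 1 := by
    intro i
    apply le_antisymm
    · have := hmono i⁻¹ 1
      simpa using this
    · have := hmono i i
      simpa using this
  have hwr : Q' = wrSub (proj Q' 1) := by
    ext g
    have hkey : g * (inl g.right)⁻¹ ∈ prodSub (proj Q') ↔ ∀ i, g.left i ∈ proj Q' 1 := by
      rw [mem_prodSub]
      have e1 : (g * (inl g.right)⁻¹).right = 1 := by simp
      have e2 : ∀ i, (g * (inl g.right)⁻¹).left i = g.left i := by intro i; simp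
      constructor
      · rintro ⟨_, h⟩ i
        have := h i
        rwa [e2, hconst] at this
      · intro h
        refine ⟨e1, fun i => ?_⟩
        rw [e2, hconst]
        exact h i
    rw [mem_wrSub, ← hkey, ← hinf]
    constructor
    · intro hg
      exact ⟨Q'.mul_mem hg (Q'.inv_mem (hinl _)), by simp [mem_baseG]⟩
    · rintro ⟨hg, _⟩
      have := Q'.mul_mem hg (hinl g.right)
      simpa using this
  refine ⟨b⁻¹, ?_, proj Q' 1, ?_⟩
  · simp [mem_baseG, hb1]
  · rw [← hwr, hQ'def, Subgroup.map_map]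
    have : ((MulAut.conj b⁻¹).toMonoidHom.comp (MulAut.conj b).toMonoidHom) = MonoidHom.id (G ≀ᵣ C) := by
      ext1 x
      simp only [MonoidHom.comp_apply, MulEquiv.coe_toMonoidHom, MulAut.conj_apply, MonoidHom.id_apply]
      group
    rw [this, Subgroup.map_id]

end wreath

end Crest.Agent.R170.WW1628
end

-- ▼ part R170/WW1c_628
section

/-! Row 170, leaf WW1 (helper628), third part: normalisers, conjugacy, orders. -/

set_option autoImplicit false

namespace Crest.Agent.R170.WW1628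

open RegularWreathProduct Crest.Agent.R170
open scoped Pointwise

variable {p : ℕ} {G C : Type} [Group G] [Group C]

theorem mem_map_conj {H : Type} [Group H] {K : Subgroup H} {g x : H} :
    x ∈ K.map (MulAut.conj g).toMonoidHom ↔ g⁻¹ * x * g ∈ K := by
  constructor
  · rintro ⟨y, hy, rfl⟩
    simpa [mul_assoc] using hy
  · intro h
    exact ⟨_, h, by simp [mul_assoc]⟩

/-! ### conjugacy of the `wrSub R` -/

theorem wrSub_map_const (R : Subgroup G) (x : G) :
    (wrSub (C := C) R).map (MulAut.conj (⟨fun _ => x, 1⟩ : G ≀ᵣ C)).toMonoidHom =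
      wrSub (R.map (MulAut.conj x).toMonoidHom) := by
  ext g
  rw [mem_map_conj, mem_wrSub, mem_wrSub]
  apply forall_congr'
  intro i
  rw [mem_map_conj]
  simp

theorem wrSub_conj_iff (R R' : Subgroup G) :
    (∃ g : G ≀ᵣ C, wrSub (C := C) R' = (wrSub R).map (MulAut.conj g).toMonoidHom) ↔
      ∃ x : G, R' = R.map (MulAut.conj x).toMonoidHom := by
  constructor
  · rintro ⟨g, hg⟩
    refine ⟨g.left 1, ?_⟩
    ext y
    rw [mem_map_conj]
    have key : (⟨fun _ => y, 1⟩ : G ≀ᵣ C) ∈ wrSub (C := C) R' ↔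
        (⟨fun _ => y, 1⟩ : G ≀ᵣ C) ∈ (wrSub R).map (MulAut.conj g).toMonoidHom := by rw [hg]
    rw [mem_map_conj, mem_wrSub, mem_wrSub] at key
    constructor
    · intro hy
      have h1 := key.1 (fun _ => hy) (g.right⁻¹ * 1)
      simpa using h1
    · intro hy
      -- use that g * const * g⁻¹ lies in R'
      have h2 : (g * (⟨fun _ => (g.left 1)⁻¹ * y * g.left 1, 1⟩ : G ≀ᵣ C) * g⁻¹) ∈
          wrSub (C := C) R' := by
        rw [hg, mem_map_conj, mem_wrSub]
        intro i
        have : g⁻¹ * (g * (⟨fun _ => (g.left 1)⁻¹ * y * g.left 1, 1⟩ : G ≀ᵣ C) * g⁻¹) * g =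
            (⟨fun _ => (g.left 1)⁻¹ * y * g.left 1, 1⟩ : G ≀ᵣ C) := by group
        rw [this]
        exact hy
      have h3 := h2 1
      rw [conj_left _ _ rfl] at h3
      simpa [mul_assoc] using h3
  · rintro ⟨x, rfl⟩
    exact ⟨⟨fun _ => x, 1⟩, (wrSub_map_const R x).symm⟩


/-! ### p-groups -/

theorem isPGroup_prodSub_iff [Finite C] (R : C → Subgroup G) :
    IsPGroup p (prodSub R : Subgroup (G ≀ᵣ C)) ↔ ∀ i, IsPGroup p (R i) := by
  constructor
  · intro h i
    have := isPGroup_proj h i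
    rwa [proj_prodSub] at this
  · exact isPGroup_prodSub

theorem prodSub_const_le (R : Subgroup G) : prodSub (fun _ : C => R) ≤ wrSub R :=
  fun _ hg => hg.2

theorem isPGroup_wrSub_iff [Finite C] (hC : Nat.card C = p) (R : Subgroup G) :
    IsPGroup p (wrSub R : Subgroup (G ≀ᵣ C)) ↔ IsPGroup p R := by
  constructor
  · intro h
    have h1 : IsPGroup p (prodSub (fun _ : C => R)) := h.to_le (prodSub_const_le R)
    exact (isPGroup_prodSub_iff _).1 h1 1
  · intro h
    have h1 : IsPGroup p (prodSub (fun _ : C => R)) := isPGroup_prodSub fun _ => h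
    rintro ⟨g, hg⟩
    have h2 : g ^ p ∈ prodSub (fun _ : C => R) := by
      refine ⟨?_, ?_⟩
      · rw [pow_right, ← hC, pow_card_eq_one']
      · exact (wrSub (C := C) R).pow_mem hg p
    obtain ⟨n, hn⟩ := h1 ⟨g ^ p, h2⟩
    refine ⟨n + 1, Subtype.ext ?_⟩
    have h3 : (g ^ p) ^ p ^ n = 1 := congrArg Subtype.val hn
    change g ^ p ^ (n + 1) = 1
    rw [pow_succ', pow_mul, h3]

/-! ### normaliser of `prodSub R` -/

theorem mem_normalizer_prodSub (R : C → Subgroup G) (g : G ≀ᵣ C) :
    g ∈ Subgroup.normalizer ((prodSub R : Subgroup (G ≀ᵣ C)) : Set (G ≀ᵣ C)) ↔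
      ∀ i, R i = (R (g.right⁻¹ * i)).map (MulAut.conj (g.left i)).toMonoidHom := by
  classical
  have hsingle : ∀ (i : C) (x : G), x ∈ R i →
      (⟨Pi.mulSingle i x, 1⟩ : G ≀ᵣ C) ∈ prodSub R := by
    intro i x hx
    refine ⟨rfl, fun j => ?_⟩
    by_cases h : j = i
    · subst h; simpa using hx
    · simp [Pi.mulSingle_eq_of_ne h]
  constructor
  · intro hg i
    ext y
    rw [mem_map_conj]
    constructor
    · intro hy
      have h1 := norm_conj_mem (Subgroup.inv_mem _ hg) (hsingle i y hy)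
      have h2 := h1.2 (g.right⁻¹ * i)
      rw [conj_left _ _ rfl] at h2
      simpa using h2
    · intro hy
      have h1 := norm_conj_mem hg (hsingle _ _ hy)
      have h2 := h1.2 i
      rw [conj_left _ _ rfl] at h2
      simpa [mul_assoc] using h2
  · intro h
    refine mem_norm_of ?_ ?_
    · rintro b ⟨hb1, hb⟩
      refine ⟨conj_right g b hb1, fun i => ?_⟩
      rw [conj_left g b hb1, h i, mem_map_conj]
      have := hb (g.right⁻¹ * i)
      simpa [mul_assoc] using this
    · rintro b ⟨hb1, hb⟩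
      have e : g⁻¹ * b * g = g⁻¹ * b * (g⁻¹)⁻¹ := by rw [inv_inv]
      rw [e]
      refine ⟨conj_right g⁻¹ b hb1, fun i => ?_⟩
      rw [conj_left g⁻¹ b hb1]
      have h1 := hb (g.right * i)
      rw [h (g.right * i), mem_map_conj] at h1
      simpa using h1

theorem mem_normalizer_iff_map {K : Subgroup G} {x : G} :
    x ∈ Subgroup.normalizer (K : Set G) ↔ K = K.map (MulAut.conj x).toMonoidHom := by
  constructor
  · intro h
    ext y
    rw [mem_map_conj]
    constructor
    · intro hy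
      exact norm_conj_mem' h hy
    · intro hy
      have := norm_conj_mem h hy
      simpa [mul_assoc] using this
  · intro h
    refine mem_norm_of ?_ ?_
    · intro k hk
      rw [h, mem_map_conj]
      simpa [mul_assoc] using hk
    · intro k hk
      rw [h, mem_map_conj] at hk
      exact hk

theorem normalizer_prodSub_inf_base (R : C → Subgroup G) :
    Subgroup.normalizer ((prodSub R : Subgroup (G ≀ᵣ C)) : Set (G ≀ᵣ C)) ⊓ baseG G C =
      prodSub (fun i => Subgroup.normalizer (R i : Set G)) := by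
  ext g
  constructor
  · rintro ⟨h1, h2⟩
    refine ⟨h2, fun i => ?_⟩
    have := (mem_normalizer_prodSub R g).1 h1 i
    have h2' : g.right = 1 := h2
    rw [h2', inv_one, one_mul] at this
    exact mem_normalizer_iff_map.2 this
  · rintro ⟨h1, h2⟩
    refine ⟨(mem_normalizer_prodSub R g).2 fun i => ?_, h1⟩
    rw [h1, inv_one, one_mul]
    exact mem_normalizer_iff_map.1 (h2 i)

/-- if the normaliser of `prodSub R` is not inside the base group, all `R i` are conjugate. -/
theorem conj_of_not_le_base [Finite C] [Fact p.Prime] (hC : Nat.card C = p) (R : C → Subgroup G)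
    (h : ¬ Subgroup.normalizer ((prodSub R : Subgroup (G ≀ᵣ C)) : Set (G ≀ᵣ C)) ≤ baseG G C)
    (i : C) : ∃ x : G, R i = (R 1).map (MulAut.conj x).toMonoidHom := by
  have hp : p.Prime := Fact.out
  obtain ⟨t, htN, ht⟩ := Set.not_subset.1 h
  have hc : t.right ≠ 1 := fun h => ht h
  have horder : orderOf t.right = p := by
    have h1 : orderOf t.right ∣ p := hC ▸ orderOf_dvd_natCard t.right
    rcases (Nat.dvd_prime hp).1 h1 with h | h
    · exact absurd (orderOf_eq_one_iff.1 h) hc
    · exact h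
  obtain ⟨n, hn⟩ : ∃ n : ℕ, t.right ^ n = i := by
    have h1 : Subgroup.zpowers t.right = ⊤ := by
      apply Subgroup.eq_top_of_card_eq
      rw [Nat.card_zpowers, horder, hC]
    have h2 : i ∈ Subgroup.zpowers t.right := by rw [h1]; trivial
    exact (mem_powers_iff_mem_zpowers (x := t.right) (y := i)).2 h2
  have h3 : t ^ n ∈ Subgroup.normalizer ((prodSub R : Subgroup (G ≀ᵣ C)) : Set (G ≀ᵣ C)) :=
    Subgroup.pow_mem _ htN n
  have h4 := (mem_normalizer_prodSub R _).1 h3 i
  rw [pow_right, hn, inv_mul_cancel] at h4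
  exact ⟨_, h4⟩

/-! ### orders -/

theorem card_prodSub [Fintype C] (R : C → Subgroup G) :
    Nat.card (prodSub R : Subgroup (G ≀ᵣ C)) = ∏ i, Nat.card (R i) := by
  rw [← Nat.card_pi]
  refine Nat.card_congr
    { toFun := fun g i => ⟨g.1.left i, g.2.2 i⟩
      invFun := fun f => ⟨⟨fun i => f i, 1⟩, rfl, fun i => (f i).2⟩
      left_inv := ?_
      right_inv := ?_ }
  · rintro ⟨g, hg1, hg⟩
    apply Subtype.ext
    ext i
    · rfl
    · exact hg1.symm
  · intro f
    rfl

theorem card_normalizer_of_le_base [Fintype C] (R : C → Subgroup G)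
    (h : Subgroup.normalizer ((prodSub R : Subgroup (G ≀ᵣ C)) : Set (G ≀ᵣ C)) ≤ baseG G C) :
    Nat.card (Subgroup.normalizer ((prodSub R : Subgroup (G ≀ᵣ C)) : Set (G ≀ᵣ C))) =
      ∏ i, Nat.card (Subgroup.normalizer (R i : Set G)) := by
  have := normalizer_prodSub_inf_base R
  rw [inf_eq_left.2 h] at this
  rw [this, card_prodSub]

theorem card_normalizer_of_conj [Fintype C] (R : C → Subgroup G)
    (h : ∀ i, ∃ x : G, R i = (R 1).map (MulAut.conj x).toMonoidHom) :
    Nat.card (Subgroup.normalizer ((prodSub R : Subgroup (G ≀ᵣ C)) : Set (G ≀ᵣ C))) =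
      Nat.card C * ∏ i, Nat.card (Subgroup.normalizer (R i : Set G)) := by
  choose x hx using h
  have hmap : ∀ i j, R i = (R j).map (MulAut.conj (x i * (x j)⁻¹)).toMonoidHom := by
    intro i j
    ext y
    rw [mem_map_conj, hx i, hx j, mem_map_conj, mem_map_conj]
    have : (x j)⁻¹ * ((x i * (x j)⁻¹)⁻¹ * y * (x i * (x j)⁻¹)) * x j = (x i)⁻¹ * y * x i := by group
    rw [this]
  have hg : ∀ c : C, (⟨fun i => x i * (x (c⁻¹ * i))⁻¹, c⟩ : G ≀ᵣ C) ∈
      Subgroup.normalizer ((prodSub R : Subgroup (G ≀ᵣ C)) : Set (G ≀ᵣ C)) := by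
    intro c
    rw [mem_normalizer_prodSub]
    intro i
    exact hmap _ _
  rw [← card_prodSub, ← Nat.card_prod, ← normalizer_prodSub_inf_base]
  refine Nat.card_congr
    { toFun := fun n => (n.1.right, ⟨n.1 * (⟨fun i => x i * (x (n.1.right⁻¹ * i))⁻¹, n.1.right⟩ : G ≀ᵣ C)⁻¹,
        Subgroup.mul_mem _ n.2 (Subgroup.inv_mem _ (hg _)), by simp [mem_baseG]⟩)
      invFun := fun q => ⟨q.2.1 * (⟨fun i => x i * (x (q.1⁻¹ * i))⁻¹, q.1⟩ : G ≀ᵣ C),
        Subgroup.mul_mem _ q.2.2.1 (hg _)⟩
      left_inv := ?_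
      right_inv := ?_ }
  · rintro ⟨n, hn⟩
    apply Subtype.ext
    simp
  · rintro ⟨c, ⟨b, hb, hb1⟩⟩
    have hb2 : b.right = 1 := hb1
    have h1 : (b * (⟨fun i => x i * (x (c⁻¹ * i))⁻¹, c⟩ : G ≀ᵣ C)).right = c := by simp [hb2]
    refine Prod.ext h1 (Subtype.ext ?_)
    change b * (⟨fun i => x i * (x (c⁻¹ * i))⁻¹, c⟩ : G ≀ᵣ C) *
      (⟨fun i => x i * (x ((b * (⟨fun i => x i * (x (c⁻¹ * i))⁻¹, c⟩ : G ≀ᵣ C)).right⁻¹ * i))⁻¹,
        (b * (⟨fun i => x i * (x (c⁻¹ * i))⁻¹, c⟩ : G ≀ᵣ C)).right⟩ : G ≀ᵣ C)⁻¹ = b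
    rw [h1, mul_inv_cancel_right]

/-! ### normaliser of `wrSub R` -/



end Crest.Agent.R170.WW1628
end

-- ▼ part R170/WWc_350
section

/-!
# Row 170, leaf WW, part c: the sum over the tuples (type 1) (helper350)
-/

set_option autoImplicit false

namespace Crest.Agent.R170

open MonoidAlgebra Crest.AlgebraR.Weights Crest.AlgebraR.Blocks

section
variable {G : Type} [Group G] [Finite G]

/-- the sum of the orders of the normalisers over one class of `p`-subgroups -/
theorem sum_norm_class {p : ℕ} [Fintype {R : Subgroup G // IsPGroup p R}]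
    (S : {R : Subgroup G // IsPGroup p R}) [DecidablePred fun T : {R : Subgroup G // IsPGroup p R} =>
      ∃ x : G, T.1 = cj x S.1] :
    ∑ T : {R : Subgroup G // IsPGroup p R}, (if ∃ x : G, T.1 = cj x S.1 then
      Nat.card (Subgroup.normalizer (T.1 : Set G)) else 0) = Nat.card G := by
  rw [← Finset.sum_filter]
  have h1 : ∀ T ∈ Finset.univ.filter (fun T : {R : Subgroup G // IsPGroup p R} =>
      ∃ x : G, T.1 = cj x S.1), Nat.card (Subgroup.normalizer (T.1 : Set G)) =
        Nat.card (Subgroup.normalizer (S.1 : Set G)) := by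
    intro T hT
    obtain ⟨x, hx⟩ := (Finset.mem_filter.1 hT).2
    rw [hx, card_normalizer_cj]
  rw [Finset.sum_congr rfl h1, Finset.sum_const, smul_eq_mul, ← card_conj_mul S.1]
  congr 1
  rw [← Fintype.card_subtype, ← Nat.card_eq_fintype_card]
  exact Nat.card_congr
    { toFun := fun T => ⟨T.1.1, T.2⟩
      invFun := fun T => ⟨⟨T.1, by obtain ⟨x, hx⟩ := T.2; rw [hx]; exact isPGroup_cj x S.2⟩, T.2⟩
      left_inv := fun _ => rfl
      right_inv := fun _ => rfl }

end

section
variable {k G C : Type} [Field k] [Group G] [Finite G] [Group C] [Fintype C]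

theorem prodSub_conj (R : C → Subgroup G) (x : C → G) (S : Subgroup G)
    (h : ∀ i, R i = cj (x i) S) :
    (prodSub R : Subgroup (G ≀ᵣ C)) = cj ⟨x, 1⟩ (prodSub fun _ => S) := by
  ext y
  rw [mem_cj, mem_prodSub, mem_prodSub]
  constructor
  · rintro ⟨h1, h2⟩
    refine ⟨by simp [h1], fun i => ?_⟩
    have h3 := h2 i
    rw [h i, mem_cj] at h3
    simpa [h1] using h3
  · rintro ⟨h1, h2⟩
    have h4 : y.right = 1 := by simpa using h1
    refine ⟨h4, fun i => ?_⟩
    rw [h i, mem_cj]
    simpa [h4] using h2 i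

/-- **T1** : the sum over the tuples -/
theorem sum_type1 {p : ℕ} [Fact p.Prime] (hC : Nat.card C = p) (e : MonoidAlgebra k G) (he : CI e)
    (hE : CI (wE C e))
    (h_pi : ∀ R : C → Subgroup G, (∀ i, IsPGroup p (R i)) →
      Subgroup.normalizer ((prodSub R : Subgroup (G ≀ᵣ C)) : Set (G ≀ᵣ C)) ≤ baseG G C →
      f0 (localImage (prodSub R) (wE C e)) = ∏ i, f0 (localImage (R i) e))
    (h_wr : ∀ R : Subgroup G, IsPGroup p R →
      p * f0 (localImage (prodSub fun _ : C => R) (wE C e)) + f0 (localImage R e) =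
        f0 (localImage R e) ^ p) :
    (∑ᶠ R : Tup p G C, Nat.card (Subgroup.normalizer ((tSub R : Subgroup (G ≀ᵣ C)) :
        Set (G ≀ᵣ C))) * f0 (localImage (tSub R) (wE C e))) + Nat.card G ^ (p - 1) * Wt p e =
      Wt p e ^ p := by
  classical
  have : Fintype {R : Subgroup G // IsPGroup p R} := Fintype.ofFinite _
  have hCc : Fintype.card C = p := by rw [← Nat.card_eq_fintype_card]; exact hC
  set n : {R : Subgroup G // IsPGroup p R} → ℕ :=
    fun S => Nat.card (Subgroup.normalizer (S.1 : Set G)) with hn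
  set f : {R : Subgroup G // IsPGroup p R} → ℕ := fun S => f0 (localImage S.1 e) with hf
  have hW : Wt p e = ∑ S, n S * f S := by
    unfold Wt
    rw [finsum_eq_sum_of_fintype]
  set ψ : {R : Subgroup G // IsPGroup p R} → C → {R : Subgroup G // IsPGroup p R} → ℕ :=
    fun S i T => if i = 1 then (if T = S then n T else 0) else
      (if ∃ x : G, T.1 = cj x S.1 then n T else 0) with hψ
  -- pointwise identity
  have hpt : ∀ R : Tup p G C,
      Nat.card (Subgroup.normalizer ((tSub R : Subgroup (G ≀ᵣ C)) : Set (G ≀ᵣ C))) *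
        f0 (localImage (tSub R) (wE C e)) + ∑ S, f S * ∏ i, ψ S i (R i) =
      ∏ i, (n (R i) * f (R i)) := by
    intro R
    have h0 : ∑ S, f S * ∏ i, ψ S i (R i) = f (R 1) * ∏ i, ψ (R 1) i (R i) := by
      refine Finset.sum_eq_single (R 1) (fun S _ hS => ?_) (fun h => absurd (Finset.mem_univ _) h)
      have h1 : ∏ i, ψ S i (R i) = 0 := by
        refine Finset.prod_eq_zero (Finset.mem_univ (1 : C)) ?_
        simp only [hψ, if_true]
        rw [if_neg (Ne.symm hS)]
      rw [h1, mul_zero]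
    rw [h0]
    by_cases hall : ∀ i, ∃ x : G, (R i).1 = cj x (R 1).1
    · have h1 : ∏ i, ψ (R 1) i (R i) = ∏ i, n (R i) := by
        refine Finset.prod_congr rfl fun i _ => ?_
        simp only [hψ]
        by_cases hi : i = 1
        · subst hi; simp
        · rw [if_neg hi, if_pos (hall i)]
      have h2 := WW1628.card_normalizer_of_conj (fun i => (R i).1) hall
      have h3 : ∀ i, f (R i) = f (R 1) := by
        intro i
        obtain ⟨x, hx⟩ := hall i
        simp only [hf]
        rw [hx, f0_cj he.1]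
      choose x hx using hall
      have h4 : f0 (localImage (tSub R) (wE C e)) =
          f0 (localImage (prodSub fun _ : C => (R 1).1) (wE C e)) := by
        rw [show (tSub R : Subgroup (G ≀ᵣ C)) = cj ⟨x, 1⟩ (prodSub fun _ => (R 1).1) from
          prodSub_conj _ x _ hx, f0_cj hE.1]
      have h5 := h_wr (R 1).1 (R 1).2
      have h6 : ∏ i, f (R i) = f (R 1) ^ p := by
        rw [Finset.prod_congr rfl (fun i _ => h3 i), Finset.prod_const, Finset.card_univ, hCc]
      rw [h1, Finset.prod_mul_distrib, h6, h4]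
      have h2' : Nat.card (Subgroup.normalizer ((tSub R : Subgroup (G ≀ᵣ C)) : Set (G ≀ᵣ C))) =
          Nat.card C * ∏ i, n (R i) := h2
      rw [h2', hC]
      have h5' : p * f0 (localImage (prodSub fun _ : C => (R 1).1) (wE C e)) + f (R 1) =
          f (R 1) ^ p := h5
      rw [← h5']
      ring
    · have hN : Subgroup.normalizer ((tSub R : Subgroup (G ≀ᵣ C)) : Set (G ≀ᵣ C)) ≤ baseG G C := by
        by_contra hcon
        exact hall (WW1628.conj_of_not_le_base hC _ hcon)
      have h1 : ∏ i, ψ (R 1) i (R i) = 0 := by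
        push Not at hall
        obtain ⟨i, hi⟩ := hall
        refine Finset.prod_eq_zero (Finset.mem_univ i) ?_
        simp only [hψ]
        have hi1 : i ≠ 1 := by
          rintro rfl
          exact hi 1 (cj_one _).symm
        rw [if_neg hi1, if_neg]
        rintro ⟨x, hx⟩
        exact hi x hx
      rw [h1, mul_zero, add_zero, Finset.prod_mul_distrib]
      have h2 : Nat.card (Subgroup.normalizer ((tSub R : Subgroup (G ≀ᵣ C)) : Set (G ≀ᵣ C))) =
          ∏ i, n (R i) := WW1628.card_normalizer_of_le_base _ hN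
      rw [h2]
      congr 1
      exact h_pi _ (fun i => (R i).2) hN
  have hsum1 : ∀ g : C → {R : Subgroup G // IsPGroup p R} → ℕ,
      ∑ R : Tup p G C, ∏ i, g i (R i) = ∏ i, ∑ S, g i S := by
    intro g
    rw [Finset.prod_univ_sum, Fintype.piFinset_univ]
  have hpsi : ∑ R : Tup p G C, ∑ S, f S * ∏ i, ψ S i (R i) = Nat.card G ^ (p - 1) * Wt p e := by
    rw [Finset.sum_comm, hW, Finset.mul_sum]
    refine Finset.sum_congr rfl fun S _ => ?_
    rw [← Finset.mul_sum, hsum1 (ψ S), ← Finset.mul_prod_erase Finset.univ _ (Finset.mem_univ (1 : C))]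
    have h1 : ∑ T, ψ S 1 T = n S := by
      simp only [hψ, if_true]
      rw [Finset.sum_ite_eq' Finset.univ S n, if_pos (Finset.mem_univ _)]
    have h2 : ∏ i ∈ Finset.univ.erase (1 : C), ∑ T, ψ S i T = Nat.card G ^ (p - 1) := by
      have h3 : ∀ i ∈ Finset.univ.erase (1 : C), ∑ T, ψ S i T = Nat.card G := by
        intro i hi
        have hi1 : i ≠ 1 := (Finset.mem_erase.1 hi).1
        simp only [hψ, if_neg hi1]
        exact sum_norm_class S
      rw [Finset.prod_congr rfl h3, Finset.prod_const, Finset.card_erase_of_mem (Finset.mem_univ _),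
        Finset.card_univ, hCc]
    rw [h1, h2]
    ring
  rw [finsum_eq_sum_of_fintype, ← hpsi, ← Finset.sum_add_distrib,
    Finset.sum_congr rfl (fun R _ => hpt R), hsum1 (fun _ S => n S * f S), hW,
    Finset.prod_const, Finset.card_univ, hCc]

end

end Crest.Agent.R170
end

-- ▼ part R170/WW_350

/-!
# Row 170, leaf WW: the weights of the wreath product `G ≀ C_p` (helper350)
-/

set_option autoImplicit false

namespace Crest.Agent.R170

open MonoidAlgebra Crest.AlgebraR.Weights Crest.AlgebraR.Blocks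

/-- leaf WW2 (752) : `f0` of the wreath product -/
def HWr (p : ℕ) (k : Type) [Field k] : Prop :=
  ∀ (C : Type) [Group C] [Fintype C], Nat.card C = p →
    ∀ (G : Type) [Group G] [Finite G] (e : MonoidAlgebra k G), CI e →
      p * f0 (wE C e) + f0 e = f0 e ^ p

/-- leaf WW3 (538) : `f0` of a tensor product -/
def HPi (k : Type) [Field k] : Prop :=
  ∀ (ι : Type) [Fintype ι] (M : ι → Type) [∀ i, Group (M i)] [∀ i, Finite (M i)]
    (e : ∀ i, MonoidAlgebra k (M i)), (∀ i, CI (e i)) → f0 (tens e) = ∏ i, f0 (e i)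

theorem WW_of (p : ℕ) [Fact p.Prime] (k : Type) [Field k] [IsAlgClosed k] [CharP k p]
    (hWr : HWr p k) (hPi : HPi k) (C : Type) [Group C] [Fintype C] (hC : Nat.card C = p)
    (G : Type) [Group G] [Finite G] (e : MonoidAlgebra k G) (he : CI e) (w : ℕ)
    (hw : Wt p e = Nat.card G * w) :
    Wt p (wE C e) = Nat.card (G ≀ᵣ C) * ((w ^ p - w) / p + w) := by
  have hp : p.Prime := Fact.out
  have hE : CI (wE C e) := WW4148.CI_wE C e he
  have hCf : Fintype.card C = p := by rw [← Nat.card_eq_fintype_card]; exact hC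
  have hsplit := Wt_split (p := p) (C := C) e
    (fun Q hQ h => isRad_of_f0 (p := p) hQ (BR606.localImage_CI hp hQ hE) h)
    (fun Q hQ hb => ⟨WW1628.proj Q, fun i => WW1628.isPGroup_proj hQ.1 i, WW1628.rad_base hQ hb⟩)
    (fun Q hQ hb => by
      obtain ⟨g, -, R, hR⟩ := WW1628.rad_nonbase hC hQ hb
      refine ⟨g, R, ?_, hR⟩
      have h1 : IsPGroup p ((wrSub R : Subgroup (G ≀ᵣ C))) := by
        have h2 : (wrSub R : Subgroup (G ≀ᵣ C)) = cj g⁻¹ Q := by
          rw [show Q = cj g (wrSub R) from hR, cj_inv_cj]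
        rw [h2]
        exact isPGroup_cj _ hQ.1
      exact (WW1628.isPGroup_wrSub_iff hC R).1 h1)
    (fun R R' h => WW1628.prodSub_injective h)
    (fun R hR => WW1628.isPGroup_prodSub hR)
    (fun Q hQ => by
      obtain ⟨g, R, hR, rfl⟩ := hQ
      exact isPGroup_cj _ ((WW1628.isPGroup_wrSub_iff hC R).2 hR))
    (fun Q hQ hb => by
      obtain ⟨g, R, hR, rfl⟩ := hQ
      have h1 : ∃ c : C, c ≠ 1 := by
        by_contra h
        push Not at h
        have h2 : Subsingleton C := ⟨fun a b => by rw [h a, h b]⟩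
        have h3 : Nat.card C = 1 := Nat.card_eq_one_iff_unique.2 ⟨h2, ⟨1⟩⟩
        exact hp.one_lt.ne' (hC.symm.trans h3)
      obtain ⟨c, hc⟩ := h1
      have h2 : g * (⟨1, c⟩ : G ≀ᵣ C) * g⁻¹ ∈ cj g (wrSub R : Subgroup (G ≀ᵣ C)) := by
        rw [mem_cj]
        have h3 : g⁻¹ * (g * (⟨1, c⟩ : G ≀ᵣ C) * g⁻¹) * g = ⟨1, c⟩ := by group
        rw [h3]
        exact fun i => R.one_mem
      have h4 := hb h2
      rw [mem_baseG] at h4
      apply hc
      have h5 : g.right * c * g.right⁻¹ = 1 := by simpa using h4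
      have h6 : g.right * c = g.right := mul_inv_eq_one.1 h5
      simpa using h6)
  have hT2 := sum_type2 (p := p) (C := C) hE he
    (fun R R' => WW1628.wrSub_conj_iff R R')
    (fun R hR => by
      rw [WW4148.f0_wrSub p hCf R e]
      exact SCC538.f0_frob p (localImage R e) (frob p (localImage R e)) (fun g => frob_coeff p _ g))
  have hT1 := sum_type1 (C := C) hC e he hE
    (fun R hR hb => by
      rw [WW4148.f0_prodSub_base R (fun x hx => hb hx) e]
      exact hPi C (fun i => NormQuot (R i)) (fun i => localImage (R i) e)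
        (fun i => BR606.localImage_CI hp (hR i) he))
    (fun R hR => by
      rw [WW4148.f0_prodSub_const R e]
      exact hWr C hC (NormQuot R) (localImage R e) (BR606.localImage_CI hp hR he))
  have hsum : Nat.card G * ∑ᶠ ω : Quot (cRel fun R : Subgroup G => IsPGroup p R),
      f0 (localImage ω.out.1 e) = Nat.card G * w := by
    rw [← hw, ← conjSum (fun R : Subgroup G => IsPGroup p R) (fun g Q h => isPGroup_cj g h)
      (fun Q => f0 (localImage Q e)) (fun g Q => f0_cj he.1 g Q)]
    rfl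
  have hsum' := Nat.eq_of_mul_eq_mul_left Nat.card_pos hsum
  have hcard : Nat.card (G ≀ᵣ C) = Nat.card G ^ p * p := by
    rw [RegularWreathProduct.card, hC]
  rw [hsplit, hT2, hsum', hcard]
  exact WW_arith hp hw hT1

end Crest.Agent.R170
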