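import Crest.Agent.R170.HD_534
import Crest.Agent.R170.LIT_290
import Crest.Agent.R170.Stm_995
import Crest.Agent.R170.WLb_512_Mg
import Crest.Agent.R170.LC_806
import Crest.Agent.R170.LD_170
import Crest.Agent.R170.Wr_350
import Crest.Agent.R170.WW4_148
import Crest.Agent.R170.FIN0_534
import Crest.Agent.R170.DefW_995
import Crest.Agent.R170.SCC_538
import Crest.Agent.R170.P2_482
import Crest.Agent.R170.Cen_482
import Crest.Agent.R170.F0iso_538
import Crest.Agent.R170.J1_482
import Crest.Agent.R170.ORB_700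
import Mathlib
import Crest.Agent.R170.Q2_940
import Crest.Agent.R170.BR_606
import Crest.Agent.R170.J2_356
import Crest.Agent.R170.WW_350

-- ▼ part R170/FIN2_534
section

/-!
# Row 170, FIN part 3 (helper534): S0258 from `SP` and `SWR` of `Stm_995`

`HLit` is LIT_290, `HDvd` is HD_534. What is left: `SP p k` together with `WCc p`, and `SWR p k`.
-/

set_option autoImplicit false

namespace Crest.Agent.R170

open MonoidAlgebra Crest.AlgebraR.Weights Crest.AlgebraR.Blocks

namespace FIN534

/-- (LIT) -/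
theorem hLit {p : ℕ} (hp : p.Prime) (k : Type) [Field k] [IsAlgClosed k] [CharP k p] :
    HLit p k := by
  intro G _ _ e he
  exact LIT290.weightedWeightCount_eq hp he


/-- (WL) + (WW) in ℕ, with `W` as a witness -/
def HAmpW (p : ℕ) (k : Type) [Field k] : Prop :=
  ∀ (G : Type) [Group G] [Finite G] (e : MonoidAlgebra k G) (W : ℕ), CI e →
    Wt p e = Nat.card G * W →
    ∃ (Γ : Type) (_ : Group Γ) (_ : Finite Γ) (E : MonoidAlgebra k Γ), CI E ∧
      lc E = (lc e ^ p - lc e) / p + lc e ∧ Wt p E = Nat.card Γ * ((W ^ p - W) / p + W)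


theorem sWR_of_W {p : ℕ} [Fact p.Prime] {k : Type} [Field k] [IsAlgClosed k] [CharP k p]
    (h : HAmpW p k) : SWR p k := by
  intro G _ _ e W he hW
  obtain ⟨Γ, gΓ, fΓ, E, hE, h1, h2⟩ := h G e W he hW
  exact ⟨Γ, gΓ, fΓ, E, amp p W, hE, h2, by
    have := amp_mul (p := p) Fact.out (lc e)
    rw [h1]
    exact this, amp_mul (p := p) Fact.out W⟩

theorem hAmp_of_SWR {p : ℕ} [Fact p.Prime] {k : Type} [Field k] [IsAlgClosed k] [CharP k p]
    (h : SWR p k) : HAmp p k := by
  intro G _ _ e he
  obtain ⟨Γ, gΓ, fΓ, E, W', hE, h0, h1, h2⟩ := h G e (Wn p e) he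
    (card_mul_Wn (HD534.hDvd p k) he).symm
  have hp : (p : ℤ) ≠ 0 := by exact_mod_cast (Fact.out : p.Prime).ne_zero
  refine ⟨Γ, gΓ, fΓ, E, hE, ?_, ?_⟩
  · have h3 := amp_mul (p := p) Fact.out (lc e)
    have h4 : (p : ℤ) * (lc E : ℤ) = p * (amp p (lc e) : ℤ) := by rw [h1, h3]
    exact_mod_cast mul_left_cancel₀ hp h4
  · have h3 := amp_mul (p := p) Fact.out (Wn p e)
    have h4 : (p : ℤ) * (W' : ℤ) = p * (amp p (Wn p e) : ℤ) := by rw [h2, h3]
    have h5 : W' = amp p (Wn p e) := by exact_mod_cast mul_left_cancel₀ hp h4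
    have h6 : Wn p E = W' := by
      unfold Wn
      rw [h0, Nat.mul_div_cancel_left _ Nat.card_pos]
    rw [h6, h5]
    rfl


end FIN534

end Crest.Agent.R170
end

-- ▼ part R170/WLc_512
section

/-! Row 170, leaf WL, part c (helper512): `TFf` of the wreath product `G ≀ᵣ Q`, `|Q| = p`. -/

set_option autoImplicit false
set_option linter.unusedSectionVars false

namespace Crest.Agent.R170.WL512

open Crest.Agent.R170 Function

section
variable {k G Q : Type*} [Field k] [Group G] [Fintype G] [Group Q] [Fintype Q] [DecidableEq Q]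

noncomputable instance : Fintype (G ≀ᵣ Q) := Fintype.ofEquiv _ (RegularWreathProduct.equivProd G Q).symm

/-- element of the base group -/
def bs (g : Q → G) : G ≀ᵣ Q := ⟨g, 1⟩

omit [Fintype G] [Fintype Q] [DecidableEq Q] in
theorem bs_mul (g h : Q → G) : bs (g * h) = bs g * bs h := by
  apply RegularWreathProduct.ext
  · funext x
    simp [bs]
  · simp [bs]

omit [Fintype G] [Fintype Q] [DecidableEq Q] in
theorem bs_one : bs (1 : Q → G) = 1 := rfl

omit [Fintype G] [Fintype Q] [DecidableEq Q] in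
theorem bs_pow (g : Q → G) (m : ℕ) : bs (g ^ m) = bs g ^ m := by
  induction m with
  | zero => rw [pow_zero, pow_zero, bs_one]
  | succ m ih => rw [pow_succ, pow_succ, bs_mul, ih]

omit [Fintype G] [Fintype Q] [DecidableEq Q] in
theorem bs_inj {g h : Q → G} (hgh : bs g = bs h) : g = h := congrArg RegularWreathProduct.left hgh

omit [Fintype G] [DecidableEq Q] in
theorem pow_base {p n : ℕ} (hQ : Nat.card Q = p) (hn : 1 ≤ n) (γ : G ≀ᵣ Q) :
    γ ^ p ^ n = bs (γ ^ p ^ n).left := by
  apply RegularWreathProduct.ext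
  · rfl
  · change (γ ^ p ^ n).right = 1
    have h1 : (γ ^ p ^ n).right = γ.right ^ p ^ n := by
      exact map_pow (RegularWreathProduct.rightHom (D := G) (Q := Q)) γ (p ^ n)
    rw [h1]
    obtain ⟨m, rfl⟩ : ∃ m, n = m + 1 := ⟨n - 1, by omega⟩
    rw [pow_succ, mul_comm, pow_mul, ← hQ, pow_card_eq_one', one_pow]

/-- the condition on the coefficients of `e^{⊗ p}` -/
def IsTensor (e : MonoidAlgebra k G) (E : MonoidAlgebra k (G ≀ᵣ Q)) : Prop :=
  ∀ γ : G ≀ᵣ Q, E.coeff γ = if γ.right = 1 then ∏ i, e.coeff (γ.left i) else 0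

theorem sumE {e : MonoidAlgebra k G} {E : MonoidAlgebra k (G ≀ᵣ Q)} (hE : IsTensor e E)
    (f : G ≀ᵣ Q → k) :
    ∑ δ, E.coeff δ * f δ = ∑ h : Q → G, (∏ i, e.coeff (h i)) * f (bs h) := by
  rw [Fintype.sum_equiv (RegularWreathProduct.equivProd G Q) (fun δ => E.coeff δ * f δ)
    (fun x : (Q → G) × Q => E.coeff ⟨x.1, x.2⟩ * f ⟨x.1, x.2⟩) (fun x => rfl), Fintype.sum_prod_type]
  refine Finset.sum_congr rfl fun h _ => ?_
  rw [Finset.sum_eq_single (1 : Q)]
  · rw [hE]
    simp [bs]
  · intro q _ hq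
    rw [hE]
    simp [hq]
  · simp

theorem good_base {p n : ℕ} (hg : Good p n (G ≀ᵣ Q)) (x : G) : (x ^ p ^ n) ^ p ^ n = x ^ p ^ n := by
  have := hg.2 (bs fun _ => x)
  rw [← bs_pow, ← bs_pow] at this
  exact congrFun (bs_inj this) 1

/-- restriction to the base group: all partial functions are in `TFf e` -/
theorem restrict_mem {p n : ℕ} (hg : Good p n (G ≀ᵣ Q)) {e : MonoidAlgebra k G} (he : e * e = e)
    {E : MonoidAlgebra k (G ≀ᵣ Q)} (hE : IsTensor e E) {φ : G ≀ᵣ Q → k} (hφ : φ ∈ TFf p n E) :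
    (fun g : Q → G => φ (bs g)) ∈ Part Q (TFf p n e) := by
  obtain ⟨h1, h2, h3⟩ := hφ
  intro i g
  refine ⟨fun x y => ?_, fun x => ?_, fun x => ?_⟩
  · change φ (bs (update g i (x * y))) = φ (bs (update g i (y * x)))
    have e1 : update g i (x * y) = Pi.mulSingle i x * update g i y := by
      funext j
      by_cases hj : j = i
      · subst hj; simp
      · simp [hj]
    have e2 : update g i (y * x) = update g i y * Pi.mulSingle i x := by
      funext j
      by_cases hj : j = i
      · subst hj; simp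
      · simp [hj]
    rw [e1, e2, bs_mul, bs_mul, h1]
  · change φ (bs (update g i (x ^ p ^ n))) = φ (bs (update g i x))
    rw [← h2 (bs (update g i (x ^ p ^ n))), ← h2 (bs (update g i x)), ← bs_pow, ← bs_pow]
    congr 2
    funext j
    by_cases hj : j = i
    · subst hj
      simp [good_base hg x]
    · simp [hj]
  · change ∑ h, e.coeff h * φ (bs (update g i (h * x))) = φ (bs (update g i x))
    have key : ∀ γ, ∑ h : Q → G, (∏ j, e.coeff (h j)) * φ (bs h * γ) = φ γ := by
      intro γ
      rw [← sumE hE (fun δ => φ (δ * γ))]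
      exact h3 γ
    -- left side
    have e1 : ∀ h : G, e.coeff h * φ (bs (update g i (h * x))) =
        ∑ v : Q → G, (e.coeff (v i * h⁻¹) * e.coeff h *
          ∏ j ∈ Finset.univ.erase i, e.coeff (v j)) * φ (bs (v * update g i x)) := by
      intro h
      rw [← key (bs (update g i (h * x))), Finset.mul_sum]
      refine Fintype.sum_equiv (Equiv.mulRight (Pi.mulSingle i h : Q → G)) _ _ ?_
      intro w
      have e3 : w * update g i (h * x) = w * Pi.mulSingle i h * update g i x := by
        funext j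
        by_cases hj : j = i
        · subst hj; simp [mul_assoc]
        · simp [hj]
      rw [← bs_mul, e3]
      simp only [Equiv.coe_mulRight, Pi.mul_apply, Pi.mulSingle_eq_same, mul_inv_cancel_right]
      rw [← Finset.mul_prod_erase Finset.univ _ (Finset.mem_univ i)]
      have e4 : ∏ j ∈ Finset.univ.erase i, e.coeff (w j * (Pi.mulSingle i h : Q → G) j) =
          ∏ j ∈ Finset.univ.erase i, e.coeff (w j) := by
        refine Finset.prod_congr rfl fun j hj => ?_
        rw [Pi.mulSingle_eq_of_ne (Finset.ne_of_mem_erase hj), mul_one]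
      rw [e4]
      ring
    rw [Finset.sum_congr rfl fun h _ => e1 h, Finset.sum_comm, ← key (bs (update g i x))]
    refine Finset.sum_congr rfl fun v _ => ?_
    rw [← bs_mul, ← Finset.sum_mul, ← Finset.sum_mul]
    congr 1
    rw [← Finset.mul_prod_erase Finset.univ _ (Finset.mem_univ i)]
    congr 1
    conv_rhs => rw [← he, J482.coeff_mul_fin]
    refine Fintype.sum_equiv ((Equiv.inv G).trans (Equiv.mulLeft (v i))) _ _ ?_
    intro h
    simp

/-- the interpolating function on the base group -/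
def FI {κ : Type*} [Fintype κ] (φ : κ → G → k) (f : (Q → κ) → k) (g : Q → G) : k :=
  ∑ I : Q → κ, f I * ∏ i, φ (I i) (g i)

/-- translation action -/
@[reducible] def act (Q κ : Type*) [Group Q] : MulAction Q (Q → κ) where
  smul q I := fun x => I (q⁻¹ * x)
  one_smul I := by
    funext x
    change I (1⁻¹ * x) = I x
    simp
  mul_smul q r I := by
    funext x
    change I ((q * r)⁻¹ * x) = I (r⁻¹ * (q⁻¹ * x))
    simp [mul_assoc]

omit [Fintype G] in
theorem FI_conj {κ : Type*} [Fintype κ] {φ : κ → G → k}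
    (hφ : ∀ j g h, φ j (g * h) = φ j (h * g)) {f : (Q → κ) → k}
    (hf : ∀ (q : Q) (I : Q → κ), f (fun x => I (q⁻¹ * x)) = f I) (c g : Q → G) (q : Q) :
    FI φ f (fun x => c x * g (q⁻¹ * x) * (c x)⁻¹) = FI φ f g := by
  classical
  unfold FI
  have hc : ∀ j (a b : G), φ j (a * b * a⁻¹) = φ j b := by
    intro j a b
    rw [mul_assoc, hφ]
    simp
  simp only [hc]
  refine (Fintype.sum_equiv (Equiv.arrowCongr (Equiv.mulLeft q) (Equiv.refl κ)) _ _ ?_).symm
  intro I
  have e1 : (Equiv.arrowCongr (Equiv.mulLeft q) (Equiv.refl κ)) I = fun x => I (q⁻¹ * x) := by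
    funext x
    simp [Equiv.arrowCongr]
  rw [e1, hf]
  congr 1
  refine Fintype.prod_equiv (Equiv.mulLeft q) _ _ ?_
  intro i
  simp

theorem FI_pow {κ : Type*} [Fintype κ] {φ : κ → G → k} {N : ℕ}
    (hφ : ∀ j g, φ j (g ^ N) = φ j g) (f : (Q → κ) → k) (g : Q → G) :
    FI φ f (g ^ N) = FI φ f g := by
  unfold FI
  simp only [Pi.pow_apply, hφ]

theorem FI_e {κ : Type*} [Fintype κ] {φ : κ → G → k} {e : MonoidAlgebra k G}
    (hφ : ∀ j g, ∑ h, e.coeff h * φ j (h * g) = φ j g) (f : (Q → κ) → k) (g : Q → G) :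
    ∑ h : Q → G, (∏ i, e.coeff (h i)) * FI φ f (h * g) = FI φ f g := by
  classical
  unfold FI
  simp only [Finset.mul_sum]
  rw [Finset.sum_comm]
  refine Finset.sum_congr rfl fun I _ => ?_
  have e1 : ∀ h : Q → G, (∏ i, e.coeff (h i)) * (f I * ∏ i, φ (I i) ((h * g) i)) =
      f I * ∏ i, (e.coeff (h i) * φ (I i) (h i * g i)) := by
    intro h
    rw [Finset.prod_mul_distrib]
    simp only [Pi.mul_apply]
    ring
  rw [Finset.sum_congr rfl fun h _ => e1 h, ← Finset.mul_sum]
  congr 1
  have e2 := Finset.prod_univ_sum (fun _ : Q => (Finset.univ : Finset G))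
    (fun i h => e.coeff h * φ (I i) (h * g i))
  rw [Fintype.piFinset_univ] at e2
  rw [← e2]
  exact Finset.prod_congr rfl fun i _ => hφ _ _

/-- the extension of an interpolating function to the wreath product -/
theorem ext_mem {p n : ℕ} [Fact p.Prime] [CharP k p] (hQ : Nat.card Q = p)
    (hg : Good p n (G ≀ᵣ Q)) {e : MonoidAlgebra k G}
    {E : MonoidAlgebra k (G ≀ᵣ Q)} (hE : IsTensor e E) (hEc : ∀ x, E * x = x * E)
    {κ : Type*} [Fintype κ] {φ : κ → G → k} (hφ : ∀ j, φ j ∈ TFf p n e) {f : (Q → κ) → k}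
    (hf : ∀ (q : Q) (I : Q → κ), f (fun x => I (q⁻¹ * x)) = f I) :
    (fun γ : G ≀ᵣ Q => FI φ f (γ ^ p ^ n).left) ∈ TFf p n E := by
  have h1 : ∀ γ δ : G ≀ᵣ Q, FI φ f ((γ * δ) ^ p ^ n).left = FI φ f ((δ * γ) ^ p ^ n).left := by
    intro γ δ
    have e1 : γ * δ = γ * (δ * γ) * γ⁻¹ := by group
    rw [e1, conj_pow, pow_base hQ hg.1 (δ * γ)]
    set u := ((δ * γ) ^ p ^ n).left
    change FI φ f (γ * bs u * γ⁻¹).left = FI φ f u
    rw [← FI_conj (fun j => (hφ j).1) hf γ.left u γ.right]
    congr 1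
    funext x
    simp [bs]
  have h2 : ∀ γ : G ≀ᵣ Q, FI φ f ((γ ^ p ^ n) ^ p ^ n).left = FI φ f (γ ^ p ^ n).left := by
    intro γ
    rw [hg.2]
  refine ⟨h1, h2, ?_⟩
  intro γ
  change ∑ h, E.coeff h * FI φ f ((h * γ) ^ p ^ n).left = FI φ f (γ ^ p ^ n).left
  have h3 := stab (φ := fun γ : G ≀ᵣ Q => FI φ f (γ ^ p ^ n).left) p n hg h1 h2 hEc γ
  beta_reduce at h3
  rw [← h3, sumE hE (fun δ => FI φ f ((δ * γ ^ p ^ n) ^ p ^ n).left)]
  rw [pow_base hQ hg.1 γ]
  set u := (γ ^ p ^ n).left
  have h4 : ∀ h : Q → G, FI φ f ((bs h * bs u) ^ p ^ n).left = FI φ f (h * u) := by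
    intro h
    rw [← bs_mul, ← bs_pow]
    exact FI_pow (fun j => (hφ j).2.1) f (h * u)
  simp only [h4]
  exact FI_e (fun j => (hφ j).2.2) f u

/-- **the count for the wreath product**, in terms of class functions -/
theorem finrank_TFf {p n : ℕ} [Fact p.Prime] [CharP k p] (hQ : Nat.card Q = p)
    (hg : Good p n (G ≀ᵣ Q)) {e : MonoidAlgebra k G} (he : e * e = e)
    {E : MonoidAlgebra k (G ≀ᵣ Q)} (hE : IsTensor e E) (hEc : ∀ x, E * x = x * E) :
    Module.finrank k (TFf p n E) =
      (Module.finrank k (TFf p n e) ^ p - Module.finrank k (TFf p n e)) / p +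
        Module.finrank k (TFf p n e) := by
  classical
  obtain ⟨κ, hκ, a, hcard, hbij⟩ := exists_points (TFf p n e)
  obtain ⟨φ, hφ, hφ2⟩ := exists_prod (ι := Q) hbij
  let _ := act Q κ
  have hact : ∀ (q : Q) (I : Q → κ), q • I = fun x => I (q⁻¹ * x) := fun _ _ => rfl
  let L : TFf p n E →ₗ[k] Inv k Q (Q → κ) :=
    { toFun := fun ψ => ⟨fun I => ψ.1 (bs fun i => a (I i)), by
        intro q I
        change ψ.1 (bs fun i => a (I (q⁻¹ * i))) = ψ.1 (bs fun i => a (I i))
        have e1 : bs (fun i => a (I (q⁻¹ * i))) =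
            (RegularWreathProduct.inl q : G ≀ᵣ Q) * (bs (fun i => a (I i)) *
              (RegularWreathProduct.inl q)⁻¹) := by
          apply RegularWreathProduct.ext
          · funext x
            simp [bs]
          · simp [bs]
        rw [e1, ψ.2.1]
        simp⟩
      map_add' := fun _ _ => rfl
      map_smul' := fun _ _ => rfl }
  have hinj : Injective L := by
    rw [injective_iff_map_eq_zero]
    intro ψ hψ
    have h0 : (fun g : Q → G => ψ.1 (bs g)) = 0 := by
      apply Part.eq_zero (a := a) hbij.1 (restrict_mem hg he hE ψ.2)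
      intro I
      exact congrFun (congrArg Subtype.val hψ) I
    apply Subtype.ext
    funext γ
    rw [← ψ.2.2.1 γ, pow_base hQ hg.1 γ]
    exact congrFun h0 _
  have hsurj : Surjective L := by
    intro f
    have hf : ∀ (q : Q) (I : Q → κ), f.1 (fun x => I (q⁻¹ * x)) = f.1 I := f.2
    refine ⟨⟨_, ext_mem hQ hg hE hEc hφ hf⟩, ?_⟩
    apply Subtype.ext
    funext I
    change FI φ f.1 ((bs fun i => a (I i)) ^ p ^ n).left = f.1 I
    rw [← bs_pow]
    change FI φ f.1 ((fun i => a (I i)) ^ p ^ n) = f.1 I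
    rw [FI_pow (fun j => (hφ j).2.1)]
    exact hφ2 f.1 I
  rw [(LinearEquiv.ofBijective L ⟨hinj, hsurj⟩).finrank_eq, finrank_Inv,
    card_orbits (Fact.out : p.Prime) Q κ hQ hact, hcard]

end

end Crest.Agent.R170.WL512
end

-- ▼ part R170/WLd_512
section

/-! Row 170, leaf WL, part d (helper512): `lc e = finrank (TFf e)` and the wreath product formula
`lc (wE C e) = (lc e ^ p - lc e) / p + lc e`. -/

set_option autoImplicit false
set_option linter.unusedSectionVars false

namespace Crest.Agent.R170.WL512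

open Crest.Agent.R170 Function

/-- existence of a good exponent -/
theorem exists_good (p : ℕ) (hp : p.Prime) (H : Type*) [Group H] [Finite H] : ∃ n, Good p n H := by
  obtain ⟨a, m, hm, hcard⟩ := Nat.exists_eq_pow_mul_and_not_dvd (Nat.card_pos (α := H)).ne' p hp.ne_one
  have hcop : Nat.Coprime p m := (Nat.Prime.coprime_iff_not_dvd hp).2 hm
  have hmpos : 0 < m := Nat.pos_of_ne_zero (by rintro rfl; simp at hm)
  have htot : 0 < Nat.totient m := Nat.totient_pos.2 hmpos
  refine ⟨(a + 1) * Nat.totient m, ?_, ?_⟩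
  · exact Nat.mul_pos (Nat.succ_pos a) htot
  · intro h
    set N := p ^ ((a + 1) * Nat.totient m) with hN
    have h1 : p ^ a ∣ N := by
      apply pow_dvd_pow
      calc a ≤ (a + 1) * 1 := by omega
        _ ≤ _ := Nat.mul_le_mul_left _ htot
    have h2 : m ∣ N - 1 := by
      have : N ≡ 1 [MOD m] := by
        rw [hN, mul_comm, pow_mul]
        calc (p ^ Nat.totient m) ^ (a + 1) ≡ 1 ^ (a + 1) [MOD m] :=
              (Nat.ModEq.pow_totient hcop).pow _
          _ = 1 := one_pow _
      exact (Nat.modEq_iff_dvd' (Nat.one_le_pow _ _ hp.pos)).1 this.symm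
    have h3 : Nat.card H ∣ N * (N - 1) := by
      rw [hcard]
      exact Nat.mul_dvd_mul h1 h2
    have h4 : h ^ (N * (N - 1)) = 1 := by
      obtain ⟨c, hc⟩ := h3
      rw [hc, pow_mul, pow_card_eq_one', one_pow]
    have hN1 : 1 ≤ N := Nat.one_le_pow _ _ hp.pos
    rw [← pow_mul]
    have h5 : N * N = N * (N - 1) + N := by
      obtain ⟨N', hN'⟩ : ∃ N', N = N' + 1 := ⟨N - 1, by omega⟩
      rw [hN']
      simp
      ring
    rw [h5, pow_add, h4, one_mul]

section
variable {k H : Type*} [Field k] [Group H] [Fintype H]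

/-- the linear extension -/
noncomputable def extL (φ : H → k) : MonoidAlgebra k H →ₗ[k] k where
  toFun x := ∑ g, x.coeff g * φ g
  map_add' x y := by
    simp [add_mul, Finset.sum_add_distrib]
  map_smul' c x := by
    simp [Finset.mul_sum, mul_assoc]

theorem extL_apply (φ : H → k) (x : MonoidAlgebra k H) : extL φ x = ext φ x := rfl

theorem inv_iter {p n : ℕ} {φ : H → k} (h2 : ∀ g, φ (g ^ p ^ n) = φ g) (t : ℕ) (g : H) :
    φ (g ^ p ^ (n * t)) = φ g := by
  induction t with
  | zero => simp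
  | succ t ih =>
    rw [Nat.mul_succ, pow_add, pow_mul, h2, ih]

theorem ext_TA (p n : ℕ) [Fact p.Prime] [CharP k p] (hn : 1 ≤ n) {φ : H → k}
    (hφ : ∀ g h, φ (g * h) = φ (h * g)) (h2 : ∀ g, φ (g ^ p ^ n) = φ g)
    {x : MonoidAlgebra k H} (hx : x ∈ LC806.TA k (MonoidAlgebra k H) p) : extL φ x = 0 := by
  obtain ⟨n₀, hn₀⟩ := LC806.TA_pow_mem p hx
  have h3 : n₀ ≤ n * n₀ := Nat.le_mul_of_pos_left _ hn
  have h4 := hn₀ _ h3
  have h5 := ext_pow p (n * n₀) hφ (inv_iter h2 n₀) x
  have h6 : ext (fun g => φ g ^ p ^ (n * n₀)) (x ^ p ^ (n * n₀)) = 0 := by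
    refine LC806.vanish_CA (extL fun g => φ g ^ p ^ (n * n₀)) ?_ h4
    intro a b
    rw [extL_apply, extL_apply]
    exact ext_trace (fun g h => by simp only [hφ g h]) a b
  rw [h6] at h5
  exact pow_eq_zero_iff (pow_pos (Fact.out : p.Prime).pos _).ne' |>.1 h5.symm

theorem finrank_dualSpace (p n : ℕ) [Fact p.Prime] [CharP k p] [IsAlgClosed k] (hg : Good p n H)
    (e : MonoidAlgebra k H) :
    Module.finrank k (LD170.dualSpace k (MonoidAlgebra k H) e) = Module.finrank k (TFf p n e) := by
  classical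
  have hTT : ∀ x, x ∈ LD170.TT k (MonoidAlgebra k H) ↔ x ∈ LC806.TA k (MonoidAlgebra k H) p := by
    intro x
    rw [LC806.TA_eq_sup_jacobson p]
    rfl
  have hexp : ∀ (l : MonoidAlgebra k H →ₗ[k] k) (x : MonoidAlgebra k H),
      l x = ∑ g, x.coeff g * l (MonoidAlgebra.single g 1) := by
    intro l x
    conv_lhs => rw [J482.eq_sum_single x, map_sum]
    refine Finset.sum_congr rfl fun g _ => ?_
    rw [← smul_eq_mul, ← map_smul]
    congr 1
    simp
  let T : LD170.dualSpace k (MonoidAlgebra k H) e →ₗ[k] TFf p n e :=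
    { toFun := fun l => ⟨fun g => l.1 (MonoidAlgebra.single g 1), by
        obtain ⟨l, hl1, hl2⟩ := l
        refine ⟨fun g h => ?_, fun g => ?_, fun g => ?_⟩
        · rw [← sub_eq_zero, ← map_sub]
          apply hl1
          apply LD170.comm_le_TT
          apply Submodule.subset_span
          exact ⟨MonoidAlgebra.single g 1, MonoidAlgebra.single h 1, by
            simp [MonoidAlgebra.single_mul_single]⟩
        · rw [← sub_eq_zero, ← map_sub]
          apply hl1
          rw [hTT]
          apply LC806.nilpotent_mem_TA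
          refine ⟨p ^ n, ?_⟩
          have hcg : Commute (MonoidAlgebra.single (g ^ p ^ n) (1 : k)) (MonoidAlgebra.single g 1) := by
            change _ * _ = _ * _
            rw [MonoidAlgebra.single_mul_single, MonoidAlgebra.single_mul_single]
            congr 1
            exact (Commute.pow_self g _)
          have hchar : CharP (MonoidAlgebra k H) p := by
            exact charP_of_injective_algebraMap
              (FaithfulSMul.algebraMap_injective k (MonoidAlgebra k H)) p
          rw [sub_pow_char_pow_of_commute (p := p) (n := n) hcg, MonoidAlgebra.single_pow,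
            MonoidAlgebra.single_pow, one_pow, hg.2 g, sub_self]
        · have h3 := hl2 (MonoidAlgebra.single g 1)
          rw [hexp l (e * MonoidAlgebra.single g 1)] at h3
          exact (ext_mul_single (fun g => l (MonoidAlgebra.single g 1)) e g).symm.trans h3⟩
      map_add' := fun _ _ => rfl
      map_smul' := fun _ _ => rfl }
  have hinj : Injective T := by
    intro l m hlm
    apply Subtype.ext
    apply LinearMap.ext
    intro x
    rw [hexp l.1 x, hexp m.1 x]
    refine Finset.sum_congr rfl fun g _ => ?_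
    rw [show l.1 (MonoidAlgebra.single g 1) = m.1 (MonoidAlgebra.single g 1) from
      congrFun (congrArg Subtype.val hlm) g]
  have hsurj : Surjective T := by
    rintro ⟨φ, h1, h2, h3⟩
    refine ⟨⟨extL φ, fun x hx => ext_TA p n hg.1 h1 h2 ((hTT x).1 hx), fun x => ?_⟩, ?_⟩
    · -- `φ(e x) = φ(x)`
      conv_rhs => rw [J482.eq_sum_single x]
      conv_lhs => rw [J482.eq_sum_single x]
      rw [Finset.mul_sum, map_sum, map_sum]
      refine Finset.sum_congr rfl fun g _ => ?_
      have e1 : MonoidAlgebra.single g (x.coeff g) = x.coeff g • MonoidAlgebra.single g (1 : k) := by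
        simp
      rw [e1, mul_smul_comm, map_smul, map_smul]
      congr 1
      rw [extL_apply, extL_apply, ext_mul_single, h3, ext_single, one_mul]
    · apply Subtype.ext
      funext g
      change extL φ (MonoidAlgebra.single g 1) = φ g
      rw [extL_apply, ext_single, one_mul]
  exact (LinearEquiv.ofBijective T ⟨hinj, hsurj⟩).finrank_eq

end

section
variable {k : Type} [Field k] [IsAlgClosed k] {G : Type} [Group G] [Finite G]

theorem lc_eq {H : Type} [Group H] [Fintype H] (p n : ℕ) [Fact p.Prime] [CharP k p] (hg : Good p n H)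
    {e : MonoidAlgebra k H} (he : CI e) : lc e = Module.finrank k (TFf p n e) := by
  rw [← finrank_dualSpace p n hg e]
  exact LD170.blockSimpleCount_eq_finrank_dual e he.1 he.2

/-- **WL** -/
theorem lc_wE (p : ℕ) [Fact p.Prime] [CharP k p] (C : Type) [Group C] [Fintype C]
    (hC : Nat.card C = p) {e : MonoidAlgebra k G} (he : CI e) (hE : CI (wE C e)) :
    lc (wE C e) = (lc e ^ p - lc e) / p + lc e := by
  classical
  let _ := Fintype.ofFinite G
  obtain ⟨n, hg⟩ := exists_good p (Fact.out : p.Prime) (G ≀ᵣ C)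
  have hgG : Good p n G := ⟨hg.1, fun x => good_base hg x⟩
  rw [lc_eq p n hg hE, lc_eq p n hgG he]
  exact finrank_TFf hC hg he.2 (fun γ => wE_coeff C e γ) hE.1

end

end Crest.Agent.R170.WL512
end

-- ▼ part R170/WL_512
section

/-! Row 170, leaf WL, final form (helper512). -/

set_option autoImplicit false

namespace Crest.Agent.R170.WL512

open Crest.Agent.R170

variable {k : Type} [Field k] [IsAlgClosed k] {G : Type} [Group G] [Finite G]

/-- **WL**: the number of simple modules of the wreath product with a group `C` of prime order `p`. -/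
theorem WL (p : ℕ) [Fact p.Prime] [CharP k p] (C : Type) [Group C] [Fintype C]
    (hC : Nat.card C = p) (e : MonoidAlgebra k G) (he : CI e) :
    lc (wE C e) = (lc e ^ p - lc e) / p + lc e :=
  lc_wE p C hC he (WW4148.CI_wE C e he)



end Crest.Agent.R170.WL512
end

-- ▼ part R170/Tens_538
section

/-!
Row 170, leaf WW3 (helper538), part 3: centre of the group algebra of a finite product of groups and
its characters.
-/

set_option autoImplicit false
set_option linter.unusedSectionVars false

namespace Crest.Agent.R170.SCC538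

open MonoidAlgebra Crest.AlgebraR.Weights Crest.AlgebraR.Blocks Crest.Agent.R170

section center
variable {k G : Type} [Field k] [Group G] [Finite G]

/-- the centre of `kG` -/
abbrev ZZ (k G : Type) [Field k] [Group G] : Type := Subalgebra.center k (MonoidAlgebra k G)

theorem coeff_mul' (x y : MonoidAlgebra k G) (g : G) [Fintype G] :
    (x * y).coeff g = ∑ h, x.coeff h * y.coeff (h⁻¹ * g) := J482.coeff_mul_fin x y g

theorem mem_center_iff (z : MonoidAlgebra k G) :
    z ∈ Subalgebra.center k (MonoidAlgebra k G) ↔ ∀ g h : G, z.coeff (h * g * h⁻¹) = z.coeff g := by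
  rw [Subalgebra.mem_center_iff]
  constructor
  · intro H g h
    have h1 := H (MonoidAlgebra.single h 1)
    have h2 := congrArg (fun w => w.coeff (h * g)) h1
    simp only [MonoidAlgebra.coeff_single_mul_apply, MonoidAlgebra.coeff_mul_single_apply] at h2
    simpa using h2.symm
  · intro H b
    have := Fintype.ofFinite G
    rw [J482.eq_sum_single b, Finset.mul_sum, Finset.sum_mul]
    refine Finset.sum_congr rfl fun g _ => ?_
    apply MonoidAlgebra.coeff_injective
    ext h
    rw [MonoidAlgebra.coeff_mul_single_apply, MonoidAlgebra.coeff_single_mul_apply, mul_comm]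
    congr 1
    rw [← H (g⁻¹ * h) g]
    congr 1
    group

theorem coeff_isConj (z : ZZ k G) {g h : G} (hgh : IsConj g h) :
    (z : MonoidAlgebra k G).coeff g = (z : MonoidAlgebra k G).coeff h := by
  obtain ⟨c, rfl⟩ := isConj_iff.1 hgh
  exact ((mem_center_iff _).1 z.2 g c).symm

open Classical in
/-- class sum -/
noncomputable def κ (c : ConjClasses G) : ZZ k G :=
  ⟨.ofCoeff (Finsupp.equivFunOnFinite.symm fun g => if ConjClasses.mk g = c then 1 else 0), by
    rw [mem_center_iff]
    intro g h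
    have : ConjClasses.mk (h * g * h⁻¹) = ConjClasses.mk g := by
      rw [ConjClasses.mk_eq_mk_iff_isConj, isConj_comm, isConj_iff]
      exact ⟨h, rfl⟩
    change (if ConjClasses.mk (h * g * h⁻¹) = c then (1 : k) else 0) =
      if ConjClasses.mk g = c then (1 : k) else 0
    rw [this]⟩

open Classical in
theorem κ_coeff (c : ConjClasses G) (g : G) :
    (κ c : ZZ k G).1.coeff g = if ConjClasses.mk g = c then 1 else 0 := rfl

theorem isConj_out (g : G) : IsConj (ConjClasses.mk g).out g := by
  rw [← ConjClasses.mk_eq_mk_iff_isConj]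
  exact Quotient.out_eq _

end center

section tens
variable {k : Type} [Field k] {ι : Type} [Fintype ι] {M : ι → Type} [∀ i, Group (M i)]
  [∀ i, Finite (M i)]

/-- outer product -/
noncomputable def tens (x : ∀ i, MonoidAlgebra k (M i)) : MonoidAlgebra k (∀ i, M i) :=
  .ofCoeff (Finsupp.equivFunOnFinite.symm fun g => ∏ i, (x i).coeff (g i))

theorem tens_coeff (x : ∀ i, MonoidAlgebra k (M i)) (g : ∀ i, M i) :
    (tens x).coeff g = ∏ i, (x i).coeff (g i) := rfl

theorem tens_mul (x y : ∀ i, MonoidAlgebra k (M i)) : tens (x * y) = tens x * tens y := by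
  classical
  have := fun i => Fintype.ofFinite (M i)
  have := Fintype.ofFinite (∀ i, M i)
  apply MonoidAlgebra.coeff_injective
  ext g
  rw [coeff_mul', tens_coeff]
  simp only [tens_coeff, Pi.mul_apply, Pi.inv_apply, coeff_mul', ← Finset.prod_mul_distrib]
  rw [Finset.prod_univ_sum]
  refine Finset.sum_bij (fun f _ => f) (by simp) (by simp) (by simp) (by simp)

theorem tens_one : tens (1 : ∀ i, MonoidAlgebra k (M i)) = 1 := by
  classical
  apply MonoidAlgebra.coeff_injective
  ext g
  rw [tens_coeff]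
  simp only [Pi.one_apply, MonoidAlgebra.one_def, MonoidAlgebra.coeff_single, Finsupp.single_apply]
  by_cases h : 1 = g
  · subst h
    simp
  · rw [if_neg h]
    obtain ⟨i, hi⟩ := Function.ne_iff.1 h
    exact Finset.prod_eq_zero (Finset.mem_univ i) (if_neg hi)

/-- on centres, as a monoid homomorphism -/
noncomputable def tensZ : (∀ i, ZZ k (M i)) →* ZZ k (∀ i, M i) where
  toFun z := ⟨tens fun i => (z i).1, by
    rw [mem_center_iff]
    intro g h
    rw [tens_coeff, tens_coeff]
    exact Finset.prod_congr rfl fun i _ => (mem_center_iff _).1 (z i).2 (g i) (h i)⟩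
  map_one' := Subtype.ext tens_one
  map_mul' x y := Subtype.ext (tens_mul (fun i => (x i).1) (fun i => (y i).1))

theorem tensZ_coeff (z : ∀ i, ZZ k (M i)) (g : ∀ i, M i) :
    (tensZ z).1.coeff g = ∏ i, (z i).1.coeff (g i) := rfl

/-- expansion of a central element in class sums -/
theorem expand [Fintype (∀ i, ConjClasses (M i))] (z : ZZ k (∀ i, M i)) :
    z = ∑ c : (∀ i, ConjClasses (M i)), z.1.coeff (fun i => (c i).out) • tensZ (fun i => κ (c i)) := by
  classical
  apply Subtype.ext
  apply MonoidAlgebra.coeff_injective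
  ext g
  have h1 : ((∑ c : (∀ i, ConjClasses (M i)), z.1.coeff (fun i => (c i).out) •
      tensZ (fun i => κ (c i)) : ZZ k (∀ i, M i)) : MonoidAlgebra k (∀ i, M i)).coeff g =
      ∑ c : (∀ i, ConjClasses (M i)), z.1.coeff (fun i => (c i).out) *
        ∏ i, (κ (c i) : ZZ k (M i)).1.coeff (g i) := by
    rw [AddSubmonoidClass.coe_finsetSum, MonoidAlgebra.coeff_sum, Finsupp.finsetSum_apply]
    rfl
  rw [h1, Finset.sum_eq_single (fun i => ConjClasses.mk (g i))]
  · rw [Finset.prod_eq_one, mul_one]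
    · refine (coeff_isConj z ?_).symm
      have h2 : ∀ i, ∃ c, c * (ConjClasses.mk (g i)).out * c⁻¹ = g i := fun i =>
        isConj_iff.1 (isConj_out (g i))
      choose c hc using h2
      exact isConj_iff.2 ⟨c, funext hc⟩
    · intro i _
      rw [κ_coeff, if_pos rfl]
  · intro c _ hc
    obtain ⟨i, hi⟩ := Function.ne_iff.1 hc
    rw [Finset.prod_eq_zero (Finset.mem_univ i), mul_zero]
    rw [κ_coeff, if_neg (Ne.symm hi)]
  · intro h
    exact absurd (Finset.mem_univ _) h

/-- the same for one group -/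
theorem expand1 {H : Type} [Group H] [Finite H] [Fintype (ConjClasses H)] (z : ZZ k H) :
    z = ∑ c : ConjClasses H, z.1.coeff c.out • κ c := by
  classical
  apply Subtype.ext
  apply MonoidAlgebra.coeff_injective
  ext g
  have h1 : ((∑ c : ConjClasses H, z.1.coeff c.out • κ c : ZZ k H) : MonoidAlgebra k H).coeff g =
      ∑ c : ConjClasses H, z.1.coeff c.out * (κ c : ZZ k H).1.coeff g := by
    rw [AddSubmonoidClass.coe_finsetSum, MonoidAlgebra.coeff_sum, Finsupp.finsetSum_apply]
    rfl
  rw [h1, Finset.sum_eq_single (ConjClasses.mk g)]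
  · rw [κ_coeff, if_pos rfl, mul_one]
    exact (coeff_isConj z (isConj_out g)).symm
  · intro c _ hc
    rw [κ_coeff, if_neg (Ne.symm hc), mul_zero]
  · intro h
    exact absurd (Finset.mem_univ _) h

/-- the product of linear functionals on the centres -/
noncomputable def prodLin [Fintype (∀ i, ConjClasses (M i))] (w : ∀ i, ZZ k (M i) →ₐ[k] k) :
    ZZ k (∀ i, M i) →ₗ[k] k where
  toFun z := ∑ c : (∀ i, ConjClasses (M i)), z.1.coeff (fun i => (c i).out) * ∏ i, w i (κ (c i))
  map_add' x y := by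
    rw [← Finset.sum_add_distrib]
    refine Finset.sum_congr rfl fun c _ => ?_
    rw [← add_mul]
    rfl
  map_smul' a x := by
    rw [RingHom.id_apply, smul_eq_mul, Finset.mul_sum]
    refine Finset.sum_congr rfl fun c _ => ?_
    rw [← mul_assoc]
    rfl

theorem prodLin_tensZ [Fintype (∀ i, ConjClasses (M i))] [∀ i, Fintype (ConjClasses (M i))] (w : ∀ i, ZZ k (M i) →ₐ[k] k)
    (z : ∀ i, ZZ k (M i)) : prodLin w (tensZ z) = ∏ i, w i (z i) := by
  classical
  have h1 : ∀ i, w i (z i) = ∑ c : ConjClasses (M i), (z i).1.coeff c.out * w i (κ c) := by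
    intro i
    conv_lhs => rw [expand1 (z i)]
    rw [map_sum]
    exact Finset.sum_congr rfl fun c _ => by rw [map_smul, smul_eq_mul]
  simp only [h1]
  rw [Finset.prod_univ_sum]
  change ∑ c : (∀ i, ConjClasses (M i)), (tensZ z).1.coeff (fun i => (c i).out) *
    ∏ i, w i (κ (c i)) = _
  simp only [tensZ_coeff, ← Finset.prod_mul_distrib]
  refine Finset.sum_bij (fun f _ => f) (by simp) (by simp) (by simp) (by simp)

/-- the product of characters of the centres -/
noncomputable def prodChar (w : ∀ i, ZZ k (M i) →ₐ[k] k) : ZZ k (∀ i, M i) →ₐ[k] k :=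
  letI := fun i => Fintype.ofFinite (ConjClasses (M i))
  letI := Fintype.ofFinite (∀ i, ConjClasses (M i))
  AlgHom.ofLinearMap (prodLin w)
    (by
      rw [← map_one (tensZ (k := k) (M := M)), prodLin_tensZ]
      simp)
    (by
      intro x y
      rw [expand x, expand y, Finset.sum_mul_sum]
      simp only [map_sum, Finset.sum_mul_sum]
      refine Finset.sum_congr rfl fun c _ => Finset.sum_congr rfl fun d _ => ?_
      rw [smul_mul_smul_comm, ← map_mul, map_smul, map_smul, map_smul, prodLin_tensZ,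
        prodLin_tensZ, prodLin_tensZ]
      simp only [Pi.mul_apply, map_mul, Finset.prod_mul_distrib, smul_eq_mul]
      ring)

theorem prodChar_tensZ (w : ∀ i, ZZ k (M i) →ₐ[k] k) (z : ∀ i, ZZ k (M i)) :
    prodChar w (tensZ z) = ∏ i, w i (z i) := by
  letI := fun i => Fintype.ofFinite (ConjClasses (M i))
  letI := Fintype.ofFinite (∀ i, ConjClasses (M i))
  exact prodLin_tensZ w z

open Classical in
/-- the inclusion of one factor -/
noncomputable def incl (i : ι) : ZZ k (M i) →ₐ[k] ZZ k (∀ i, M i) :=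
  AlgHom.ofLinearMap
    { toFun := fun z => tensZ (Pi.mulSingle i z)
      map_add' := by
        intro x y
        apply Subtype.ext
        apply MonoidAlgebra.coeff_injective
        ext g
        change ∏ j, ((Pi.mulSingle i (x + y) : ∀ i, ZZ k (M i)) j).1.coeff (g j) =
          ∏ j, ((Pi.mulSingle i x : ∀ i, ZZ k (M i)) j).1.coeff (g j) +
          ∏ j, ((Pi.mulSingle i y : ∀ i, ZZ k (M i)) j).1.coeff (g j)
        rw [← Finset.mul_prod_erase _ _ (Finset.mem_univ i), ← Finset.mul_prod_erase _ _ (Finset.mem_univ i),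
          ← Finset.mul_prod_erase Finset.univ (fun j => ((Pi.mulSingle i y : ∀ i, ZZ k (M i)) j).1.coeff (g j))
            (Finset.mem_univ i)]
        simp only [Pi.mulSingle_eq_same]
        have e1 : ∀ t : ZZ k (M i), ∏ j ∈ Finset.univ.erase i,
            ((Pi.mulSingle i t : ∀ i, ZZ k (M i)) j).1.coeff (g j) =
            ∏ j ∈ Finset.univ.erase i, ((1 : ZZ k (M j))).1.coeff (g j) := by
          intro t
          refine Finset.prod_congr rfl fun j hj => ?_
          rw [Pi.mulSingle_eq_of_ne (Finset.ne_of_mem_erase hj)]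
        rw [e1, e1, e1, ← add_mul]
        rfl
      map_smul' := by
        intro a x
        apply Subtype.ext
        apply MonoidAlgebra.coeff_injective
        ext g
        change ∏ j, ((Pi.mulSingle i (a • x) : ∀ i, ZZ k (M i)) j).1.coeff (g j) =
          a * ∏ j, ((Pi.mulSingle i x : ∀ i, ZZ k (M i)) j).1.coeff (g j)
        rw [← Finset.mul_prod_erase _ _ (Finset.mem_univ i),
          ← Finset.mul_prod_erase Finset.univ (fun j => ((Pi.mulSingle i x : ∀ i, ZZ k (M i)) j).1.coeff (g j))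
            (Finset.mem_univ i)]
        simp only [Pi.mulSingle_eq_same]
        have e1 : ∀ t : ZZ k (M i), ∏ j ∈ Finset.univ.erase i,
            ((Pi.mulSingle i t : ∀ i, ZZ k (M i)) j).1.coeff (g j) =
            ∏ j ∈ Finset.univ.erase i, ((1 : ZZ k (M j))).1.coeff (g j) := by
          intro t
          refine Finset.prod_congr rfl fun j hj => ?_
          rw [Pi.mulSingle_eq_of_ne (Finset.ne_of_mem_erase hj)]
        rw [e1, e1, ← mul_assoc]
        rfl }
    (by
      change tensZ (Pi.mulSingle i 1) = 1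
      rw [Pi.mulSingle_one, map_one])
    (by
      intro x y
      change tensZ (Pi.mulSingle i (x * y)) = tensZ (Pi.mulSingle i x) * tensZ (Pi.mulSingle i y)
      rw [Pi.mulSingle_mul, map_mul])


open Classical in
theorem tensZ_eq_prod (z : ∀ i, ZZ k (M i)) : tensZ z = ∏ i, incl i (z i) := by
  conv_lhs => rw [← Finset.univ_prod_mulSingle z]
  rw [map_prod]
  rfl

/-- characters of the centre of a product -/
noncomputable def charEquiv :
    (ZZ k (∀ i, M i) →ₐ[k] k) ≃ (∀ i, ZZ k (M i) →ₐ[k] k) where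
  toFun w i := w.comp (incl i)
  invFun w := prodChar w
  left_inv w := by
    letI := Fintype.ofFinite (∀ i, ConjClasses (M i))
    apply AlgHom.ext
    intro z
    rw [expand z, map_sum, map_sum]
    refine Finset.sum_congr rfl fun c _ => ?_
    rw [map_smul, map_smul, prodChar_tensZ, tensZ_eq_prod, map_prod]
    rfl
  right_inv w := by
    classical
    funext i
    apply AlgHom.ext
    intro z
    change prodChar w (tensZ (Pi.mulSingle i z)) = w i z
    rw [prodChar_tensZ, Finset.prod_eq_single i]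
    · rw [Pi.mulSingle_eq_same]
    · intro j _ hj
      rw [Pi.mulSingle_eq_of_ne hj, map_one]
    · intro h
      exact absurd (Finset.mem_univ i) h

theorem charEquiv_tensZ (w : ZZ k (∀ i, M i) →ₐ[k] k) (z : ∀ i, ZZ k (M i)) :
    w (tensZ z) = ∏ i, (charEquiv w i) (z i) := by
  rw [tensZ_eq_prod, map_prod]
  rfl

end tens

end Crest.Agent.R170.SCC538
end

-- ▼ part R170/Chars_538
section

/-!
Row 170, leaf WW3 (helper538), part 4: the number of classes of simple modules with `e = 1` on which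
the central element `j` (with `j * rad = 0`) does not vanish is the number of characters `ω` of the
centre with `ω e = 1`, `ω j = 1`.
-/

set_option autoImplicit false
open scoped BigOperators

namespace Crest.Agent.R170.SCC538

open Crest.AlgebraR.Weights Crest.Agent.R170.J482

variable {k A : Type*} [Field k] [Ring A] [Algebra k A] (D : SplitData k A)

theorem one_sub_mem_iso {e : A} (he : ∀ x, e * x = x * e) (m m' : Submodule A A)
    (h : Nonempty ((A ⧸ m) ≃ₗ[A] (A ⧸ m'))) (hm : 1 - e ∈ m) : 1 - e ∈ m' := by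
  obtain ⟨f⟩ := h
  have h1 : ∀ s : A ⧸ m, (1 - e) • s = 0 := by
    intro s
    obtain ⟨a, rfl⟩ := Submodule.Quotient.mk_surjective _ s
    rw [← Submodule.Quotient.mk_smul, Submodule.Quotient.mk_eq_zero, smul_eq_mul, sub_mul, one_mul,
      he, ← mul_one_sub]
    exact m.smul_mem a hm
  have h2 : (1 - e) • (Submodule.Quotient.mk 1 : A ⧸ m') = 0 := by
    obtain ⟨s, hs⟩ := f.surjective (Submodule.Quotient.mk 1 : A ⧸ m')
    rw [← hs, ← map_smul, h1, map_zero]
  rw [← Submodule.Quotient.mk_smul, Submodule.Quotient.mk_eq_zero, smul_eq_mul, mul_one] at h2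
  exact h2

/-- the central character as an algebra homomorphism -/
noncomputable def omZ (i : Fin D.n) : Subalgebra.center k A →ₐ[k] k :=
  AlgHom.ofLinearMap ((D.om i) ∘ₗ (Subalgebra.center k A).val.toLinearMap)
    (D.om_one i)
    (fun x y => D.om_mul_central (fun a => (Subalgebra.mem_center_iff.1 x.2 a).symm) y.1 i)


theorem card_chars {j : A} (hj : ∀ x, j * x = x * j) (hjr : ∀ x, D.π x = 0 → j * x = 0)
    (hpr : ∀ i, Module.Projective A (A ⧸ D.L i) ↔ D.om i j = 1)
    (e : A) (he : ∀ x, e * x = x * e) :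
    simpleClassCount A (fun m => Module.Projective A (A ⧸ m) ∧ 1 - e ∈ m) =
      Nat.card {w : Subalgebra.center k A →ₐ[k] k //
        w ⟨e, Subalgebra.mem_center_iff.2 fun x => (he x).symm⟩ = 1 ∧
        w ⟨j, Subalgebra.mem_center_iff.2 fun x => (hj x).symm⟩ = 1} := by
  rw [D.simpleClassCount_eq _ (by
    rintro m m' ⟨f⟩ ⟨h1, h2⟩
    exact ⟨Module.Projective.of_equiv f, one_sub_mem_iso he m m' ⟨f⟩ h2⟩)]
  have hcu : ∀ i, j * D.u i ∈ Subalgebra.center k A := fun i =>
    Subalgebra.mem_center_iff.2 fun x => (D.ju_central hj hjr i x).symm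
  refine Nat.card_congr (Equiv.ofBijective (fun i => ⟨omZ D i.1, ?_, ?_⟩) ⟨?_, ?_⟩)
  · exact (D.one_sub_mem_L he i.1).1 i.2.2
  · exact (hpr i.1).1 i.2.1
  · intro a b hab
    have h1 : omZ D a.1 = omZ D b.1 := congrArg Subtype.val hab
    apply Subtype.ext
    by_contra hne
    have h2 := congrArg (fun w => w ⟨_, hcu a.1⟩) h1
    change D.om a.1 (j * D.u a.1) = D.om b.1 (j * D.u a.1) at h2
    rw [D.om_mul_central hj, D.om_mul_central hj, D.om_apply a.1 (D.u a.1),
      D.om_apply b.1 (D.u a.1), D.π_u, Pi.single_eq_same, Pi.single_eq_of_ne (Ne.symm hne),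
      Matrix.one_apply_eq, (hpr a.1).1 a.2.1] at h2
    simp at h2
  · rintro ⟨w, hwe, hwj⟩
    -- `j = ∑ j u_i`
    have h1 : (⟨j, Subalgebra.mem_center_iff.2 fun x => (hj x).symm⟩ : Subalgebra.center k A) =
        ∑ i, ⟨j * D.u i, hcu i⟩ := by
      apply Subtype.ext
      rw [AddSubmonoidClass.coe_finsetSum]
      have h2 := D.j_mul_central hj hjr (y := (1 : A)) (fun x => by rw [one_mul, mul_one])
      rw [mul_one] at h2
      simp only [D.om_one, one_smul] at h2
      exact h2
    have h2 : ∃ i, w ⟨j * D.u i, hcu i⟩ ≠ 0 := by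
      by_contra hcon
      push Not at hcon
      rw [h1, map_sum] at hwj
      rw [Finset.sum_eq_zero fun i _ => hcon i] at hwj
      exact one_ne_zero hwj.symm
    obtain ⟨i, hi⟩ := h2
    have h3 : w = omZ D i := by
      apply AlgHom.ext
      intro y
      have hy : ∀ x, (y : A) * x = x * y := fun x => (Subalgebra.mem_center_iff.1 y.2 x).symm
      have h4 : y * ⟨j * D.u i, hcu i⟩ = (D.om i y.1) • (⟨j * D.u i, hcu i⟩ : Subalgebra.center k A) := by
        apply Subtype.ext
        change y.1 * (j * D.u i) = D.om i y.1 • (j * D.u i)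
        rw [← mul_assoc, hy j, mul_assoc, ← mul_smul_comm]
        apply D.j_congr hjr
        rw [map_mul, map_smul, D.π_u]
        funext l
        by_cases hl : l = i
        · subst hl
          rw [Pi.mul_apply, Pi.smul_apply, Pi.single_eq_same, D.π_central hy l,
            Algebra.algebraMap_eq_smul_one, mul_one]
        · rw [Pi.mul_apply, Pi.smul_apply, Pi.single_eq_of_ne hl, mul_zero, smul_zero]
      have h5 := congrArg w h4
      rw [map_mul, map_smul, smul_eq_mul] at h5
      exact mul_right_cancel₀ hi h5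
    refine ⟨⟨i, (hpr i).2 ?_, (D.one_sub_mem_L he i).2 ?_⟩, Subtype.ext h3.symm⟩
    · rw [h3] at hwj
      exact hwj
    · rw [h3] at hwe
      exact hwe

/-- every character of the centre takes the value `0` or `1` on `j` -/
theorem char_j {j : A} (hj : ∀ x, j * x = x * j) (hjr : ∀ x, D.π x = 0 → j * x = 0)
    (hpr : ∀ i, Module.Projective A (A ⧸ D.L i) ↔ D.om i j = 1)
    (w : Subalgebra.center k A →ₐ[k] k) :
    w ⟨j, Subalgebra.mem_center_iff.2 fun x => (hj x).symm⟩ = 0 ∨
      w ⟨j, Subalgebra.mem_center_iff.2 fun x => (hj x).symm⟩ = 1 := by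
  have hcu : ∀ i, j * D.u i ∈ Subalgebra.center k A := fun i =>
    Subalgebra.mem_center_iff.2 fun x => (D.ju_central hj hjr i x).symm
  set jj : Subalgebra.center k A := ⟨j, Subalgebra.mem_center_iff.2 fun x => (hj x).symm⟩ with hjj
  by_cases h0 : w jj = 0
  · exact Or.inl h0
  right
  have h1 : jj = ∑ i, ⟨j * D.u i, hcu i⟩ := by
    apply Subtype.ext
    rw [AddSubmonoidClass.coe_finsetSum]
    have h2 := D.j_mul_central hj hjr (y := (1 : A)) (fun x => by rw [one_mul, mul_one])
    rw [mul_one] at h2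
    simp only [D.om_one, one_smul] at h2
    exact h2
  have h2 : ∃ i, w ⟨j * D.u i, hcu i⟩ ≠ 0 := by
    by_contra hcon
    push Not at hcon
    rw [h1, map_sum] at h0
    exact h0 (Finset.sum_eq_zero fun i _ => hcon i)
  obtain ⟨i, hi⟩ := h2
  have h4 : jj * ⟨j * D.u i, hcu i⟩ = (D.om i j) • (⟨j * D.u i, hcu i⟩ : Subalgebra.center k A) := by
    apply Subtype.ext
    change j * (j * D.u i) = D.om i j • (j * D.u i)
    rw [← mul_smul_comm]
    apply D.j_congr hjr
    rw [map_mul, map_smul, D.π_u]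
    funext l
    by_cases hl : l = i
    · subst hl
      rw [Pi.mul_apply, Pi.smul_apply, Pi.single_eq_same, D.π_central hj l,
        Algebra.algebraMap_eq_smul_one, mul_one]
    · rw [Pi.mul_apply, Pi.smul_apply, Pi.single_eq_of_ne hl, mul_zero, smul_zero]
  have h5 := congrArg w h4
  rw [map_mul, map_smul, smul_eq_mul] at h5
  have h6 := mul_right_cancel₀ hi h5
  rw [h6] at h0 ⊢
  exact (hpr i).1 (D.projective_of_om_ne_zero hj hjr i h0)

end Crest.Agent.R170.SCC538
end

-- ▼ part R170/F0pi_538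
section

/-!
Row 170, leaf WW3 (helper538), part 5: `f0` of a finite product of groups is the product.
-/

set_option autoImplicit false
set_option linter.unusedSectionVars false

namespace Crest.Agent.R170.SCC538

open MonoidAlgebra Crest.AlgebraR.Weights Crest.AlgebraR.Blocks Crest.Agent.R170

section one
variable {k G : Type} [Field k] [IsAlgClosed k] [Group G] [Finite G]

open Classical in
/-- the sum of the `p`-elements, as an element of the centre -/
noncomputable def jZ (p : ℕ) (k G : Type) [Field k] [Group G] [Finite G] : ZZ k G :=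
  ⟨.ofCoeff (Finsupp.equivFunOnFinite.symm fun g => if IsPElt p g then 1 else 0), by
    rw [mem_center_iff]
    intro g h
    have : IsPElt p (h * g * h⁻¹) ↔ IsPElt p g := by
      unfold IsPElt
      simp only [conj_pow, conj_eq_one_iff]
    change (if IsPElt p (h * g * h⁻¹) then (1 : k) else 0) = if IsPElt p g then (1 : k) else 0
    simp only [this]⟩

open Classical in
theorem jZ_coeff (p : ℕ) (g : G) : (jZ p k G).1.coeff g = if IsPElt p g then 1 else 0 := rfl

theorem jZ_eq (p : ℕ) [hp : Fact p.Prime] [Fintype G] : (jZ p k G).1 = J482.J k G p := by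
  apply MonoidAlgebra.coeff_injective
  ext g
  rw [J482.J_coeff, jZ_coeff]
  have h1 : J482.IsPE p g ↔ IsPElt p g := J482.isPE_iff_exists hp.out g
  by_cases h : IsPElt p g
  · rw [if_pos h, if_pos (h1.2 h)]
  · rw [if_neg h, if_neg (fun h2 => h (h1.1 h2))]

theorem ci_mem_center {e : MonoidAlgebra k G} (he : CI e) :
    e ∈ Subalgebra.center k (MonoidAlgebra k G) :=
  Subalgebra.mem_center_iff.2 fun x => (he.1 x).symm

/-- `f0 e` is the number of characters `w` of the centre with `w e = 1`, `w J = 1` -/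
theorem f0_eq_card_chars (p : ℕ) [hp : Fact p.Prime] [CharP k p] (e : ZZ k G) :
    f0 e.1 = Nat.card {w : ZZ k G →ₐ[k] k // w e = 1 ∧ w (jZ p k G) = 1} := by
  haveI := Fintype.ofFinite G
  obtain ⟨D⟩ := J482.exists_splitData k (MonoidAlgebra k G)
  have h := card_chars D (J482.J_central (k := k) (G := G) p)
    (fun x hx => J482.J_mul_rad p x ((D.ker_rad x).1 hx))
    (fun i => ⟨fun hP => J482.om_J_eq_one D p i hP, fun h1 => by
      rcases J482.om_J_cases D p i with ⟨h2, _⟩ | ⟨_, h2⟩
      · exact h2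
      · rw [h1] at h2; exact absurd h2 one_ne_zero⟩)
    e.1 (fun x => (Subalgebra.mem_center_iff.1 e.2 x).symm)
  unfold f0
  rw [h]
  have e1 : (⟨J482.J k G p, Subalgebra.mem_center_iff.2 fun x =>
      ((J482.J_central (k := k) (G := G) p) x).symm⟩ : ZZ k G) = jZ p k G :=
    Subtype.ext (jZ_eq p).symm
  rw [e1]

theorem char_jZ (p : ℕ) [hp : Fact p.Prime] [CharP k p] (w : ZZ k G →ₐ[k] k) :
    w (jZ p k G) = 0 ∨ w (jZ p k G) = 1 := by
  haveI := Fintype.ofFinite G
  obtain ⟨D⟩ := J482.exists_splitData k (MonoidAlgebra k G)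
  have h := char_j D (J482.J_central (k := k) (G := G) p)
    (fun x hx => J482.J_mul_rad p x ((D.ker_rad x).1 hx))
    (fun i => ⟨fun hP => J482.om_J_eq_one D p i hP, fun h1 => by
      rcases J482.om_J_cases D p i with ⟨h2, _⟩ | ⟨_, h2⟩
      · exact h2
      · rw [h1] at h2; exact absurd h2 one_ne_zero⟩) w
  have e1 : (⟨J482.J k G p, Subalgebra.mem_center_iff.2 fun x =>
      ((J482.J_central (k := k) (G := G) p) x).symm⟩ : ZZ k G) = jZ p k G :=
    Subtype.ext (jZ_eq p).symm
  rw [e1] at h
  exact h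

theorem char_idem (w : ZZ k G →ₐ[k] k) (e : ZZ k G) (he : e * e = e) : w e = 0 ∨ w e = 1 := by
  have h := congrArg w he
  rw [map_mul] at h
  rcases eq_or_ne (w e) 0 with h0 | h0
  · exact Or.inl h0
  · exact Or.inr (mul_left_cancel₀ h0 (by rw [h, mul_one]))


end one

section pi
variable {k : Type} [Field k] [IsAlgClosed k] {ι : Type} [Fintype ι] {M : ι → Type}
  [∀ i, Group (M i)] [∀ i, Finite (M i)]

theorem prod_eq_one_iff {ι : Type} [Fintype ι] {k : Type} [Field k] (f : ι → k)
    (hf : ∀ i, f i = 0 ∨ f i = 1) : ∏ i, f i = 1 ↔ ∀ i, f i = 1 := by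
  constructor
  · intro h i
    rcases hf i with h0 | h1
    · rw [Finset.prod_eq_zero (Finset.mem_univ i) h0] at h
      exact absurd h.symm one_ne_zero
    · exact h1
  · intro h
    exact Finset.prod_eq_one fun i _ => h i

omit [∀ i, Finite (M i)] in
theorem isPElt_pi {p : ℕ} (g : ∀ i, M i) : IsPElt p g ↔ ∀ i, IsPElt p (g i) := by
  constructor
  · rintro ⟨n, hn⟩ i
    exact ⟨n, by have := congrFun hn i; simpa using this⟩
  · intro h
    choose n hn using h
    refine ⟨∑ i, n i, ?_⟩
    funext i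
    rw [Pi.pow_apply, Pi.one_apply]
    have h1 : n i ≤ ∑ i, n i := Finset.single_le_sum (fun _ _ => Nat.zero_le _) (Finset.mem_univ i)
    obtain ⟨m, hm⟩ := Nat.exists_eq_add_of_le h1
    rw [hm, pow_add, pow_mul, hn, one_pow]

theorem jZ_pi (p : ℕ) : jZ p k (∀ i, M i) = tensZ fun i => jZ p k (M i) := by
  classical
  apply Subtype.ext
  apply MonoidAlgebra.coeff_injective
  ext g
  rw [jZ_coeff, tensZ_coeff]
  simp only [jZ_coeff, isPElt_pi]
  by_cases h : ∀ i, IsPElt p (g i)
  · rw [if_pos h]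
    exact (Finset.prod_eq_one fun i _ => if_pos (h i)).symm
  · rw [if_neg h]
    push Not at h
    obtain ⟨i, hi⟩ := h
    exact (Finset.prod_eq_zero (Finset.mem_univ i) (if_neg hi)).symm

/-- **`f0` of a product.** -/
theorem f0_pi (p : ℕ) [hp : Fact p.Prime] [CharP k p] (e : ∀ i, MonoidAlgebra k (M i))
    (he : ∀ i, CI (e i)) (E : MonoidAlgebra k (∀ i, M i))
    (hE : ∀ g, E.coeff g = ∏ i, (e i).coeff (g i)) : f0 E = ∏ i, f0 (e i) := by
  classical
  let eZ' : ∀ i, ZZ k (M i) := fun i => ⟨e i, ci_mem_center (he i)⟩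
  have hEE : E = (tensZ eZ').1 := by
    apply MonoidAlgebra.coeff_injective
    ext g
    rw [hE, tensZ_coeff]
  have h1 : ∀ i, f0 (e i) =
      Nat.card {w : ZZ k (M i) →ₐ[k] k // w (eZ' i) = 1 ∧ w (jZ p k (M i)) = 1} := fun i =>
    f0_eq_card_chars p (eZ' i)
  rw [hEE, f0_eq_card_chars p]
  simp only [h1]
  rw [← Nat.card_pi]
  refine Nat.card_congr ?_
  refine (Equiv.subtypeEquiv charEquiv (q := fun w : (∀ i, ZZ k (M i) →ₐ[k] k) =>
    ∀ i, w i (eZ' i) = 1 ∧ w i (jZ p k (M i)) = 1) ?_).trans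
    (Equiv.subtypePiEquivPi (p := fun i (w : ZZ k (M i) →ₐ[k] k) =>
      w (eZ' i) = 1 ∧ w (jZ p k (M i)) = 1))
  intro w
  rw [jZ_pi, charEquiv_tensZ, charEquiv_tensZ, prod_eq_one_iff, prod_eq_one_iff, forall_and]
  · intro i
    exact char_jZ p _
  · intro i
    exact char_idem _ _ (Subtype.ext (he i).2)

end pi

end Crest.Agent.R170.SCC538
end

-- ▼ part R170/P_714
section

/-!
# Row 170, leaf P (helper714): `d(G, e) ≡ 0 mod p` for all `(G, e)`

`SP_of` : `SP p k` from `STP`, `SM`, `SQd`, `SOrb`, `SBrCI` and the transport facts `SEqv`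
(conjugate chains) and `SEmp` (empty chain).
-/

set_option autoImplicit false

namespace Crest.Agent.R170

open MonoidAlgebra Crest.AlgebraR.Weights Crest.AlgebraR.Blocks

namespace P714

instance finiteCh (p : ℕ) (G : Type) [Group G] [Finite G] : Finite (Ch p G) := by
  unfold Ch
  infer_instance

/-- the empty chain -/
def emp (p : ℕ) (G : Type) [Group G] : Ch p G := ⟨∅, by simp, by simp⟩

section
variable {p : ℕ} {G : Type} [Group G]

@[simp] theorem st_emp : st (emp p G) = ⊤ := by
  simp [st, emp]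

@[simp] theorem top_emp : top (emp p G) = ⊥ := by
  simp [top, emp]

@[simp] theorem sgn_emp : sgn (emp p G) = 1 := by
  simp [sgn, emp]

theorem card_st_emp : Nat.card (st (emp p G)) = Nat.card G := by
  rw [st_emp, Subgroup.card_top]

theorem st_le {σ : Ch p G} {Q : Subgroup G} (hQ : Q ∈ σ.1) :
    st σ ≤ Subgroup.normalizer (Q : Set G) :=
  iInf₂_le Q hQ

theorem top_le {σ : Ch p G} {Q : Subgroup G} (hQ : Q ∈ σ.1) : Q ≤ top σ :=
  le_iSup₂_of_le Q hQ le_rfl

/-- the members of a nonempty chain have a largest element -/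
theorem exists_top {σ : Ch p G} (h : σ ≠ emp p G) : ∃ Q ∈ σ.1, top σ = Q := by
  have hne : σ.1.Nonempty := by
    rw [Finset.nonempty_iff_ne_empty]
    intro h0
    exact h (Subtype.ext h0)
  have hdir : DirectedOn (· ≤ ·) (σ.1 : Set (Subgroup G)) := σ.2.2.directedOn
  obtain ⟨Q, hQ⟩ := Set.Finite.exists_maximal (s := (σ.1 : Set (Subgroup G)))
    σ.1.finite_toSet hne
  refine ⟨Q, hQ.1, le_antisymm (iSup₂_le fun R hR => ?_) (top_le hQ.1)⟩
  rcases σ.2.2.total hR hQ.1 with h1 | h1
  · exact h1
  · exact hQ.2 hR h1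

theorem top_isPGroup (σ : Ch p G) : IsPGroup p (top σ) := by
  by_cases h : σ = emp p G
  · subst h
    rw [top_emp]
    exact IsPGroup.of_bot
  · obtain ⟨Q, hQ, e⟩ := exists_top h
    rw [e]
    exact (σ.2.1 Q hQ).1

theorem centralizer_top_le (σ : Ch p G) :
    Subgroup.centralizer (top σ : Set G) ≤ st σ := by
  refine le_iInf₂ fun Q hQ => ?_
  exact (Subgroup.centralizer_le (top_le hQ)).trans (Subgroup.centralizer_le_normalizer _)

theorem st_le_normalizer_top (σ : Ch p G) :
    st σ ≤ Subgroup.normalizer (top σ : Set G) := by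
  by_cases h : σ = emp p G
  · subst h
    rw [top_emp]
    intro g _
    rw [Subgroup.mem_normalizer_iff]
    intro x
    simp [Subgroup.mem_bot]
  · obtain ⟨Q, hQ, e⟩ := exists_top h
    rw [e]
    exact st_le hQ

/-- a nonempty chain has a proper stabiliser, if there is no nontrivial normal `p`-subgroup -/
theorem card_st_lt [Finite G] {σ : Ch p G} (h : σ ≠ emp p G)
    (hO : ¬ ∃ N : Subgroup G, N.Normal ∧ IsPGroup p N ∧ N ≠ ⊥) :
    Nat.card (st σ) < Nat.card G := by
  obtain ⟨Q, hQ, -⟩ := exists_top h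
  have h1 : Subgroup.normalizer (Q : Set G) ≠ ⊤ := by
    intro ht
    exact hO ⟨Q, Subgroup.normalizer_eq_top_iff.1 ht, (σ.2.1 Q hQ).1, (σ.2.1 Q hQ).2⟩
  have h2 : st σ ≠ ⊤ := fun ht => h1 (top_unique (ht ▸ st_le hQ))
  exact lt_of_le_of_ne (Subgroup.card_le_card_group _) fun hc =>
    h2 (Subgroup.eq_top_of_card_eq _ hc)

end

section
variable {k : Type} [Field k] {G : Type} [Group G]

/-- the image of a central idempotent under a surjective homomorphism is a central idempotent -/
theorem CI_mapDomain {H : Type} [Group H] (f : G →* H) (hf : Function.Surjective f)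
    {e : MonoidAlgebra k G} (he : CI e) : CI (MonoidAlgebra.mapDomain f e) := by
  have hF : ∀ x : MonoidAlgebra k G, MonoidAlgebra.mapDomain f x =
      MonoidAlgebra.mapDomainRingHom k f x := fun x => rfl
  have hsur : Function.Surjective (MonoidAlgebra.mapDomainRingHom k f) := by
    intro y
    induction y using MonoidAlgebra.induction_on with
    | of h =>
      obtain ⟨g, rfl⟩ := hf h
      exact ⟨MonoidAlgebra.of k G g, by simp⟩
    | add a b ha hb =>
      obtain ⟨a', rfl⟩ := ha
      obtain ⟨b', rfl⟩ := hb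
      exact ⟨a' + b', map_add _ _ _⟩
    | smul r a ha =>
      obtain ⟨a', rfl⟩ := ha
      refine ⟨r • a', ?_⟩
      rw [← hF, ← hF, MonoidAlgebra.mapDomain_smul]
  rw [hF]
  refine ⟨fun y => ?_, ?_⟩
  · obtain ⟨x, rfl⟩ := hsur y
    rw [← map_mul, he.1, map_mul]
  · rw [← map_mul, he.2]

end

/-- transport along conjugate chains -/
def SEqv (p : ℕ) (k : Type) [Field k] : Prop :=
  ∀ (G : Type) [Group G] [Finite G] (e : MonoidAlgebra k G), CI e →
    ∀ σ τ : Ch p G, chRel σ τ → Nat.card (st σ) = Nat.card (st τ) ∧ sgn σ = sgn τ ∧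
      lc (eC σ e) = lc (eC τ e) ∧ Wt p (eC σ e) = Wt p (eC τ e)

/-- the empty chain -/
def SEmp (p : ℕ) (k : Type) [Field k] : Prop :=
  ∀ (G : Type) [Group G] [Finite G] (e : MonoidAlgebra k G), CI e →
    lc (eC (emp p G) e) = lc e ∧ Wt p (eC (emp p G) e) = Wt p e

theorem chRel_emp {p : ℕ} {G : Type} [Group G] {σ τ : Ch p G} (h : chRel σ τ) :
    σ = emp p G ↔ τ = emp p G := by
  obtain ⟨g, hg⟩ := h
  have key : (σ.1 : Set (Subgroup G)) = ∅ ↔ (τ.1 : Set (Subgroup G)) = ∅ := by
    rw [← hg, Set.image_eq_empty]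
  constructor
  · intro e
    apply Subtype.ext
    have : (τ.1 : Set (Subgroup G)) = ∅ := key.1 (by rw [e]; simp [emp])
    simpa [emp] using this
  · intro e
    apply Subtype.ext
    have : (σ.1 : Set (Subgroup G)) = ∅ := key.2 (by rw [e]; simp [emp])
    simpa [emp] using this

variable (p : ℕ) [Fact p.Prime] (k : Type) [Field k] [IsAlgClosed k] [CharP k p]

/-- **LEAF P** -/
theorem SP_of (hTP : STP p k) (hM : SM p k) (hQ : SQd p k) (hO : SOrb p) (hB : SBrCI p k)
    (hE : SEqv p k) (h0 : SEmp p k) : SP p k := by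
  intro hWC
  have hp : p.Prime := Fact.out
  have hp0 : (p : ℤ) ≠ 0 := by exact_mod_cast hp.ne_zero
  -- strong induction on the order
  suffices H : ∀ n : ℕ, ∀ (G : Type) [Group G] [Finite G] (e : MonoidAlgebra k G), CI e →
      Nat.card G = n → ∃ m : ℤ, dG p e = (Nat.card G : ℤ) * (p * m) from
    fun G _ _ e he => H _ G e he rfl
  intro n
  induction n using Nat.strong_induction_on with
  | _ n IH =>
  intro G _ _ e he hn
  by_cases hN : ∃ N : Subgroup G, N.Normal ∧ IsPGroup p N ∧ N ≠ ⊥
  · obtain ⟨N, hNn, hNp, hN1⟩ := hN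
    have hlt : Nat.card (G ⧸ N) < n := by
      have h1 := Subgroup.card_eq_card_quotient_mul_card_subgroup N
      have h2 : 1 < Nat.card N := by
        rw [Subgroup.one_lt_card_iff_ne_bot]
        exact hN1
      have h3 : 0 < Nat.card (G ⧸ N) := Nat.card_pos
      rw [hn] at h1
      nlinarith
    have hci : CI (MonoidAlgebra.mapDomain (QuotientGroup.mk : G → G ⧸ N) e) :=
      CI_mapDomain (QuotientGroup.mk' N) (QuotientGroup.mk'_surjective N) he
    obtain ⟨m, hm⟩ := IH _ hlt (G ⧸ N) _ hci rfl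
    refine ⟨m, ?_⟩
    rw [hQ G e N hNp he, hm]
    have h1 := Subgroup.card_eq_card_quotient_mul_card_subgroup N
    rw [h1]
    push_cast
    ring
  · -- values on the nonempty chains
    have hci : ∀ σ : Ch p G, CI (eC σ e) := fun σ =>
      hB G e (st σ) (top σ) (top_isPGroup σ) (centralizer_top_le σ) (st_le_normalizer_top σ) he
    have hval : ∀ σ : Ch p G, σ ≠ emp p G →
        ∃ m : ℤ, dG p (eC σ e) = (Nat.card (st σ) : ℤ) * (p * m) := fun σ hσ =>
      IH _ (hn ▸ card_st_lt hσ hN) (st σ) _ (hci σ) rfl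
    classical
    choose! m hm using hval
    -- the invariant quotient
    set f : Ch p G → ℤ := fun σ =>
      if σ = emp p G then 0 else dG p (eC σ e) / ((Nat.card (st σ) : ℤ) * p) with hf
    have hfm : ∀ σ, σ ≠ emp p G →
        (Nat.card (st σ) : ℤ) * (p * f σ) = dG p (eC σ e) := by
      intro σ hσ
      have h1 : (Nat.card (st σ) : ℤ) * p ∣ dG p (eC σ e) := ⟨m σ, by rw [hm σ hσ]; ring⟩
      simp only [hf, if_neg hσ]
      rw [← mul_assoc]
      exact Int.mul_ediv_cancel' h1
    have hfinv : ∀ σ τ, chRel σ τ → f σ = f τ := by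
      intro σ τ h
      obtain ⟨h1, -, h3, h4⟩ := hE G e he σ τ h
      have h5 : dG p (eC σ e) = dG p (eC τ e) := by
        unfold dG
        rw [h1, h3, h4]
      simp only [hf]
      by_cases hσ : σ = emp p G
      · rw [if_pos hσ, if_pos ((chRel_emp h).1 hσ)]
      · rw [if_neg hσ, if_neg fun e => hσ ((chRel_emp h).2 e), h5, h1]
    have hS1 := hO G f hfinv
    have hS2 := hO G (fun σ => (lc (eC σ e) : ℤ)) fun σ τ h => by
      obtain ⟨-, -, h3, -⟩ := hE G e he σ τ h
      simp only [h3]
    have hS3 := hM G e he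
    obtain ⟨m1, hm1⟩ := hTP hWC G e he
    -- all sums are finite
    have : Fintype (Ch p G) := Fintype.ofFinite _
    rw [finsum_eq_sum_of_fintype] at hS1 hS2 hS3
    have hA : ∑ σ : Ch p G, sgn σ * dG p (eC σ e) =
        (Nat.card G : ℤ) * altSum (fun σ : Ch p G => (lc (eC σ e) : ℤ)) -
          (Nat.card G : ℤ) * f0 e := by
      rw [← hS2, ← hS3, ← Finset.sum_sub_distrib]
      refine Finset.sum_congr rfl fun σ _ => ?_
      unfold dG
      ring
    have hB' : ∑ σ : Ch p G, sgn σ * dG p (eC σ e) =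
        dG p e + p * ∑ σ : Ch p G, sgn σ * ((Nat.card (st σ) : ℤ) * f σ) := by
      rw [Finset.mul_sum, ← Finset.add_sum_erase _ _ (Finset.mem_univ (emp p G)),
        ← Finset.add_sum_erase _ (fun σ => (p : ℤ) * (sgn σ * ((Nat.card (st σ) : ℤ) * f σ)))
          (Finset.mem_univ (emp p G))]
      have e1 : f (emp p G) = 0 := by simp [hf]
      have e2 : dG p (eC (emp p G) e) = dG p e := by
        obtain ⟨h1, h2⟩ := h0 G e he
        unfold dG
        rw [h1, h2, card_st_emp]
      rw [e1, e2, sgn_emp, one_mul, mul_zero, mul_zero, mul_zero, zero_add]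
      congr 1
      refine Finset.sum_congr rfl fun σ hσ => ?_
      rw [← hfm σ (Finset.mem_erase.1 hσ).1]
      ring
    refine ⟨m1 - altSum f, ?_⟩
    rw [hB', hS1] at hA
    have hm1' : altSum (fun σ : Ch p G => (lc (eC σ e) : ℤ)) = f0 e + p * m1 := by
      linarith
    rw [hm1'] at hA
    linear_combination hA

end P714

end Crest.Agent.R170
end

-- ▼ part R170/P2_714
section

/-!
# Row 170, leaf P (helper714), part 2: transport of `Wt` and the joint `SP`
-/

set_option autoImplicit false

namespace Crest.Agent.R170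

open MonoidAlgebra Crest.AlgebraR.Weights Crest.AlgebraR.Blocks

namespace P714

section iso
variable {k G H : Type} [Field k] [Group G] [Group H]

theorem mapDomain_comp' {M N O : Type} (f : M → N) (g : N → O) (x : MonoidAlgebra k M) :
    MonoidAlgebra.mapDomain g (MonoidAlgebra.mapDomain f x) = MonoidAlgebra.mapDomain (g ∘ f) x := by
  apply MonoidAlgebra.coeff_injective
  rw [MonoidAlgebra.coeff_mapDomain, MonoidAlgebra.coeff_mapDomain, MonoidAlgebra.coeff_mapDomain,
    Finsupp.mapDomain_comp]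

theorem coeff_mapDomain_inj {M N : Type} {f : M → N} (hf : Function.Injective f)
    (x : MonoidAlgebra k M) (m : M) : (MonoidAlgebra.mapDomain f x).coeff (f m) = x.coeff m := by
  rw [MonoidAlgebra.coeff_mapDomain, Finsupp.mapDomain_apply hf]

variable [Finite G] [Finite H]

theorem localImage_iso (f : G ≃* H) (e : MonoidAlgebra k G) (e' : MonoidAlgebra k H)
    (h : ∀ g, e'.coeff (f g) = e.coeff g) (Q : Subgroup G) :
    f0 (localImage (Q.map f.toMonoidHom) e') = f0 (localImage Q e) ∧
      Nat.card (Subgroup.normalizer ((Q.map f.toMonoidHom : Subgroup H) : Set H)) =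
        Nat.card (Subgroup.normalizer (Q : Set G)) := by
  have hN : (Subgroup.normalizer (Q : Set G)).map f.toMonoidHom =
      Subgroup.normalizer ((Q.map f.toMonoidHom : Subgroup H) : Set H) :=
    Subgroup.map_equiv_normalizer_eq Q f
  let φ : Subgroup.normalizer (Q : Set G) ≃*
      Subgroup.normalizer ((Q.map f.toMonoidHom : Subgroup H) : Set H) :=
    (f.subgroupMap _).trans (MulEquiv.subgroupCongr hN)
  have hφ : ∀ n, ((φ n : Subgroup.normalizer ((Q.map f.toMonoidHom : Subgroup H) : Set H)) : H) =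
      f n := fun n => rfl
  have hsub : (Q.subgroupOf (Subgroup.normalizer (Q : Set G))).map φ.toMonoidHom =
      (Q.map f.toMonoidHom).subgroupOf
        (Subgroup.normalizer ((Q.map f.toMonoidHom : Subgroup H) : Set H)) := by
    ext x
    obtain ⟨n, rfl⟩ := φ.surjective x
    rw [Subgroup.mem_subgroupOf, hφ]
    constructor
    · rintro ⟨m, hm, hmn⟩
      have : m = n := φ.injective hmn
      subst this
      exact ⟨_, hm, rfl⟩
    · rintro ⟨m, hm, hmn⟩
      have : m = (n : G) := f.injective hmn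
      subst this
      exact ⟨n, hm, rfl⟩
  let ψ : NormQuot Q ≃* NormQuot (Q.map f.toMonoidHom) := QuotientGroup.congr _ _ φ hsub
  have h1 : restrictCoeff (Subgroup.normalizer ((Q.map f.toMonoidHom : Subgroup H) : Set H)) e' =
      MonoidAlgebra.mapDomain φ (restrictCoeff (Subgroup.normalizer (Q : Set G)) e) := by
    apply MonoidAlgebra.coeff_injective
    ext x
    obtain ⟨n, rfl⟩ := φ.surjective x
    rw [coeff_mapDomain_inj φ.injective]
    exact h _
  have h2 : localImage (Q.map f.toMonoidHom) e' = MonoidAlgebra.mapDomain ψ (localImage Q e) := by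
    unfold localImage
    rw [h1, mapDomain_comp', mapDomain_comp']
    rfl
  refine ⟨SCC538.f0_congr ψ _ _ fun g => ?_, (Nat.card_congr φ.toEquiv).symm⟩
  rw [h2, coeff_mapDomain_inj ψ.injective]

/-- **`Wt` is transported along a group isomorphism** -/
theorem Wt_congr (p : ℕ) (f : G ≃* H) (e : MonoidAlgebra k G) (e' : MonoidAlgebra k H)
    (h : ∀ g, e'.coeff (f g) = e.coeff g) : Wt p e' = Wt p e := by
  unfold Wt
  symm
  have hbij : Function.Bijective (fun Q : {Q : Subgroup G // IsPGroup p Q} =>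
      (⟨Q.1.map f.toMonoidHom, Q.2.map _⟩ : {Q : Subgroup H // IsPGroup p Q})) := by
    constructor
    · intro Q R hQR
      apply Subtype.ext
      exact Subgroup.map_injective f.injective (congrArg Subtype.val hQR)
    · rintro ⟨R, hR⟩
      refine ⟨⟨R.map f.symm.toMonoidHom, hR.map _⟩, Subtype.ext ?_⟩
      ext x
      simp only [Subgroup.mem_map]
      constructor
      · rintro ⟨y, ⟨z, hz, rfl⟩, rfl⟩
        simpa using hz
      · intro hx
        exact ⟨f.symm x, ⟨x, hx, rfl⟩, by simp⟩
  refine finsum_eq_of_bijective _ hbij fun Q => ?_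
  obtain ⟨h1, h2⟩ := localImage_iso f e e' h Q.1
  rw [h1, h2]

end iso

section chain
variable {p : ℕ} {k G : Type} [Field k] [Group G]

/-- the coefficients of a central element are a class function -/
theorem coeff_conj {z : MonoidAlgebra k G} (hz : ∀ x : MonoidAlgebra k G, z * x = x * z)
    (q g : G) : z.coeff (q * g * q⁻¹) = z.coeff g := by
  have h := hz (single q 1)
  have h1 : (z * single q (1 : k)).coeff (q * g) = z.coeff (q * g * q⁻¹) * 1 :=
    MonoidAlgebra.coeff_mul_single_eq_coeff_mul _ (fun m' _ => by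
      constructor
      · intro h2; rw [← h2]; group
      · intro h2; rw [h2]; group)
  have h2 : (single q (1 : k) * z).coeff (q * g) = 1 * z.coeff g :=
    MonoidAlgebra.coeff_single_mul_eq_mul_coeff _ (fun m' _ => by
      constructor
      · intro h2; exact mul_left_cancel h2
      · intro h2; rw [h2])
  rw [h, h2, one_mul, mul_one] at h1
  exact h1.symm

theorem mem_centralizer_cj {g x : G} {T : Subgroup G} :
    g * x * g⁻¹ ∈ Subgroup.centralizer (ORB700.cj g T : Set G) ↔
      x ∈ Subgroup.centralizer (T : Set G) := by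
  rw [Subgroup.mem_centralizer_iff, Subgroup.mem_centralizer_iff]
  constructor
  · intro h t ht
    have h1 := h (g * t * g⁻¹) (ORB700.mem_cj.2 (by
      have : g⁻¹ * (g * t * g⁻¹) * g = t := by group
      rw [this]; exact ht))
    have h2 : g * (t * x) * g⁻¹ = g * (x * t) * g⁻¹ := by
      calc g * (t * x) * g⁻¹ = g * t * g⁻¹ * (g * x * g⁻¹) := by group
        _ = g * x * g⁻¹ * (g * t * g⁻¹) := h1
        _ = g * (x * t) * g⁻¹ := by group
    exact mul_left_cancel (mul_right_cancel h2)
  · intro h t ht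
    have h1 := h _ (ORB700.mem_cj.1 ht)
    calc t * (g * x * g⁻¹) = g * (g⁻¹ * t * g * x) * g⁻¹ := by group
      _ = g * (x * (g⁻¹ * t * g)) * g⁻¹ := by rw [h1]
      _ = g * x * g⁻¹ * t := by group

variable [Finite G]

/-- conjugate chains: `eC` is transported by an isomorphism of the stabilisers -/
theorem eC_smul (g : G) (σ : Ch p G) (e : MonoidAlgebra k G)
    (he : ∀ x : MonoidAlgebra k G, e * x = x * e) :
    ∃ φ : st σ ≃* st (g • σ), ∀ x, (eC (g • σ) e).coeff (φ x) = (eC σ e).coeff x := by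
  classical
  let φ : st σ ≃* st (g • σ) :=
    ((MulAut.conj g).subgroupMap (st σ)).trans (MulEquiv.subgroupCongr (ORB700.st_smul g σ).symm)
  have hφ : ∀ x, ((φ x : st (g • σ)) : G) = g * x * g⁻¹ := fun x => rfl
  refine ⟨φ, fun x => ?_⟩
  change (if ((φ x : st (g • σ)) : G) ∈ Subgroup.centralizer (top (g • σ) : Set G) then
      e.coeff ((φ x : st (g • σ)) : G) else 0) =
    if (x : G) ∈ Subgroup.centralizer (top σ : Set G) then e.coeff (x : G) else 0
  rw [hφ, coeff_conj he, ORB700.top_smul]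
  simp only [mem_centralizer_cj]

/-- the empty chain: `eC` is transported by `⊤ ≃* G` -/
theorem eC_emp (e : MonoidAlgebra k G) :
    ∃ φ : G ≃* st (emp p G), ∀ x, (eC (emp p G) e).coeff (φ x) = e.coeff x := by
  classical
  let φ : G ≃* st (emp p G) :=
    Subgroup.topEquiv.symm.trans (MulEquiv.subgroupCongr (st_emp (p := p) (G := G)).symm)
  have hφ : ∀ x, ((φ x : st (emp p G)) : G) = x := fun x => rfl
  refine ⟨φ, fun x => ?_⟩
  change (if ((φ x : st (emp p G)) : G) ∈ Subgroup.centralizer (top (emp p G) : Set G) then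
      e.coeff ((φ x : st (emp p G)) : G) else 0) = e.coeff x
  rw [hφ, top_emp, if_pos]
  rw [Subgroup.mem_centralizer_iff]
  intro t ht
  rw [Subgroup.coe_bot, Set.mem_singleton_iff] at ht
  rw [ht, one_mul, mul_one]

end chain

theorem sEqv (p : ℕ) (k : Type) [Field k] : SEqv p k := by
  intro G _ _ e he σ τ h
  refine ⟨ORB700.card_st_congr h, ORB700.sgn_congr h, ?_⟩
  obtain ⟨g, rfl⟩ := ORB700.chRel_iff.1 h
  obtain ⟨φ, hφ⟩ := eC_smul g σ e he.1
  exact ⟨(SCC538.lc_congr φ _ _ hφ).symm, (Wt_congr p φ _ _ hφ).symm⟩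

theorem sEmp (p : ℕ) (k : Type) [Field k] : SEmp p k := by
  intro G _ _ e _
  obtain ⟨φ, hφ⟩ := eC_emp (p := p) e
  exact ⟨SCC538.lc_congr φ _ _ hφ, Wt_congr p φ _ _ hφ⟩

theorem sOrb (p : ℕ) : SOrb p := fun _ _ _ f hf => (ORB700.card_mul_altSum f hf).symm

/-- **LEAF P** from the joints -/
theorem sp (p : ℕ) [Fact p.Prime] (k : Type) [Field k] [IsAlgClosed k] [CharP k p]
    (hTP : STP p k) (hM : SM p k) (hQ : SQd p k) (hB : SBrCI p k) : SP p k :=
  SP_of p k hTP hM hQ (sOrb p) hB (sEqv p k) (sEmp p k)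

end P714

end Crest.Agent.R170
end

-- ▼ part R170/QW_544
section

/-!
# Row 170, leaf QW (helper544): `W(G, e) = W(G/N, image of e)` for a normal `p`-subgroup `N`

* `exists_normal_p_normQuot`: `N` normal `p`-subgroup, `Q` a `p`-subgroup not containing `N`:
  `N_G(Q)/Q` has a nontrivial normal `p`-subgroup.
* `psi`: `N_G(π⁻¹ Q')/π⁻¹ Q' ≃* N_{G/N}(Q')/Q'`, `mapDomain_psi_localImage`.
* `Wt_quot_of`: `Wt p e = |N| * Wt p (π e)`.
-/

set_option autoImplicit false

namespace Crest.Agent.R170.QW544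

open MonoidAlgebra Crest.AlgebraR.Weights Crest.AlgebraR.Blocks Crest.Agent.R170

/-! ### coefficients of `mapDomain` -/

section coeff
variable {k : Type} [Field k] {M M' : Type}

theorem coeff_mapDomain_fin [Fintype M] [DecidableEq M'] (f : M → M') (x : MonoidAlgebra k M)
    (h : M') : (mapDomain f x).coeff h = ∑ g : M, if f g = h then x.coeff g else 0 := by
  classical
  change (Finsupp.mapDomain f x.coeff) h = _
  rw [Finsupp.mapDomain, Finsupp.sum_fintype _ _ (by simp), Finsupp.finsetSum_apply]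
  refine Finset.sum_congr rfl fun g _ => ?_
  rw [Finsupp.single_apply]

end coeff

/-! ### group theory -/

section groups
variable {G : Type} [Group G] [Finite G] {p : ℕ} [hp : Fact p.Prime]

omit [Finite G] in
theorem normalizer_le_normalizer_sup (N Q : Subgroup G) [N.Normal] :
    Subgroup.normalizer (Q : Set G) ≤ Subgroup.normalizer ((N ⊔ Q : Subgroup G) : Set G) := by
  intro x hx
  rw [Subgroup.mem_normalizer_iff_map_conj_eq] at hx ⊢
  rw [Subgroup.map_sup, hx]
  have : N.map ((MulAut.conj x) : G →* G) = N := by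
    have h := (Subgroup.normalizer_eq_top_iff (H := N)).2 inferInstance
    have hx : x ∈ Subgroup.normalizer (N : Set G) := by rw [h]; trivial
    exact Subgroup.mem_normalizer_iff_map_conj_eq.1 hx
  rw [this]

/-- a `p`-subgroup not containing the normal `p`-subgroup `N`: `N_G(Q)/Q` has a nontrivial
normal `p`-subgroup -/
theorem exists_normal_p_normQuot (N : Subgroup G) [N.Normal] (hN : IsPGroup p N)
    (Q : Subgroup G) (hQ : IsPGroup p Q) (hNQ : ¬ N ≤ Q) :
    ∃ P : Subgroup (NormQuot Q), P.Normal ∧ IsPGroup p P ∧ P ≠ ⊥ := by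
  classical
  set R : Subgroup G := N ⊔ Q with hR
  have hRp : IsPGroup p R := IsPGroup.to_sup_of_normal_left hN hQ
  have hQR : Q ≤ R := le_sup_right
  have hlt : Q.subgroupOf R < ⊤ := by
    refine lt_top_iff_ne_top.2 fun h => hNQ ?_
    rw [Subgroup.subgroupOf_eq_top] at h
    exact le_sup_left.trans h
  have : Finite R := inferInstance
  have : Group.IsNilpotent R := hRp.isNilpotent
  have hnc : NormalizerCondition R := Group.normalizerCondition_of_isNilpotent
  have h1 := hnc _ hlt
  obtain ⟨g, hg1, hg2⟩ := SetLike.exists_of_lt h1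
  rw [← Subgroup.subgroupOf_normalizer_eq hQR, Subgroup.mem_subgroupOf] at hg1
  rw [Subgroup.mem_subgroupOf] at hg2
  set NQ : Subgroup G := Subgroup.normalizer (Q : Set G) with hNQdef
  let mk : NQ →* NormQuot Q := QuotientGroup.mk' _
  have hmk : Function.Surjective mk := QuotientGroup.mk'_surjective _
  refine ⟨(R.subgroupOf NQ).map mk, ?_, ?_, ?_⟩
  · have hn : (R.subgroupOf NQ).Normal := by
      constructor
      intro n hn x
      rw [Subgroup.mem_subgroupOf] at hn ⊢
      have := normalizer_le_normalizer_sup N Q x.2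
      exact ((Subgroup.mem_normalizer_iff.1 this) _).1 hn
    exact hn.map _ hmk
  · refine IsPGroup.map ?_ _
    exact hRp.comap_of_injective NQ.subtype NQ.subtype_injective
  · intro hbot
    rw [Subgroup.map_eq_bot_iff, QuotientGroup.ker_mk'] at hbot
    have : (⟨(g : G), hg1⟩ : NQ) ∈ R.subgroupOf NQ := by
      rw [Subgroup.mem_subgroupOf]
      exact g.2
    have h3 := hbot this
    rw [Subgroup.mem_subgroupOf] at h3
    exact hg2 h3

end groups

section quot
variable {G : Type} [Group G] (N : Subgroup G) [N.Normal] (Q' : Subgroup (G ⧸ N))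

local notation "π" => (QuotientGroup.mk' N)

theorem normalizer_comap : Subgroup.normalizer ((Q'.comap π : Subgroup G) : Set G) =
    (Subgroup.normalizer (Q' : Set (G ⧸ N))).comap π :=
  (Subgroup.comap_normalizer_eq_of_surjective Q' (QuotientGroup.mk'_surjective N)).symm

/-- the restriction of `π` to the normalisers -/
def phi : Subgroup.normalizer ((Q'.comap π : Subgroup G) : Set G) →*
    Subgroup.normalizer (Q' : Set (G ⧸ N)) where
  toFun x := ⟨π x.1, (SetLike.ext_iff.1 (normalizer_comap N Q') x.1).1 x.2⟩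
  map_one' := Subtype.ext (map_one π)
  map_mul' x y := Subtype.ext (map_mul π x.1 y.1)

theorem phi_coe (x) : ((phi N Q' x : Subgroup.normalizer (Q' : Set (G ⧸ N))) : G ⧸ N) = π x.1 := rfl

theorem phi_surjective : Function.Surjective (phi N Q') := by
  intro y
  obtain ⟨x, hx⟩ := QuotientGroup.mk'_surjective N y.1
  refine ⟨⟨x, ?_⟩, ?_⟩
  · rw [normalizer_comap, Subgroup.mem_comap, hx]
    exact y.2
  · ext
    exact hx

/-- normaliser of the preimage to `N(Q')/Q'` -/
def theta : Subgroup.normalizer ((Q'.comap π : Subgroup G) : Set G) →* NormQuot Q' :=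
  (QuotientGroup.mk' _).comp (phi N Q')

theorem theta_surjective : Function.Surjective (theta N Q') :=
  (QuotientGroup.mk'_surjective _).comp (phi_surjective N Q')

theorem ker_theta : (theta N Q').ker =
    (Q'.comap π).subgroupOf (Subgroup.normalizer ((Q'.comap π : Subgroup G) : Set G)) := by
  ext x
  rw [theta, MonoidHom.mem_ker, MonoidHom.comp_apply, ← MonoidHom.mem_ker, QuotientGroup.ker_mk',
    Subgroup.mem_subgroupOf, Subgroup.mem_subgroupOf, phi_coe, Subgroup.mem_comap]

/-- `N_G(π⁻¹ Q')/π⁻¹ Q' ≃* N_{G/N}(Q')/Q'` -/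
noncomputable def psi : NormQuot (Q'.comap π) ≃* NormQuot Q' :=
  (QuotientGroup.quotientMulEquivOfEq (ker_theta N Q').symm).trans
    (QuotientGroup.quotientKerEquivOfSurjective (theta N Q') (theta_surjective N Q'))


theorem card_normalizer_comap [Finite G] :
    Nat.card (Subgroup.normalizer ((Q'.comap π : Subgroup G) : Set G)) =
      Nat.card N * Nat.card (Subgroup.normalizer (Q' : Set (G ⧸ N))) := by
  rw [normalizer_comap]
  exact QuotientGroup.card_preimage_mk N (Subgroup.normalizer (Q' : Set (G ⧸ N)) : Set (G ⧸ N))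

end quot

section local_image
variable {k G : Type} [Field k] [Group G] [Finite G] (N : Subgroup G) [N.Normal]
  (Q' : Subgroup (G ⧸ N))

theorem restrictCoeff_quot (e : MonoidAlgebra k G) :
    mapDomain (phi N Q') (restrictCoeff (Subgroup.normalizer ((Q'.comap (QuotientGroup.mk' N) :
      Subgroup G) : Set G)) e) =
    restrictCoeff (Subgroup.normalizer (Q' : Set (G ⧸ N))) (mapDomain (QuotientGroup.mk' N) e) := by
  classical
  have := Fintype.ofFinite G
  ext h
  rw [coeff_mapDomain_fin]
  change _ = (mapDomain (QuotientGroup.mk' N) e).coeff (h : G ⧸ N)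
  rw [coeff_mapDomain_fin]
  refine Fintype.sum_of_injective
    (Subtype.val : Subgroup.normalizer ((Q'.comap (QuotientGroup.mk' N) : Subgroup G) : Set G) → G)
    Subtype.val_injective _ _ ?_ ?_
  · intro g hg
    rw [if_neg]
    intro hgh
    apply hg
    refine ⟨⟨g, ?_⟩, rfl⟩
    rw [normalizer_comap, Subgroup.mem_comap, hgh]
    exact h.2
  · intro x
    have hiff : phi N Q' x = h ↔ (QuotientGroup.mk' N) (x : G) = (h : G ⧸ N) := by
      rw [Subtype.ext_iff, phi_coe]
    simp only [hiff]
    rfl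

theorem mapDomain_psi_localImage (e : MonoidAlgebra k G) :
    mapDomain (psi N Q') (localImage (Q'.comap (QuotientGroup.mk' N)) e) =
      localImage Q' (mapDomain (QuotientGroup.mk' N) e) := by
  unfold localImage
  rw [← restrictCoeff_quot]
  ext h
  simp only [coeff_mapDomain, ← Finsupp.mapDomain_comp]
  rfl

end local_image

/-! ### transport along a ring isomorphism -/

section transport
variable {A B : Type} [Ring A] [Ring B] (φ : A ≃+* B)

/-- image of a left ideal under a ring isomorphism -/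
def mp (m : Submodule A A) : Submodule B B where
  carrier := {b | φ.symm b ∈ m}
  add_mem' := by
    intro a b ha hb
    simp only [Set.mem_ofPred_eq, map_add] at *
    exact m.add_mem ha hb
  zero_mem' := by simp
  smul_mem' := by
    intro c b hb
    simp only [Set.mem_ofPred_eq, smul_eq_mul, map_mul] at *
    exact m.smul_mem _ hb

theorem mem_mp (m : Submodule A A) (b : B) : b ∈ mp φ m ↔ φ.symm b ∈ m := Iff.rfl

/-- left ideals of isomorphic rings -/
def mpIso : Submodule A A ≃o Submodule B B where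
  toFun := mp φ
  invFun := mp φ.symm
  left_inv m := by ext x; simp [mem_mp]
  right_inv m := by
    ext x
    change φ.symm.symm (φ.symm x) ∈ m ↔ x ∈ m
    rw [RingEquiv.symm_symm, RingEquiv.apply_symm_apply]
  map_rel_iff' := by
    intro m m'
    constructor
    · intro h x hx
      have := h (show φ x ∈ mp φ m by simpa [mem_mp] using hx)
      simpa [mem_mp] using this
    · intro h x hx
      exact h hx

theorem mp_symm_mp (m : Submodule A A) : mp φ.symm (mp φ m) = m := (mpIso φ).left_inv m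

/-- quotients of isomorphic rings by corresponding left ideals, additively -/
def quotAdd (m : Submodule A A) : (A ⧸ m) ≃+ (B ⧸ mp φ m) :=
  QuotientAddGroup.congr m.toAddSubgroup (mp φ m).toAddSubgroup φ.toAddEquiv (by
    ext b
    simp only [AddSubgroup.mem_map, Submodule.mem_toAddSubgroup, mem_mp]
    constructor
    · rintro ⟨a, ha, rfl⟩
      simpa using ha
    · intro h
      exact ⟨φ.symm b, h, by simp⟩)

theorem quotAdd_mk (m : Submodule A A) (a : A) :
    quotAdd φ m (Submodule.Quotient.mk a) = Submodule.Quotient.mk (φ a) := rfl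

theorem quotAdd_smul (m : Submodule A A) (a : A) (x : A ⧸ m) :
    quotAdd φ m (a • x) = φ a • quotAdd φ m x := by
  obtain ⟨x, rfl⟩ := Submodule.Quotient.mk_surjective _ x
  rw [← Submodule.Quotient.mk_smul, quotAdd_mk, quotAdd_mk, ← Submodule.Quotient.mk_smul,
    smul_eq_mul, smul_eq_mul, map_mul]

theorem nonempty_quot_iff_aux (m m' : Submodule A A) (h : Nonempty ((A ⧸ m) ≃ₗ[A] (A ⧸ m'))) :
    Nonempty ((B ⧸ mp φ m) ≃ₗ[B] (B ⧸ mp φ m')) := by
  obtain ⟨f⟩ := h
  refine ⟨{ ((quotAdd φ m).symm.trans (f.toAddEquiv.trans (quotAdd φ m'))) with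
    map_smul' := ?_ }⟩
  intro b x
  obtain ⟨a, rfl⟩ := φ.surjective b
  obtain ⟨y, rfl⟩ := (quotAdd φ m).surjective x
  simp only [AddEquiv.toEquiv_eq_coe, Equiv.toFun_as_coe, EquivLike.coe_coe, AddEquiv.trans_apply,
    RingHom.id_apply]
  rw [← quotAdd_smul]
  simp only [AddEquiv.symm_apply_apply]
  change quotAdd φ m' (f (a • y)) = φ a • quotAdd φ m' (f y)
  rw [map_smul, quotAdd_smul]

theorem nonempty_quot_iff (m m' : Submodule A A) :
    Nonempty ((A ⧸ m) ≃ₗ[A] (A ⧸ m')) ↔ Nonempty ((B ⧸ mp φ m) ≃ₗ[B] (B ⧸ mp φ m')) := by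
  refine ⟨nonempty_quot_iff_aux φ m m', fun h => ?_⟩
  have := nonempty_quot_iff_aux φ.symm _ _ h
  rwa [mp_symm_mp, mp_symm_mp] at this

/-- `simpleClassCount` is invariant under ring isomorphisms -/
theorem simpleClassCount_congr (P : Submodule A A → Prop) (P' : Submodule B B → Prop)
    (h : ∀ m, P m ↔ P' (mp φ m)) : simpleClassCount A P = simpleClassCount B P' := by
  unfold simpleClassCount
  apply Nat.card_congr
  let E : {m : Submodule A A // IsCoatom m ∧ P m} ≃ {m : Submodule B B // IsCoatom m ∧ P' m} :=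
    (mpIso φ).toEquiv.subtypeEquiv (by
      intro m
      have h1 : IsCoatom m ↔ IsCoatom (mpIso φ m) := (OrderIso.isCoatom_iff (mpIso φ) m).symm
      rw [h m, h1]
      rfl)
  refine Quotient.congr E ?_
  intro a b
  exact nonempty_quot_iff φ a.1 b.1

theorem projective_iff_aux (m : Submodule A A) (h : Module.Projective A (A ⧸ m)) :
    Module.Projective B (B ⧸ mp φ m) := by
  have : RingHomInvPair (φ : A →+* B) (φ.symm : B →+* A) := RingHomInvPair.of_ringEquiv φ
  have : RingHomInvPair (φ.symm : B →+* A) (φ : A →+* B) := RingHomInvPair.of_ringEquiv φ.symm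
  let e₂ : (A ⧸ m) ≃ₛₗ[(φ : A →+* B)] (B ⧸ mp φ m) :=
    { quotAdd φ m with
      map_smul' := fun a x => quotAdd_smul φ m a x }
  exact Module.Projective.of_equiv e₂

theorem projective_iff (m : Submodule A A) :
    Module.Projective A (A ⧸ m) ↔ Module.Projective B (B ⧸ mp φ m) := by
  refine ⟨projective_iff_aux φ m, fun h => ?_⟩
  have := projective_iff_aux φ.symm _ h
  rwa [mp_symm_mp] at this

end transport

section f0
variable {k G H : Type} [Field k] [Group G] [Group H]

theorem one_sub_mem_mp (ψ : G ≃* H) (x : MonoidAlgebra k G)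
    (m : Submodule (MonoidAlgebra k G) (MonoidAlgebra k G)) :
    1 - x ∈ m ↔ 1 - mapDomain ψ x ∈ mp (mapDomainRingEquiv k ψ) m := by
  have h : mapDomainRingEquiv k ψ (1 - x) = 1 - mapDomain ψ x := by
    rw [map_sub, map_one]
    rfl
  rw [← h, mem_mp, RingEquiv.symm_apply_apply]

theorem f0_congr (ψ : G ≃* H) (x : MonoidAlgebra k G) : f0 (mapDomain ψ x) = f0 x := by
  unfold f0
  symm
  apply simpleClassCount_congr (mapDomainRingEquiv k ψ)
  intro m
  rw [← projective_iff (mapDomainRingEquiv k ψ) m, one_sub_mem_mp ψ x m]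


end f0

/-! ### the main statement -/

section main
variable {k G : Type} [Field k] [Group G] [Finite G] {p : ℕ} [hp : Fact p.Prime]

omit [Finite G] hp in
theorem isPGroup_comap {N : Subgroup G} [N.Normal] (hN : IsPGroup p N) (Q' : Subgroup (G ⧸ N))
    (hQ' : IsPGroup p Q') : IsPGroup p (Q'.comap (QuotientGroup.mk' N) : Subgroup G) := by
  apply hQ'.comap_of_ker_isPGroup
  rwa [QuotientGroup.ker_mk']

theorem f0_local_quot (N : Subgroup G) [N.Normal] (Q' : Subgroup (G ⧸ N))
    (e : MonoidAlgebra k G) :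
    f0 (localImage (Q'.comap (QuotientGroup.mk' N)) e) =
      f0 (localImage Q' (mapDomain (QuotientGroup.mk' N) e)) := by
  rw [← mapDomain_psi_localImage, f0_congr]

/-- `W(G, e) = W(G/N, image of e)`, with vanishing of `f0` for groups with a nontrivial normal
`p`-subgroup (J2) as a hypothesis. -/
theorem Wt_quot_of (N : Subgroup G) [N.Normal] (hN : IsPGroup p N) (e : MonoidAlgebra k G)
    (hJ2 : ∀ Q : Subgroup G, IsPGroup p Q → ∀ P : Subgroup (NormQuot Q), P.Normal →
      IsPGroup p P → P ≠ ⊥ → f0 (localImage Q e) = 0) :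
    Wt p e = Nat.card N * Wt p (mapDomain (QuotientGroup.mk' N) e) := by
  classical
  have := Fintype.ofFinite {Q : Subgroup G // IsPGroup p Q}
  have := Fintype.ofFinite {Q : Subgroup (G ⧸ N) // IsPGroup p Q}
  unfold Wt
  rw [finsum_eq_sum_of_fintype, finsum_eq_sum_of_fintype, Finset.mul_sum]
  symm
  refine Fintype.sum_of_injective
    (fun Q' : {Q : Subgroup (G ⧸ N) // IsPGroup p Q} =>
      (⟨Q'.1.comap (QuotientGroup.mk' N), isPGroup_comap hN Q'.1 Q'.2⟩ :
        {Q : Subgroup G // IsPGroup p Q})) ?_ _ _ ?_ ?_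
  · intro a b hab
    have h := congrArg Subtype.val hab
    exact Subtype.ext (Subgroup.comap_injective (QuotientGroup.mk'_surjective N) h)
  · intro Q hQ
    have hNQ : ¬ N ≤ Q.1 := by
      intro h
      apply hQ
      refine ⟨⟨Q.1.map (QuotientGroup.mk' N), Q.2.map _⟩, ?_⟩
      apply Subtype.ext
      change (Q.1.map (QuotientGroup.mk' N)).comap (QuotientGroup.mk' N) = Q.1
      rw [Subgroup.comap_map_eq, QuotientGroup.ker_mk']
      exact sup_eq_left.2 h
    obtain ⟨P, h1, h2, h3⟩ := exists_normal_p_normQuot N hN Q.1 Q.2 hNQ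
    rw [hJ2 Q.1 Q.2 P h1 h2 h3, mul_zero]
  · intro Q'
    change Nat.card N * (Nat.card (Subgroup.normalizer (Q'.1 : Set (G ⧸ N))) * _) =
      Nat.card (Subgroup.normalizer ((Q'.1.comap (QuotientGroup.mk' N) : Subgroup G) : Set G)) * _
    rw [card_normalizer_comap, f0_local_quot, mul_assoc]

end main

/-! ### `f0 = 0` in the presence of a nontrivial normal `p`-subgroup -/

section J2
variable {k G : Type} [Field k] [Group G] [Finite G] {p : ℕ} [hp : Fact p.Prime] [CharP k p]

/-- a left `N`-invariant element squares to zero, `N` a nontrivial normal `p`-subgroup -/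
theorem sq_zero (N : Subgroup G) [hN : N.Normal] (hNp : IsPGroup p N) (hne : N ≠ ⊥)
    (f : MonoidAlgebra k G) (hf : ∀ n ∈ N, single n (1 : k) * f = f) : f * f = 0 := by
  classical
  have := Fintype.ofFinite G
  have hinv : ∀ n ∈ N, ∀ g : G, f.coeff (n * g) = f.coeff g := by
    intro n hn g
    have h := hf n⁻¹ (N.inv_mem hn)
    have h2 : (single n⁻¹ (1 : k) * f).coeff g = f.coeff (n * g) := by
      rw [MonoidAlgebra.coeff_single_mul_eq_mul_coeff (n * g) (by
      intro m' _
      rw [inv_mul_eq_iff_eq_mul]), one_mul]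
    rw [← h2, h]
  -- an element of order `p` in `N`
  obtain ⟨x, hxN, hxo⟩ : ∃ x ∈ N, orderOf x = p := by
    have hnt : Nontrivial N := (Subgroup.nontrivial_iff_ne_bot N).2 hne
    have hdvd : p ∣ Nat.card N := by
      rcases hNp.card_eq_or_dvd with h | h
      · exact absurd h (by rw [Nat.card_eq_one_iff_unique]; rintro ⟨h1, _⟩; exact not_subsingleton N h1)
      · exact h
    obtain ⟨x, hx⟩ := exists_prime_orderOf_dvd_card' p hdvd
    exact ⟨x.1, x.2, by rw [Subgroup.orderOf_coe]; exact hx⟩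
  ext g
  rw [J482.coeff_mul_fin]
  let F : Function.End G := fun h => x * h
  have hFpow : ∀ n : ℕ, ∀ h : G, (F ^ n) h = x ^ n * h := by
    intro n
    induction n with
    | zero => intro h; simp; rfl
    | succ n ih =>
      intro h
      rw [pow_succ', pow_succ']
      change x * ((F ^ n) h) = _
      rw [ih, mul_assoc]
  have hF1 : F ^ p ^ 1 = 1 := by
    funext h
    rw [hFpow, pow_one, ← hxo, pow_orderOf_eq_one, one_mul]
    rfl
  have key := J482.sum_fixed (R := k) p 1 F hF1 (fun h => f.coeff h * f.coeff (h⁻¹ * g)) (by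
    intro h
    change f.coeff (x * h) * f.coeff ((x * h)⁻¹ * g) = _
    rw [hinv x hxN]
    have h3 : (x * h)⁻¹ * g = (h⁻¹ * x⁻¹ * h) * (h⁻¹ * g) := by group
    have h4 : h⁻¹ * x⁻¹ * h ∈ N := by
      have := hN.conj_mem x⁻¹ (N.inv_mem hxN) h⁻¹
      simpa using this
    rw [h3, hinv _ h4])
  have hempty : (Finset.univ.filter fun a : G => F a = a) = ∅ := by
    apply Finset.filter_eq_empty_iff.2
    intro a _ ha
    change x * a = a at ha
    rw [mul_eq_right] at ha
    rw [ha, orderOf_one] at hxo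
    exact hp.out.one_lt.ne hxo
  rw [hempty, Finset.sum_empty] at key
  exact key

/-- (J2) in the strong form: no hypothesis on `e` -/
theorem f0_eq_zero (N : Subgroup G) [hN : N.Normal] (hNp : IsPGroup p N) (hne : N ≠ ⊥)
    (e : MonoidAlgebra k G) : f0 e = 0 := by
  unfold f0 simpleClassCount
  rw [Nat.card_eq_zero]
  left
  rw [← not_nonempty_iff]
  rintro ⟨q⟩
  obtain ⟨⟨m, hm, hpr, _⟩, rfl⟩ := Quotient.exists_rep q
  rw [Q940.proj_iff] at hpr
  obtain ⟨f, hf1, hf2⟩ := hpr
  have h1 : ∀ n ∈ N, single n (1 : k) * f = f := by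
    intro n hn
    have := hf2 _ (Q940.fix_all N hNp hm hn)
    rw [sub_mul, one_mul, sub_eq_zero] at this
    exact this
  have h2 := sq_zero N hNp hne f h1
  have h3 := hf2 _ hf1
  rw [sub_mul, one_mul, h2, sub_zero] at h3
  rw [h3, sub_zero] at hf1
  exact hm.1 (Ideal.eq_top_of_isUnit_mem (I := m) hf1 isUnit_one)

end J2

/-! ### the literal joints -/

section final
variable (p : ℕ) [hp : Fact p.Prime] (k : Type) [Field k] [IsAlgClosed k] [CharP k p]

omit [IsAlgClosed k] in
theorem sJ2 : SJ2 p k := by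
  rintro G _ _ e _ ⟨N, hN, hNp, hne⟩
  exact f0_eq_zero N hNp hne e

omit [IsAlgClosed k] in
theorem Wt_quot (G : Type) [Group G] [Finite G] (e : MonoidAlgebra k G) (N : Subgroup G)
    [N.Normal] (hN : IsPGroup p N) :
    Wt p e = Nat.card N * Wt p (MonoidAlgebra.mapDomain (QuotientGroup.mk : G → G ⧸ N) e) :=
  Wt_quot_of N hN e fun _ _ P hP hPp hne => @f0_eq_zero k _ _ _ _ p hp _ P hP hPp hne _

omit [IsAlgClosed k] in
theorem sQl : SQl p k := by
  intro G _ _ e N _ hN _
  exact (Q940.lc_quot N hN e).symm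

omit [IsAlgClosed k] in
theorem sQd : SQd p k := by
  intro G _ _ e N _ hN he
  unfold dG
  rw [Wt_quot p k G e N hN, ← sQl p k G e N hN he,
    Subgroup.card_eq_card_quotient_mul_card_subgroup N]
  push_cast
  ring

end final

end Crest.Agent.R170.QW544
end

-- ▼ part R170/Tog_588
section

/-!
# Row 170: chains of nontrivial `p`-subgroups and the toggle

Chains are `C : Finset (Subgroup G)`, pairwise comparable, members nontrivial `p`-subgroups.
`stb C` = common normaliser, `top C` = union.  For a nontrivial `p`-subgroup `U` normalising all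
members, `low U C` = largest member not containing `U` (or `⊥`), `tgl U C = C ∆ {low U C ⊔ U}`.
`tgl U` is a fixed point free involution which preserves `stb C ⊓ normalizer U`,
`stb C ⊓ centralizer U` and `top C ⊔ U`.
-/

set_option autoImplicit false

namespace Crest.Agent.R170.Tog588

open Finset

variable {G : Type*} [Group G]

/-- chain of nontrivial `p`-subgroups -/
structure IsPC (p : ℕ) (C : Finset (Subgroup G)) : Prop where
  ne : ∀ P ∈ C, P ≠ ⊥
  pg : ∀ P ∈ C, IsPGroup p P
  ch : ∀ P ∈ C, ∀ Q ∈ C, P ≤ Q ∨ Q ≤ P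

/-- common normaliser of the members -/
def stb (C : Finset (Subgroup G)) : Subgroup G := ⨅ P ∈ C, Subgroup.normalizer (P : Set G)

/-- the largest member (`⊥` for the empty chain) -/
def top (C : Finset (Subgroup G)) : Subgroup G := C.sup id

open Classical in
/-- largest member not containing `U` -/
noncomputable def low (U : Subgroup G) (C : Finset (Subgroup G)) : Subgroup G :=
  (C.filter fun P => ¬ U ≤ P).sup id

open Classical in
/-- the toggle -/
noncomputable def tgl (U : Subgroup G) (C : Finset (Subgroup G)) : Finset (Subgroup G) :=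
  symmDiff C {low U C ⊔ U}

variable {p : ℕ} {C : Finset (Subgroup G)} {U : Subgroup G}

theorem mem_stb {g : G} : g ∈ stb C ↔ ∀ P ∈ C, g ∈ Subgroup.normalizer (P : Set G) := by
  simp [stb, Subgroup.mem_iInf]

theorem le_stb : U ≤ stb C ↔ ∀ P ∈ C, U ≤ Subgroup.normalizer (P : Set G) := by
  simp [stb]

theorem stb_empty : stb (∅ : Finset (Subgroup G)) = ⊤ := by simp [stb]

theorem top_empty : top (∅ : Finset (Subgroup G)) = ⊥ := by simp [top]

/-- the supremum of a nonempty finite chain is a member -/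
theorem sup_mem_of_chain (S : Finset (Subgroup G)) (hS : ∀ P ∈ S, ∀ Q ∈ S, P ≤ Q ∨ Q ≤ P)
    (hne : S.Nonempty) : S.sup id ∈ S := by
  classical
  induction S using Finset.induction_on with
  | empty => exact absurd hne (by simp)
  | insert a s ha ih =>
    rw [sup_insert]
    by_cases hs : s.Nonempty
    · have h1 := ih (fun P hP Q hQ => hS P (mem_insert_of_mem hP) Q (mem_insert_of_mem hQ)) hs
      rcases hS a (mem_insert_self a s) _ (mem_insert_of_mem h1) with h | h
      · rw [show id a ⊔ s.sup id = s.sup id from sup_eq_right.mpr h]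
        exact mem_insert_of_mem h1
      · rw [show id a ⊔ s.sup id = a from sup_eq_left.mpr h]
        exact mem_insert_self a s
    · rw [not_nonempty_iff_eq_empty] at hs
      subst hs
      simp

theorem IsPC.low_mem (hC : IsPC p C) (U : Subgroup G) :
    low U C = ⊥ ∨ (low U C ∈ C ∧ ¬ U ≤ low U C) := by
  classical
  by_cases h : (C.filter fun P => ¬ U ≤ P).Nonempty
  · right
    have h1 : low U C ∈ C.filter fun P => ¬ U ≤ P := by
      unfold low
      exact sup_mem_of_chain _ (fun P hP Q hQ => hC.ch P (mem_filter.mp hP).1 Q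
        (mem_filter.mp hQ).1) h
    exact mem_filter.mp h1
  · left
    rw [not_nonempty_iff_eq_empty] at h
    unfold low
    rw [h, sup_empty]

theorem le_low {P : Subgroup G} (hP : P ∈ C) (h : ¬ U ≤ P) : P ≤ low U C := by
  classical
  unfold low
  exact le_sup (f := id) (mem_filter.mpr ⟨hP, h⟩)


theorem mem_tgl {P : Subgroup G} : P ∈ tgl U C ↔
    (P ∈ C ∧ P ≠ low U C ⊔ U) ∨ (P = low U C ⊔ U ∧ P ∉ C) := by
  classical
  unfold tgl
  rw [mem_symmDiff, mem_singleton]

theorem low_tgl : low U (tgl U C) = low U C := by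
  classical
  have : (tgl U C).filter (fun P => ¬ U ≤ P) = C.filter fun P => ¬ U ≤ P := by
    ext P
    rw [mem_filter, mem_filter, mem_tgl]
    constructor
    · rintro ⟨h | h, h2⟩
      · exact ⟨h.1, h2⟩
      · exact absurd (h.1 ▸ le_sup_right) h2
    · rintro ⟨h, h2⟩
      refine ⟨Or.inl ⟨h, ?_⟩, h2⟩
      rintro rfl
      exact h2 le_sup_right
  unfold low
  rw [this]

theorem tgl_tgl : tgl U (tgl U C) = C := by
  classical
  ext P
  rw [mem_tgl, low_tgl, mem_tgl]
  by_cases h : P = low U C ⊔ U <;> by_cases h2 : P ∈ C <;> simp [h, h2]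

theorem tgl_ne : tgl U C ≠ C := by
  classical
  intro h
  have h1 := (mem_tgl (U := U) (C := C) (P := low U C ⊔ U))
  rw [h] at h1
  by_cases h2 : low U C ⊔ U ∈ C
  · simp [h2] at h1
  · simp [h2] at h1

theorem card_tgl : (tgl U C).card = C.card + 1 ∨ C.card = (tgl U C).card + 1 := by
  classical
  by_cases h : low U C ⊔ U ∈ C
  · right
    have : tgl U C = C.erase (low U C ⊔ U) := by
      ext P
      rw [mem_tgl, mem_erase]
      constructor
      · rintro (h1 | h1)
        · exact ⟨h1.2, h1.1⟩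
        · exact absurd (h1.1 ▸ h) h1.2
      · rintro ⟨h1, h2⟩
        exact Or.inl ⟨h2, h1⟩
    rw [this, card_erase_of_mem h]
    have := card_pos.mpr ⟨_, h⟩
    omega
  · left
    have : tgl U C = insert (low U C ⊔ U) C := by
      ext P
      rw [mem_tgl, mem_insert]
      constructor
      · rintro (h1 | h1)
        · exact Or.inr h1.1
        · exact Or.inl h1.1
      · rintro (h1 | h1)
        · exact Or.inr ⟨h1, h1 ▸ h⟩
        · refine Or.inl ⟨h1, ?_⟩
          rintro rfl
          exact h h1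
    rw [this, card_insert_of_notMem h]

theorem neg_one_pow_tgl {R : Type*} [Ring R] :
    (-1 : R) ^ (tgl U C).card = -(-1) ^ C.card := by
  rcases card_tgl (U := U) (C := C) with h | h
  · rw [h, pow_succ]; simp
  · rw [h, pow_succ]; simp

/-- joins of normalised subgroups are normalised -/
theorem mem_normalizer_sup {P Q : Subgroup G} {g : G} (hP : g ∈ Subgroup.normalizer (P : Set G))
    (hQ : g ∈ Subgroup.normalizer (Q : Set G)) :
    g ∈ Subgroup.normalizer ((P ⊔ Q : Subgroup G) : Set G) := by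
  rw [Subgroup.mem_normalizer_iff_map_conj_eq] at hP hQ ⊢
  rw [Subgroup.map_sup, hP, hQ]

theorem mem_normalizer_bot (g : G) :
    g ∈ Subgroup.normalizer ((⊥ : Subgroup G) : Set G) := by
  rw [Subgroup.mem_normalizer_iff_map_conj_eq, Subgroup.map_bot]

theorem IsPC.mem_normalizer_low (hC : IsPC p C) {g : G} (hg : g ∈ stb C) :
    g ∈ Subgroup.normalizer ((low U C : Subgroup G) : Set G) := by
  rcases hC.low_mem U with h | h
  · rw [h]; exact mem_normalizer_bot g
  · exact mem_stb.mp hg _ h.1

/-- the toggled chain is a chain -/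
theorem IsPC.tgl (hC : IsPC p C) (hU : IsPGroup p U) (hU1 : U ≠ ⊥) (hUC : U ≤ stb C) :
    IsPC p (tgl U C) := by
  have hp : IsPGroup p (low U C ⊔ U : Subgroup G) := by
    rcases hC.low_mem U with h | h
    · rw [h, bot_sup_eq]; exact hU
    · rw [sup_comm]
      exact IsPGroup.to_sup_of_normal_right' hU (hC.pg _ h.1) (le_stb.mp hUC _ h.1)
  have hcmp : ∀ P ∈ C, P ≤ low U C ⊔ U ∨ low U C ⊔ U ≤ P := by
    intro P hP
    by_cases h : U ≤ P
    · right
      refine sup_le ?_ h
      rcases hC.low_mem U with h1 | h1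
      · rw [h1]; exact bot_le
      · rcases hC.ch _ h1.1 _ hP with h2 | h2
        · exact h2
        · exact absurd (h.trans h2) h1.2
    · left
      exact (le_low hP h).trans le_sup_left
  refine ⟨?_, ?_, ?_⟩
  · intro P hP
    rcases mem_tgl.mp hP with h | h
    · exact hC.ne P h.1
    · rw [h.1]
      intro h2
      exact hU1 (le_bot_iff.mp (le_sup_right.trans h2.le))
  · intro P hP
    rcases mem_tgl.mp hP with h | h
    · exact hC.pg P h.1
    · rw [h.1]; exact hp
  · intro P hP Q hQ
    rcases mem_tgl.mp hP with h | h <;> rcases mem_tgl.mp hQ with h' | h'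
    · exact hC.ch P h.1 Q h'.1
    · rw [h'.1]; exact hcmp P h.1
    · rw [h.1]; exact (hcmp Q h'.1).symm
    · rw [h.1, h'.1]; exact Or.inl le_rfl

theorem IsPC.stb_le (hC : IsPC p C) :
    stb C ⊓ Subgroup.normalizer (U : Set G) ≤ stb (Tog588.tgl U C) := by
  intro g hg
  rw [Subgroup.mem_inf] at hg
  rw [mem_stb]
  intro P hP
  rcases mem_tgl.mp hP with h | h
  · exact mem_stb.mp hg.1 P h.1
  · rw [h.1]
    exact mem_normalizer_sup (hC.mem_normalizer_low hg.1) hg.2

/-- `stb C ⊓ normalizer U` is preserved -/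
theorem IsPC.stb_inf_normalizer (hC : IsPC p C) (hU : IsPGroup p U) (hU1 : U ≠ ⊥)
    (hUC : U ≤ stb C) :
    stb (Tog588.tgl U C) ⊓ Subgroup.normalizer (U : Set G) =
      stb C ⊓ Subgroup.normalizer (U : Set G) := by
  refine le_antisymm (le_inf ?_ inf_le_right) (le_inf hC.stb_le inf_le_right)
  have h := (hC.tgl hU hU1 hUC).stb_le (U := U)
  rwa [tgl_tgl] at h

theorem IsPC.le_stb_tgl (hC : IsPC p C) (hUC : U ≤ stb C) : U ≤ stb (Tog588.tgl U C) :=
  (le_inf hUC Subgroup.le_normalizer).trans hC.stb_le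


theorem le_top {P : Subgroup G} (hP : P ∈ C) : P ≤ top C := le_sup (f := id) hP

theorem top_tgl_le : top (Tog588.tgl U C) ≤ top C ⊔ U := by
  unfold top
  refine Finset.sup_le fun P hP => ?_
  rcases mem_tgl.mp hP with h | h
  · exact (le_sup (f := id) h.1).trans le_sup_left
  · show P ≤ _
    rw [h.1]
    refine sup_le (le_trans ?_ le_sup_left) le_sup_right
    classical
    unfold low
    exact sup_mono (filter_subset _ _)

/-- `top C ⊔ U` is preserved -/
theorem top_tgl_sup : top (Tog588.tgl U C) ⊔ U = top C ⊔ U := by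
  refine le_antisymm (sup_le top_tgl_le le_sup_right) (sup_le ?_ le_sup_right)
  have h := top_tgl_le (U := U) (C := Tog588.tgl U C)
  rwa [tgl_tgl] at h


/-- a nonempty chain has a smallest member, which is normal in `stb C` -/
theorem IsPC.exists_min (hC : IsPC p C) (hne : C.Nonempty) :
    ∃ P ∈ C, (∀ Q ∈ C, P ≤ Q) ∧ P ≤ stb C := by
  classical
  obtain ⟨P, hP, hmin⟩ := C.exists_minimal hne
  have hle : ∀ Q ∈ C, P ≤ Q := by
    intro Q hQ
    rcases hC.ch P hP Q hQ with h | h
    · exact h
    · exact hmin hQ h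
  refine ⟨P, hP, hle, le_stb.mpr fun Q hQ => (hle Q hQ).trans Subgroup.le_normalizer⟩

end Crest.Agent.R170.Tog588
end

-- ▼ part R170/M_588
section

/-!
# Row 170, leaf M: `∑_σ (-1)^|σ| |G_σ| W(G_σ, e_σ) = |G| f0(G, e)`
-/

set_option autoImplicit false
set_option linter.unusedSectionVars false
set_option linter.style.haveILetI false

namespace Crest.Agent.R170.M588

open MonoidAlgebra Crest.AlgebraR.Weights Crest.AlgebraR.Blocks Finset

/-! ### chains -/

section chains
variable {p : ℕ} {G : Type} [Group G]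

theorem isPC (σ : Ch p G) : Tog588.IsPC p σ.1 where
  ne P hP := (σ.2.1 P hP).2
  pg P hP := (σ.2.1 P hP).1
  ch P hP Q hQ := by
    rcases eq_or_ne P Q with h | h
    · exact Or.inl h.le
    · exact σ.2.2 hP hQ h

theorem chain_of_isPC {C : Finset (Subgroup G)} (h : Tog588.IsPC p C) :
    (∀ Q ∈ C, IsPGroup p Q ∧ Q ≠ ⊥) ∧ IsChain (· ≤ ·) (C : Set (Subgroup G)) :=
  ⟨fun Q hQ => ⟨h.pg Q hQ, h.ne Q hQ⟩, fun P hP Q hQ _ => h.ch P hP Q hQ⟩

theorem st_eq (σ : Ch p G) : st σ = Tog588.stb σ.1 := rfl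

theorem top_eq (σ : Ch p G) : top σ = Tog588.top σ.1 := by
  unfold top Tog588.top
  rw [Finset.sup_eq_iSup]
  rfl

/-- the toggled chain -/
noncomputable def tog (U : Subgroup G) (hU : IsPGroup p U) (hU1 : U ≠ ⊥) (σ : Ch p G)
    (h : U ≤ st σ) : Ch p G :=
  ⟨Tog588.tgl U σ.1, chain_of_isPC ((isPC σ).tgl hU hU1 h)⟩

end chains

/-! ### group algebra: local image of a toggled chain -/

section alg
variable {k G : Type} [Field k] [Group G]

theorem coeff_br [Finite G] (H Q : Subgroup G) (e : MonoidAlgebra k G) (h : H) :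
    (br H Q e).coeff h =
      (open Classical in if (h : G) ∈ Subgroup.centralizer (Q : Set G) then e.coeff (h : G) else 0) :=
  rfl

theorem coeff_restrict [Finite G] (H : Subgroup G) (e : MonoidAlgebra k G) (h : H) :
    (restrictCoeff H e).coeff h = e.coeff (h : G) := rfl

theorem mapDomain_mapDomain {A B C : Type} (f : A → B) (g : B → C) (x : MonoidAlgebra k A) :
    MonoidAlgebra.mapDomain g (MonoidAlgebra.mapDomain f x) =
      MonoidAlgebra.mapDomain (g ∘ f) x := by
  apply MonoidAlgebra.coeff_injective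
  show Finsupp.mapDomain g (Finsupp.mapDomain f x.coeff) = Finsupp.mapDomain (g ∘ f) x.coeff
  rw [← Finsupp.mapDomain_comp]

theorem coeff_mapDomain_equiv {A B : Type} (f : A ≃ B) (x : MonoidAlgebra k A) (b : B) :
    (MonoidAlgebra.mapDomain f x).coeff b = x.coeff (f.symm b) := by
  show (Finsupp.mapDomain f x.coeff) b = _
  exact Finsupp.mapDomain_equiv_apply _ _

/-- transport of `f0` along group isomorphisms -/
def TrF (k : Type) [Field k] : Prop :=
  ∀ (A B : Type) [Group A] [Group B] (φ : A ≃* B) (x : MonoidAlgebra k A),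
    f0 (MonoidAlgebra.mapDomain φ x) = f0 x

/-- the local image only sees the centraliser -/
def LImg (p : ℕ) (k : Type) [Field k] : Prop :=
  ∀ (S : Type) [Group S] [Finite S] (Q : Subgroup S) (z : MonoidAlgebra k S), IsPGroup p Q →
    (∀ x : MonoidAlgebra k S, z * x = x * z) →
    localImage Q z = MonoidAlgebra.mapDomain
      (QuotientGroup.mk : Subgroup.normalizer (Q : Set S) → NormQuot Q)
      (br (Subgroup.normalizer (Q : Set S)) Q z)

theorem mem_norm {S Q : Subgroup G} (hQ : Q ≤ S) (x : S) :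
    x ∈ Subgroup.normalizer ((Q.subgroupOf S : Subgroup S) : Set S) ↔
      (x : G) ∈ Subgroup.normalizer (Q : Set G) := by
  rw [Subgroup.mem_normalizer_iff, Subgroup.mem_normalizer_iff]
  constructor
  · intro h g
    constructor
    · intro hg
      have := (h ⟨g, hQ hg⟩).mp (Subgroup.mem_subgroupOf.mpr hg)
      exact Subgroup.mem_subgroupOf.mp this
    · intro hg
      have hgS : g ∈ S := by
        have h1 := S.mul_mem (S.mul_mem (S.inv_mem x.2) (hQ hg)) x.2
        have h2 : (x : G)⁻¹ * ((x : G) * g * (x : G)⁻¹) * (x : G) = g := by group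
        rwa [h2] at h1
      have := (h ⟨g, hgS⟩).mpr (Subgroup.mem_subgroupOf.mpr hg)
      exact Subgroup.mem_subgroupOf.mp this
  · intro h g
    rw [Subgroup.mem_subgroupOf, Subgroup.mem_subgroupOf]
    exact h g

/-- the normaliser of `Q` in `S` as a subgroup of `G` -/
def psi (S Q H : Subgroup G) (hQ : Q ≤ S) (hH : H = S ⊓ Subgroup.normalizer (Q : Set G)) :
    ↥(Subgroup.normalizer ((Q.subgroupOf S : Subgroup S) : Set S)) ≃* ↥H where
  toFun x := ⟨(x.1 : G), hH.ge ⟨x.1.2, (mem_norm hQ x.1).mp x.2⟩⟩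
  invFun y := ⟨⟨y.1, (hH.le y.2).1⟩, (mem_norm hQ _).mpr (hH.le y.2).2⟩
  left_inv _ := rfl
  right_inv _ := rfl
  map_mul' _ _ := rfl


theorem psi_map (S Q H : Subgroup G) (hQ : Q ≤ S)
    (hH : H = S ⊓ Subgroup.normalizer (Q : Set G)) :
    ((Q.subgroupOf S).subgroupOf
      (Subgroup.normalizer ((Q.subgroupOf S : Subgroup S) : Set S))).map
        (psi S Q H hQ hH : _ →* ↥H) = Q.subgroupOf H := by
  ext y
  rw [Subgroup.mem_map, Subgroup.mem_subgroupOf]
  constructor
  · rintro ⟨x, hx, rfl⟩
    rw [Subgroup.mem_subgroupOf, Subgroup.mem_subgroupOf] at hx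
    exact hx
  · intro hy
    refine ⟨(psi S Q H hQ hH).symm y, ?_, ?_⟩
    · rw [Subgroup.mem_subgroupOf, Subgroup.mem_subgroupOf]
      exact hy
    · exact (psi S Q H hQ hH).apply_symm_apply y

theorem mem_centralizer_sup (T Q : Subgroup G) (h : G) :
    h ∈ Subgroup.centralizer ((T ⊔ Q : Subgroup G) : Set G) ↔
      h ∈ Subgroup.centralizer (T : Set G) ∧ h ∈ Subgroup.centralizer (Q : Set G) := by
  constructor
  · intro h1
    rw [Subgroup.mem_centralizer_iff] at h1
    constructor
    · rw [Subgroup.mem_centralizer_iff]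
      exact fun g hg => h1 g ((le_sup_left : T ≤ T ⊔ Q) hg)
    · rw [Subgroup.mem_centralizer_iff]
      exact fun g hg => h1 g ((le_sup_right : Q ≤ T ⊔ Q) hg)
  · rintro ⟨h1, h2⟩
    rw [Subgroup.mem_centralizer_iff] at h1 h2 ⊢
    have h3 : T ⊔ Q ≤ Subgroup.centralizer ({h} : Set G) := by
      rw [sup_le_iff]
      constructor
      · intro g hg
        rw [Subgroup.mem_centralizer_iff]
        rintro _ rfl
        exact (h1 g hg).symm
      · intro g hg
        rw [Subgroup.mem_centralizer_iff]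
        rintro _ rfl
        exact (h2 g hg).symm
    intro g hg
    have h4 := h3 hg
    rw [Subgroup.mem_centralizer_iff] at h4
    exact (h4 h rfl).symm

/-- the local group algebra element only depends on `S ⊓ N(Q)` and `T ⊔ Q` -/
theorem f0_local [Finite G] {p : ℕ} (hT : TrF k) (hL : LImg p k) (S Q H P T : Subgroup G)
    (hQS : Q ≤ S) (hQ : IsPGroup p Q) (hH : H = S ⊓ Subgroup.normalizer (Q : Set G))
    (hP : P = T ⊔ Q) [hn : (Q.subgroupOf H).Normal] (e : MonoidAlgebra k G)
    (hz : ∀ x, br S T e * x = x * br S T e) :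
    f0 (localImage (Q.subgroupOf S) (br S T e)) =
      f0 (MonoidAlgebra.mapDomain (QuotientGroup.mk : H → H ⧸ Q.subgroupOf H) (br H P e)) := by
  have hQ' : IsPGroup p (Q.subgroupOf S) :=
    hQ.of_equiv (Subgroup.subgroupOfEquivOfLe hQS).symm
  rw [hL S (Q.subgroupOf S) (br S T e) hQ' hz]
  rw [← hT _ _ (QuotientGroup.congr _ _ (psi S Q H hQS hH) (psi_map S Q H hQS hH))]
  congr 1
  rw [mapDomain_mapDomain]
  have h1 : (⇑(QuotientGroup.congr ((Q.subgroupOf S).subgroupOf
      (Subgroup.normalizer ((Q.subgroupOf S : Subgroup S) : Set S))) (Q.subgroupOf H)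
      (psi S Q H hQS hH) (psi_map S Q H hQS hH)) ∘
      (QuotientGroup.mk : ↥(Subgroup.normalizer ((Q.subgroupOf S : Subgroup S) : Set S)) →
        NormQuot (Q.subgroupOf S))) =
      (QuotientGroup.mk : H → H ⧸ Q.subgroupOf H) ∘ (psi S Q H hQS hH).toEquiv := by
    funext x
    exact QuotientGroup.congr_mk _ _ _ _ x
  rw [h1, ← mapDomain_mapDomain]
  congr 1
  apply MonoidAlgebra.coeff_injective
  ext h
  rw [coeff_mapDomain_equiv, coeff_br, coeff_br, coeff_br]
  have h4 : (((psi S Q H hQS hH).toEquiv.symm h).1 : S) ∈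
      Subgroup.centralizer ((Q.subgroupOf S : Subgroup S) : Set S) ↔
      (h : G) ∈ Subgroup.centralizer (Q : Set G) := by
    rw [Subgroup.mem_centralizer_iff, Subgroup.mem_centralizer_iff]
    constructor
    · intro h5 g hg
      have h6 := h5 ⟨g, hQS hg⟩ (Subgroup.mem_subgroupOf.mpr hg)
      exact congrArg (fun y : S => (y : G)) h6
    · intro h5 g hg
      apply Subtype.ext
      exact h5 (g : G) (Subgroup.mem_subgroupOf.mp hg)
  have h5 : (h : G) ∈ Subgroup.centralizer (P : Set G) ↔
      (h : G) ∈ Subgroup.centralizer (T : Set G) ∧ (h : G) ∈ Subgroup.centralizer (Q : Set G) := by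
    rw [hP]
    exact mem_centralizer_sup T Q h
  have h8 : ((((psi S Q H hQS hH).toEquiv.symm h).1 : S) : G) = (h : G) := rfl
  by_cases h6 : (h : G) ∈ Subgroup.centralizer (Q : Set G)
  · rw [if_pos (h4.mpr h6), h8]
    by_cases h7 : (h : G) ∈ Subgroup.centralizer (T : Set G)
    · rw [if_pos h7, if_pos (h5.mpr ⟨h7, h6⟩)]
    · rw [if_neg h7, if_neg (fun h9 => h7 (h5.mp h9).1)]
  · rw [if_neg (fun h9 => h6 (h4.mp h9)), if_neg (fun h9 => h6 (h5.mp h9).2)]

/-- the trivial subgroup -/
theorem f0_localImage_bot (hT : TrF k) {S : Type} [Group S] [Finite S] (z : MonoidAlgebra k S) :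
    f0 (localImage (⊥ : Subgroup S) z) = f0 z := by
  have hN : ∀ s : S, s ∈ Subgroup.normalizer ((⊥ : Subgroup S) : Set S) := by
    intro s
    rw [Subgroup.mem_normalizer_iff_map_conj_eq, Subgroup.map_bot]
  let f : S ≃* ↥(Subgroup.normalizer ((⊥ : Subgroup S) : Set S)) :=
    { toFun := fun s => ⟨s, hN s⟩
      invFun := fun x => x.1
      left_inv := fun _ => rfl
      right_inv := fun _ => rfl
      map_mul' := fun _ _ => rfl }
  let g : ↥(Subgroup.normalizer ((⊥ : Subgroup S) : Set S)) →* NormQuot (⊥ : Subgroup S) :=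
    QuotientGroup.mk' _
  have hg : Function.Bijective g := by
    refine ⟨?_, QuotientGroup.mk'_surjective _⟩
    intro a b hab
    have h1 := QuotientGroup.eq.mp hab
    rw [Subgroup.mem_subgroupOf, Subgroup.mem_bot] at h1
    apply Subtype.ext
    have h2 : ((a : S))⁻¹ * (b : S) = 1 := h1
    exact inv_mul_eq_one.mp h2
  have h2 : localImage (⊥ : Subgroup S) z =
      MonoidAlgebra.mapDomain (f.trans (MulEquiv.ofBijective g hg)) z := by
    unfold localImage
    have h3 : (⇑(f.trans (MulEquiv.ofBijective g hg))) =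
        (QuotientGroup.mk : ↥(Subgroup.normalizer ((⊥ : Subgroup S) : Set S)) →
          NormQuot (⊥ : Subgroup S)) ∘ f.toEquiv := rfl
    rw [h3, ← mapDomain_mapDomain]
    congr 1
    apply MonoidAlgebra.coeff_injective
    ext h
    rw [coeff_mapDomain_equiv, coeff_restrict]
    rfl
  rw [h2, hT]

end alg

/-! ### the theorem -/

section main
variable {p : ℕ} {k : Type} [Field k]

/-- subgroups of `S` against subgroups of `G` below `S` -/
noncomputable def subEquiv {G : Type} [Group G] (p : ℕ) (S : Subgroup G) :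
    {Q : Subgroup S // IsPGroup p Q} ≃ {Q : Subgroup G // IsPGroup p Q ∧ Q ≤ S} where
  toFun Q := ⟨Q.1.map S.subtype, Q.2.map _, Subgroup.map_subtype_le _⟩
  invFun Q := ⟨Q.1.subgroupOf S, Q.2.1.of_equiv (Subgroup.subgroupOfEquivOfLe Q.2.2).symm⟩
  left_inv Q := Subtype.ext
    (Subgroup.comap_map_eq_self_of_injective S.subtype_injective Q.1)
  right_inv Q := Subtype.ext (Subgroup.map_subgroupOf_eq_of_le Q.2.2)

theorem Wt_eq {G : Type} [Group G] [Finite G] [Fintype (Subgroup G)]
    (S : Subgroup G) (z : MonoidAlgebra k S) :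
    (Wt p z : ℤ) = ∑ Q : Subgroup G, (open Classical in if IsPGroup p Q ∧ Q ≤ S then
      (Nat.card ↥(S ⊓ Subgroup.normalizer (Q : Set G)) : ℤ) *
        f0 (localImage (Q.subgroupOf S) z) else 0) := by
  classical
  have h1 : (Wt p z) = ∑ᶠ Q : {Q : Subgroup G // IsPGroup p Q ∧ Q ≤ S},
      Nat.card ↥(S ⊓ Subgroup.normalizer (Q.1 : Set G)) *
        f0 (localImage (Q.1.subgroupOf S) z) := by
    unfold Wt
    refine (finsum_comp_equiv (subEquiv p S).symm).symm.trans ?_
    refine finsum_congr fun Q => ?_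
    show Nat.card (Subgroup.normalizer ((Q.1.subgroupOf S : Subgroup S) : Set S)) *
      f0 (localImage (Q.1.subgroupOf S) z) = _
    rw [Nat.card_congr (psi S Q.1 _ Q.2.2 rfl).toEquiv]
  rw [h1, finsum_eq_sum_of_fintype, Nat.cast_sum, ← Finset.sum_filter]
  rw [Finset.sum_subtype (Finset.univ.filter fun Q : Subgroup G => IsPGroup p Q ∧ Q ≤ S)
    (p := fun Q : Subgroup G => IsPGroup p Q ∧ Q ≤ S) (fun Q => by simp)]
  refine Finset.sum_congr rfl fun Q _ => ?_
  push_cast
  rfl

theorem top_pgroup {G : Type} [Group G] (σ : Ch p G) : IsPGroup p (top σ) := by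
  rw [top_eq]
  by_cases h : σ.1.Nonempty
  · exact (isPC σ).pg _ (Tog588.sup_mem_of_chain σ.1 (isPC σ).ch h)
  · rw [not_nonempty_iff_eq_empty] at h
    rw [h, Tog588.top_empty]
    exact IsPGroup.of_bot

theorem centralizer_top_le {G : Type} [Group G] (σ : Ch p G) :
    Subgroup.centralizer (top σ : Set G) ≤ st σ := by
  intro g hg
  rw [st_eq, Tog588.mem_stb]
  intro P hP
  have h1 : P ≤ top σ := by rw [top_eq]; exact Tog588.le_top hP
  have h2 : g ∈ Subgroup.centralizer (P : Set G) :=
    Subgroup.centralizer_le (show (P : Set G) ⊆ (top σ : Set G) from h1) hg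
  exact Subgroup.centralizer_le_normalizer _ h2

theorem st_le_normalizer {G : Type} [Group G] (σ : Ch p G) :
    st σ ≤ Subgroup.normalizer (top σ : Set G) := by
  intro g hg
  rw [st_eq] at hg
  rw [top_eq]
  by_cases h : σ.1.Nonempty
  · exact Tog588.mem_stb.mp hg _ (Tog588.sup_mem_of_chain σ.1 (isPC σ).ch h)
  · rw [not_nonempty_iff_eq_empty] at h
    rw [h, Tog588.top_empty]
    exact Tog588.mem_normalizer_bot g

variable [Fact p.Prime] [IsAlgClosed k] [CharP k p]

theorem eC_CI (hBr : SBrCI p k) {G : Type} [Group G] [Finite G] (σ : Ch p G)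
    (e : MonoidAlgebra k G) (he : CI e) : CI (eC σ e) :=
  hBr G e (st σ) (top σ) (top_pgroup σ) (centralizer_top_le σ) (st_le_normalizer σ) he

/-- nonempty chains carry no defect zero -/
theorem f0_eC (hBr : SBrCI p k) (hJ2 : SJ2 p k) {G : Type} [Group G] [Finite G] (σ : Ch p G)
    (hσ : σ.1.Nonempty) (e : MonoidAlgebra k G) (he : CI e) : f0 (eC σ e) = 0 := by
  obtain ⟨P, hP, -, hPs⟩ := (isPC σ).exists_min hσ
  refine hJ2 _ _ (eC_CI hBr σ e he) ⟨P.subgroupOf (st σ), ?_, ?_, ?_⟩
  · refine Subgroup.normal_subgroupOf_of_le_normalizer ?_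
    intro g hg
    exact Tog588.mem_stb.mp hg P hP
  · exact ((isPC σ).pg P hP).of_equiv (Subgroup.subgroupOfEquivOfLe hPs).symm
  · intro h
    rw [Subgroup.subgroupOf_eq_bot] at h
    exact (isPC σ).ne P hP (disjoint_self.mp (h.mono_right hPs))

/-- the empty chain -/
theorem f0_eC_empty (hT : TrF k) {G : Type} [Group G] [Finite G] (σ : Ch p G)
    (hσ : σ.1 = ∅) (e : MonoidAlgebra k G) : f0 (eC σ e) = f0 e := by
  have h1 : ∀ g : G, g ∈ st σ := by
    intro g
    rw [st_eq, hσ, Tog588.stb_empty]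
    trivial
  have h2 : top σ = ⊥ := by rw [top_eq, hσ, Tog588.top_empty]
  let f : st σ ≃* G :=
    { toFun := fun s => s.1
      invFun := fun g => ⟨g, h1 g⟩
      left_inv := fun _ => rfl
      right_inv := fun _ => rfl
      map_mul' := fun _ _ => rfl }
  have h3 : MonoidAlgebra.mapDomain f (eC σ e) = e := by
    apply MonoidAlgebra.coeff_injective
    ext g
    show (MonoidAlgebra.mapDomain f.toEquiv (eC σ e)).coeff g = _
    rw [coeff_mapDomain_equiv]
    unfold eC
    rw [coeff_br, h2, if_pos]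
    · rfl
    · rw [Subgroup.mem_centralizer_iff]
      intro x hx
      have hx' : x = 1 := Subgroup.mem_bot.mp hx
      rw [hx', one_mul, mul_one]
  rw [← hT _ _ f, h3]

/-- summand -/
noncomputable def aa {G : Type} [Group G] [Finite G] (e : MonoidAlgebra k G) (σ : Ch p G)
    (Q : Subgroup G) : ℤ :=
  (Nat.card ↥(st σ ⊓ Subgroup.normalizer (Q : Set G)) : ℤ) *
    f0 (localImage (Q.subgroupOf (st σ)) (eC σ e))

theorem aa_tog (hBr : SBrCI p k) (hT : TrF k) (hL : LImg p k) {G : Type} [Group G] [Finite G]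
    (e : MonoidAlgebra k G) (he : CI e) (σ : Ch p G) (Q : Subgroup G) (hQ : IsPGroup p Q)
    (hQ1 : Q ≠ ⊥) (h : Q ≤ st σ) : aa e (tog Q hQ hQ1 σ h) Q = aa e σ Q := by
  have hst : st (tog Q hQ hQ1 σ h) ⊓ Subgroup.normalizer (Q : Set G) =
      st σ ⊓ Subgroup.normalizer (Q : Set G) :=
    (isPC σ).stb_inf_normalizer hQ hQ1 h
  have htop : top (tog Q hQ hQ1 σ h) ⊔ Q = top σ ⊔ Q := by
    rw [top_eq, top_eq]
    exact Tog588.top_tgl_sup
  have hle : Q ≤ st (tog Q hQ hQ1 σ h) := (isPC σ).le_stb_tgl h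
  haveI : (Q.subgroupOf (st σ ⊓ Subgroup.normalizer (Q : Set G))).Normal :=
    Subgroup.normal_subgroupOf_of_le_normalizer inf_le_right
  unfold aa
  rw [hst]
  congr 2
  unfold eC
  rw [f0_local hT hL (st σ) Q (st σ ⊓ Subgroup.normalizer (Q : Set G)) (top σ ⊔ Q) (top σ) h hQ
    rfl rfl e (eC_CI hBr σ e he).1]
  rw [f0_local hT hL (st (tog Q hQ hQ1 σ h)) Q (st σ ⊓ Subgroup.normalizer (Q : Set G))
    (top σ ⊔ Q) (top (tog Q hQ hQ1 σ h)) hle hQ hst.symm htop.symm e
    (eC_CI hBr _ e he).1]

theorem sgn_tog {G : Type} [Group G] (σ : Ch p G) (Q : Subgroup G) (hQ : IsPGroup p Q)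
    (hQ1 : Q ≠ ⊥) (h : Q ≤ st σ) : sgn (tog Q hQ hQ1 σ h) = - sgn σ :=
  Tog588.neg_one_pow_tgl

/-- **leaf M** from the four inputs -/
theorem SM_of (hBr : SBrCI p k) (hJ2 : SJ2 p k) (hT : TrF k) (hL : LImg p k) : SM p k := by
  intro G _ _ e he
  classical
  haveI : Finite (Ch p G) := by unfold Ch; infer_instance
  haveI := Fintype.ofFinite (Ch p G)
  haveI := Fintype.ofFinite (Subgroup G)
  rw [finsum_eq_sum_of_fintype]
  have h1 : ∀ σ : Ch p G, sgn σ * (Wt p (eC σ e) : ℤ) =
      ∑ Q : Subgroup G, if IsPGroup p Q ∧ Q ≤ st σ then sgn σ * aa e σ Q else 0 := by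
    intro σ
    rw [Wt_eq, Finset.mul_sum]
    refine Finset.sum_congr rfl fun Q _ => ?_
    rw [mul_ite, mul_zero]
    rfl
  rw [Finset.sum_congr rfl fun σ _ => h1 σ, Finset.sum_comm]
  rw [Finset.sum_eq_single (⊥ : Subgroup G)]
  · -- the trivial subgroup
    have h2 : ∀ σ : Ch p G, aa e σ ⊥ = (Nat.card (st σ) : ℤ) * f0 (eC σ e) := by
      intro σ
      unfold aa
      have h3 : st σ ⊓ Subgroup.normalizer ((⊥ : Subgroup G) : Set G) = st σ := by
        refine inf_eq_left.mpr fun g _ => Tog588.mem_normalizer_bot g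
      have h4 : ∀ Q' : Subgroup (st σ), Q' = ⊥ → f0 (localImage Q' (eC σ e)) = f0 (eC σ e) := by
        rintro _ rfl
        exact f0_localImage_bot hT _
      rw [h3, h4 _ (Subgroup.bot_subgroupOf _)]
    let σ0 : Ch p G := ⟨∅, by simp, by simp⟩
    rw [Finset.sum_eq_single σ0]
    · rw [if_pos ⟨IsPGroup.of_bot, bot_le⟩, h2, f0_eC_empty hT σ0 rfl]
      have h5 : sgn σ0 = 1 := by simp [sgn, σ0]
      have h6 : st σ0 = ⊤ := by rw [st_eq]; exact Tog588.stb_empty
      rw [h5, h6, one_mul, Subgroup.card_top]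
    · intro σ _ hσ
      have hne : σ.1.Nonempty := by
        rw [nonempty_iff_ne_empty]
        intro h
        exact hσ (Subtype.ext h)
      rw [h2, f0_eC hBr hJ2 σ hne e he]
      simp
    · intro h
      exact absurd (Finset.mem_univ _) h
  · intro Q _ hQ1
    by_cases hQ : IsPGroup p Q
    · rw [← Finset.sum_filter]
      have hmem : ∀ σ ∈ (Finset.univ.filter fun σ : Ch p G => IsPGroup p Q ∧ Q ≤ st σ),
          Q ≤ st σ := fun σ hσ => (Finset.mem_filter.mp hσ).2.2
      refine Finset.sum_involution (fun σ hσ => tog Q hQ hQ1 σ (hmem σ hσ)) ?_ ?_ ?_ ?_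
      · intro σ hσ
        rw [aa_tog hBr hT hL e he σ Q hQ hQ1 (hmem σ hσ), sgn_tog]
        ring
      · intro σ hσ _ h
        exact Tog588.tgl_ne (congrArg Subtype.val h)
      · intro σ hσ
        refine Finset.mem_filter.mpr ⟨Finset.mem_univ _, hQ, ?_⟩
        exact (isPC σ).le_stb_tgl (hmem σ hσ)
      · intro σ hσ
        exact Subtype.ext Tog588.tgl_tgl
    · refine Finset.sum_eq_zero fun σ _ => ?_
      rw [if_neg fun h => hQ h.1]
  · intro h
    exact absurd (Finset.mem_univ _) h

end main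

/-! ### the inputs -/

theorem trF (k : Type) [Field k] : TrF k := by
  intro A B _ _ φ x
  refine SCC538.f0_congr φ x _ fun g => ?_
  show (MonoidAlgebra.mapDomain φ.toEquiv x).coeff (φ.toEquiv g) = _
  rw [coeff_mapDomain_equiv, Equiv.symm_apply_apply]

theorem lImg (p : ℕ) [Fact p.Prime] (k : Type) [Field k] [CharP k p] : LImg p k := by
  intro S _ _ Q z hQ hz
  exact BR606.localImage_eq (Fact.out : p.Prime) hQ hz

/-- **leaf M, literal** -/
theorem sM (p : ℕ) [Fact p.Prime] (k : Type) [Field k] [IsAlgClosed k] [CharP k p] : SM p k :=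
  SM_of (BR606.sBrCI p k) (J356.sj2 p k) (trF k) (lImg p k)

end Crest.Agent.R170.M588
end

-- ▼ part R170/AMP_534

/-!
# Row 170, AMP (helper534): the amplification `SWR` from WL_512, WW_350, F0pi_538 and `HWr`;
S0258 from the three joints `STP`, `HWr`, `WCc`
-/

set_option autoImplicit false

namespace Crest.Agent.R170

open MonoidAlgebra Crest.AlgebraR.Weights Crest.AlgebraR.Blocks

namespace FIN534

theorem hPi (p : ℕ) [Fact p.Prime] (k : Type) [Field k] [IsAlgClosed k] [CharP k p] : HPi k := by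
  intro ι _ M _ _ e he
  exact SCC538.f0_pi p e he (tens e) (fun g => tens_coeff e g)

/-- (WL) + (WW) with `Γ = G ≀ C_p` -/
theorem hAmpW (p : ℕ) [Fact p.Prime] (k : Type) [Field k] [IsAlgClosed k] [CharP k p]
    (hWr : HWr p k) : HAmpW p k := by
  intro G _ _ e W he hW
  have : NeZero p := ⟨(Fact.out : p.Prime).ne_zero⟩
  have hC : Nat.card (Multiplicative (ZMod p)) = p := by
    rw [Nat.card_congr Multiplicative.toAdd, Nat.card_zmod]
  refine ⟨G ≀ᵣ Multiplicative (ZMod p), inferInstance, inferInstance,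
    wE (Multiplicative (ZMod p)) e, WW4148.CI_wE _ e he, WL512.WL p _ hC e he,
    WW_of p k hWr (hPi p k) _ hC G e he W hW⟩

/-- the joint `SWR` -/
theorem sWR_of (p : ℕ) [Fact p.Prime] (k : Type) [Field k] [IsAlgClosed k] [CharP k p]
    (hWr : HWr p k) : SWR p k :=
  sWR_of_W (hAmpW p k hWr)


end FIN534

end Crest.Agent.R170
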