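import Mathlib
import Crest.Agent.R170.DefW_995

/-!
Row 170, leaf C (helper176).  The trace of a central element of `k[H]` on the centre `Z(k[H])`,
as a number of commutator pairs.
-/

set_option autoImplicit false

namespace Crest.Agent.R170.C176

open MonoidAlgebra
open scoped commutatorElement

section Centre

variable {k H : Type*} [Field k] [Group H]

/-- Central elements = coefficient functions constant on conjugacy classes. -/
theorem mem_center_iff {z : MonoidAlgebra k H} :
    z ∈ Subalgebra.center k (MonoidAlgebra k H) ↔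
      ∀ g h : H, z.coeff (h * g * h⁻¹) = z.coeff g := by
  rw [Subalgebra.mem_center_iff]
  constructor
  · intro hz g h
    have h1 := hz (single h 1)
    have h2 := congrArg (fun w : MonoidAlgebra k H => w.coeff (h * g)) h1
    beta_reduce at h2
    rw [MonoidAlgebra.coeff_single_mul_apply, MonoidAlgebra.coeff_mul_single_apply] at h2
    simpa using h2.symm
  · intro hz b
    induction b using MonoidAlgebra.induction_linear with
    | zero => simp
    | add x y hx hy => rw [add_mul, mul_add, hx, hy]
    | single a r =>
      ext g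
      rw [MonoidAlgebra.coeff_single_mul_apply, MonoidAlgebra.coeff_mul_single_apply]
      have := hz (a⁻¹ * g) a
      rw [mul_comm]
      congr 1
      rw [← this]
      congr 1
      group

variable [Finite H]

/-- The element with given coefficient function. -/
noncomputable def ofFun (f : H → k) : MonoidAlgebra k H :=
  .ofCoeff (Finsupp.equivFunOnFinite.symm f)

@[simp] theorem coeff_ofFun (f : H → k) (g : H) : (ofFun f).coeff g = f g := rfl

/-- The centre is the space of functions on conjugacy classes. -/
noncomputable def centerEquiv :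
    Subalgebra.center k (MonoidAlgebra k H) ≃ₗ[k] (ConjClasses H → k) where
  toFun z := fun c => Quotient.lift (fun g : H => (z : MonoidAlgebra k H).coeff g)
    (by
      intro a b hab
      obtain ⟨c, hc⟩ := isConj_iff.mp hab
      have := mem_center_iff.mp z.2 a c
      rw [hc] at this
      exact this.symm) c
  map_add' x y := by
    funext c
    induction c using Quotient.inductionOn with
    | _ g => rfl
  map_smul' r x := by
    funext c
    induction c using Quotient.inductionOn with
    | _ g => rfl
  invFun f := ⟨ofFun fun g => f (ConjClasses.mk g), by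
    rw [mem_center_iff]
    intro g h
    simp only [coeff_ofFun]
    congr 1
    rw [ConjClasses.mk_eq_mk_iff_isConj]
    exact (isConj_iff.mpr ⟨h, rfl⟩).symm⟩
  left_inv z := by
    apply Subtype.ext
    ext g
    rfl
  right_inv f := by
    funext c
    induction c using Quotient.inductionOn with
    | _ g => rfl

theorem centerEquiv_mk (z : Subalgebra.center k (MonoidAlgebra k H)) (g : H) :
    centerEquiv z (ConjClasses.mk g) = (z : MonoidAlgebra k H).coeff g := rfl

theorem centerEquiv_symm_coeff (f : ConjClasses H → k) (g : H) :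
    ((centerEquiv.symm f : Subalgebra.center k (MonoidAlgebra k H)) :
      MonoidAlgebra k H).coeff g = f (ConjClasses.mk g) := rfl

/-- The basis of class sums. -/
noncomputable def classBasis :
    Module.Basis (ConjClasses H) k (Subalgebra.center k (MonoidAlgebra k H)) :=
  Module.Basis.ofEquivFun (by
    classical
    exact centerEquiv)

theorem coeff_mul_fintype [Fintype H] (x y : MonoidAlgebra k H) (g : H) :
    (x * y).coeff g = ∑ b : H, x.coeff (g * b⁻¹) * y.coeff b := by
  rw [MonoidAlgebra.coeff_mul_apply_right]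
  rw [Finsupp.sum_fintype]
  intro i
  simp

/-- Trace formula: `Tr(y | Z(kH)) = ∑_{classes c} ∑_{b ∈ c} y (g_c b⁻¹)`. -/
theorem trace_center [Fintype H] [DecidableEq (ConjClasses H)] [Fintype (ConjClasses H)]
    (y : Subalgebra.center k (MonoidAlgebra k H)) (r : ConjClasses H → H)
    (hr : ∀ c, ConjClasses.mk (r c) = c) :
    Algebra.trace k (Subalgebra.center k (MonoidAlgebra k H)) y =
      ∑ c : ConjClasses H, ∑ b : H with ConjClasses.mk b = c,
        (y : MonoidAlgebra k H).coeff (r c * b⁻¹) := by
  rw [Algebra.trace_eq_matrix_trace classBasis y, Matrix.trace]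
  refine Finset.sum_congr rfl fun c _ => ?_
  rw [Matrix.diag_apply, Algebra.leftMulMatrix_eq_repr_mul]
  have h1 : ∀ z : Subalgebra.center k (MonoidAlgebra k H), (classBasis.repr z) c
      = (z : MonoidAlgebra k H).coeff (r c) := by
    intro z
    rw [classBasis, Module.Basis.ofEquivFun_repr_apply, ← centerEquiv_mk, hr]
  have h2 : ∀ b : H, ((classBasis c : Subalgebra.center k (MonoidAlgebra k H)) :
      MonoidAlgebra k H).coeff b = if ConjClasses.mk b = c then 1 else 0 := by
    intro b
    rw [classBasis, Module.Basis.coe_ofEquivFun, centerEquiv_symm_coeff, Pi.single_apply]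
  rw [h1]
  have h3 : ((y * classBasis c : Subalgebra.center k (MonoidAlgebra k H)) : MonoidAlgebra k H)
    = (y : MonoidAlgebra k H) * (classBasis c : Subalgebra.center k (MonoidAlgebra k H)) := rfl
  rw [h3, coeff_mul_fintype, Finset.sum_filter]
  refine Finset.sum_congr rfl fun b _ => ?_
  rw [h2]
  split_ifs <;> simp

end Centre

section Count

variable {H : Type*} [Group H] [Fintype H] [DecidableEq H]

/-- order of the centraliser of `g` -/
def cen (g : H) : ℕ := (Finset.univ.filter fun x : H => x * g * x⁻¹ = g).card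

theorem card_transporter {g b : H} (h : IsConj g b) :
    (Finset.univ.filter fun x : H => x * g * x⁻¹ = b).card = cen g := by
  obtain ⟨c, hc⟩ := isConj_iff.mp h
  refine Finset.card_bij (fun x _ => c⁻¹ * x) ?_ ?_ ?_
  · intro x hx
    simp only [Finset.mem_filter, Finset.mem_univ, true_and] at hx ⊢
    rw [← hc] at hx
    calc c⁻¹ * x * g * (c⁻¹ * x)⁻¹ = c⁻¹ * (x * g * x⁻¹) * c := by group
      _ = g := by rw [hx]; group
  · intro a _ b _ hab
    exact mul_left_cancel hab
  · intro x hx
    simp only [Finset.mem_filter, Finset.mem_univ, true_and] at hx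
    refine ⟨c * x, ?_, by group⟩
    simp only [Finset.mem_filter, Finset.mem_univ, true_and]
    rw [← hc]
    calc c * x * g * (c * x)⁻¹ = c * (x * g * x⁻¹) * c⁻¹ := by group
      _ = c * g * c⁻¹ := by rw [hx]

theorem transporter_empty {g b : H} (h : ¬ IsConj g b) :
    (Finset.univ.filter fun x : H => x * g * x⁻¹ = b).card = 0 := by
  rw [Finset.card_eq_zero, Finset.filter_eq_empty_iff]
  intro x _ hx
  exact h (isConj_iff.mpr ⟨x, hx⟩)

variable [DecidableEq (ConjClasses H)]

theorem class_mul_cen (g : H) :
    (Finset.univ.filter fun b : H => ConjClasses.mk b = ConjClasses.mk g).card * cen g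
      = Fintype.card H := by
  have h1 : (Finset.univ : Finset H).card = ∑ b : H,
      (Finset.univ.filter fun x : H => x * g * x⁻¹ = b).card :=
    Finset.card_eq_sum_card_fiberwise fun x _ => Finset.mem_univ _
  rw [← Finset.card_univ, h1, ← Finset.sum_filter_add_sum_filter_not Finset.univ
    (fun b : H => ConjClasses.mk b = ConjClasses.mk g)]
  rw [Finset.sum_congr rfl (g := fun _ => cen g), Finset.sum_const, smul_eq_mul]
  · rw [Finset.sum_eq_zero, add_zero]
    intro b hb
    simp only [Finset.mem_filter, Finset.mem_univ, true_and,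
      ConjClasses.mk_eq_mk_iff_isConj] at hb
    exact transporter_empty fun h => hb h.symm
  · intro b hb
    simp only [Finset.mem_filter, Finset.mem_univ, true_and,
      ConjClasses.mk_eq_mk_iff_isConj] at hb
    exact card_transporter hb.symm

theorem cen_conj {g b : H} (h : IsConj g b) : cen b = cen g := by
  obtain ⟨c, hc⟩ := isConj_iff.mp h
  rw [← card_transporter h, cen]
  refine Finset.card_bij (fun x _ => x * c) ?_ ?_ ?_
  · intro x hx
    simp only [Finset.mem_filter, Finset.mem_univ, true_and] at hx ⊢
    calc x * c * g * (x * c)⁻¹ = x * (c * g * c⁻¹) * x⁻¹ := by group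
      _ = b := by rw [hc, hx]
  · intro a _ b _ hab
    exact mul_right_cancel hab
  · intro x hx
    simp only [Finset.mem_filter, Finset.mem_univ, true_and] at hx
    refine ⟨x * c⁻¹, ?_, by group⟩
    simp only [Finset.mem_filter, Finset.mem_univ, true_and]
    rw [← hc]
    calc x * c⁻¹ * (c * g * c⁻¹) * (x * c⁻¹)⁻¹ = x * g * x⁻¹ := by group
      _ = c * g * c⁻¹ := by rw [hx, hc]

/-- `n g = #{b ~ g : g b⁻¹ ∈ K}`. -/
def nK (K : H → Prop) [DecidablePred K] (g : H) : ℕ :=
  (Finset.univ.filter fun b : H => ConjClasses.mk b = ConjClasses.mk g ∧ K (g * b⁻¹)).card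

theorem nK_conj (K : H → Prop) [DecidablePred K] (hK : ∀ g h, K g → K (h * g * h⁻¹))
    {g b : H} (h : IsConj g b) : nK K b = nK K g := by
  obtain ⟨c, hc⟩ := isConj_iff.mp h
  symm
  refine Finset.card_bij (fun x _ => c * x * c⁻¹) ?_ ?_ ?_
  · intro x hx
    simp only [Finset.mem_filter, Finset.mem_univ, true_and,
      ConjClasses.mk_eq_mk_iff_isConj] at hx ⊢
    refine ⟨?_, ?_⟩
    · exact ((isConj_iff.mpr ⟨c, rfl⟩ : IsConj x (c * x * c⁻¹)).symm.trans hx.1).trans h
    · have := hK _ c hx.2
      rw [← hc]
      convert this using 1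
      group
  · intro a _ b _ hab
    simpa using hab
  · intro x hx
    simp only [Finset.mem_filter, Finset.mem_univ, true_and,
      ConjClasses.mk_eq_mk_iff_isConj] at hx
    refine ⟨c⁻¹ * x * c, ?_, by group⟩
    simp only [Finset.mem_filter, Finset.mem_univ, true_and,
      ConjClasses.mk_eq_mk_iff_isConj]
    refine ⟨?_, ?_⟩
    · have : IsConj (c⁻¹ * x * c) x := isConj_iff.mpr ⟨c, by group⟩
      exact (this.trans hx.1).trans h.symm
    · have := hK _ c⁻¹ hx.2
      rw [← hc] at this
      convert this using 1
      group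

/-- The number of commutator pairs with commutator in the invariant set `K`. -/
theorem card_comm_eq (K : H → Prop) [DecidablePred K] (hK : ∀ g h, K g → K (h * g * h⁻¹))
    [Fintype (ConjClasses H)] (r : ConjClasses H → H) (hr : ∀ c, ConjClasses.mk (r c) = c) :
    (Finset.univ.filter fun q : H × H => K ⁅q.1, q.2⁆).card
      = Fintype.card H * ∑ c : ConjClasses H, nK K (r c) := by
  -- pairs = sum over g of cen g * nK g
  have h1 : (Finset.univ.filter fun q : H × H => K ⁅q.1, q.2⁆).card
      = ∑ g : H, (Finset.univ.filter fun x : H => K (g * (x * g * x⁻¹)⁻¹)).card := by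
    rw [Finset.card_eq_sum_card_fiberwise (f := Prod.fst) (t := Finset.univ)
      (fun x _ => Finset.mem_univ _)]
    refine Finset.sum_congr rfl fun g _ => ?_
    refine Finset.card_bij (fun q _ => q.2) ?_ ?_ ?_
    · rintro ⟨a, x⟩ hq
      simp only [Finset.mem_filter, Finset.mem_univ, true_and] at hq ⊢
      obtain ⟨hq1, hq2⟩ := hq
      subst hq2
      convert hq1 using 1
      rw [commutatorElement_def]
      group
    · rintro ⟨a, x⟩ hq ⟨a', x'⟩ hq' hx
      simp only [Finset.mem_filter, Finset.mem_univ, true_and] at hq hq' hx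
      rw [hq.2, ← hq'.2, hx]
    · intro x hx
      simp only [Finset.mem_filter, Finset.mem_univ, true_and] at hx
      refine ⟨(g, x), ?_, rfl⟩
      simp only [Finset.mem_filter, Finset.mem_univ, true_and]
      refine ⟨?_, trivial⟩
      convert hx using 1
      rw [commutatorElement_def]
      group
  have h2 : ∀ g : H, (Finset.univ.filter fun x : H => K (g * (x * g * x⁻¹)⁻¹)).card
      = nK K g * cen g := by
    intro g
    have hmaps : ∀ x ∈ (Finset.univ.filter fun x : H => K (g * (x * g * x⁻¹)⁻¹)),
        x * g * x⁻¹ ∈ (Finset.univ.filter fun b : H =>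
          ConjClasses.mk b = ConjClasses.mk g ∧ K (g * b⁻¹)) := by
      intro x hx
      simp only [Finset.mem_filter, Finset.mem_univ, true_and,
        ConjClasses.mk_eq_mk_iff_isConj] at hx ⊢
      exact ⟨(isConj_iff.mpr ⟨x, rfl⟩ : IsConj g (x * g * x⁻¹)).symm, hx⟩
    rw [Finset.card_eq_sum_card_fiberwise hmaps, nK, ← smul_eq_mul, ← Finset.sum_const]
    refine Finset.sum_congr rfl fun b hb => ?_
    simp only [Finset.mem_filter, Finset.mem_univ, true_and,
      ConjClasses.mk_eq_mk_iff_isConj] at hb
    rw [← card_transporter hb.1.symm, Finset.filter_filter]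
    congr 1
    ext x
    simp only [Finset.mem_filter, Finset.mem_univ, true_and]
    constructor
    · exact fun h => h.2
    · intro h
      refine ⟨?_, h⟩
      rw [h]
      exact hb.2
  rw [h1]
  simp_rw [h2]
  rw [← Finset.sum_fiberwise_of_maps_to (g := fun g : H => ConjClasses.mk g)
    (t := Finset.univ) (fun x _ => Finset.mem_univ _), Finset.mul_sum]
  refine Finset.sum_congr rfl fun c _ => ?_
  have h3 : ∀ g ∈ (Finset.univ.filter fun g : H => ConjClasses.mk g = c),
      nK K g * cen g = nK K (r c) * cen (r c) := by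
    intro g hg
    simp only [Finset.mem_filter, Finset.mem_univ, true_and] at hg
    have hc : IsConj (r c) g := by
      rw [← ConjClasses.mk_eq_mk_iff_isConj, hr, hg]
    rw [nK_conj K hK hc, cen_conj hc]
  rw [Finset.sum_congr rfl h3, Finset.sum_const, smul_eq_mul]
  have h4 := class_mul_cen (r c)
  rw [hr] at h4
  rw [← h4]
  ring

end Count

section Main

variable {k H : Type*} [Field k] [Group H] [Finite H]

/-- The sum of the elements of a conjugation-invariant set `K`, as a central element. -/
noncomputable def setSum (K : Set H) (hK : ∀ g h : H, g ∈ K → h * g * h⁻¹ ∈ K) :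
    Subalgebra.center k (MonoidAlgebra k H) :=
  ⟨ofFun (K.indicator fun _ => (1 : k)), by
    rw [mem_center_iff]
    intro g h
    simp only [coeff_ofFun]
    by_cases hg : g ∈ K
    · rw [Set.indicator_of_mem hg, Set.indicator_of_mem (hK g h hg)]
    · have hg' : h * g * h⁻¹ ∉ K := by
        intro hc
        have := hK _ h⁻¹ hc
        apply hg
        convert this using 1
        group
      rw [Set.indicator_of_notMem hg, Set.indicator_of_notMem hg']⟩

theorem setSum_coeff (K : Set H) (hK : ∀ g h : H, g ∈ K → h * g * h⁻¹ ∈ K) (g : H) :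
    ((setSum (k := k) K hK : Subalgebra.center k (MonoidAlgebra k H)) :
      MonoidAlgebra k H).coeff g = K.indicator (fun _ => (1 : k)) g := rfl

/-- **Leaf C.**  For a conjugation-invariant subset `K` of `H`, `|H|` divides the number of pairs
`(x, y) ∈ H²` with `[x, y] ∈ K`, and the quotient, in `k`, is the trace of the sum of `K` on the
centre of `k[H]`. -/
theorem trace_setSum (K : Set H) (hK : ∀ g h : H, g ∈ K → h * g * h⁻¹ ∈ K) :
    ∃ r : ℕ, Nat.card {q : H × H // ⁅q.1, q.2⁆ ∈ K} = Nat.card H * r ∧
      Algebra.trace k (Subalgebra.center k (MonoidAlgebra k H)) (setSum K hK) = (r : k) := by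
  classical
  cases nonempty_fintype H
  have hr : ∀ c : ConjClasses H, ConjClasses.mk (Quotient.out c) = c := fun c => Quotient.out_eq c
  refine ⟨∑ c : ConjClasses H, nK (fun g => g ∈ K) (Quotient.out c), ?_, ?_⟩
  · rw [Nat.card_eq_fintype_card, Nat.card_eq_fintype_card, Fintype.card_subtype]
    exact card_comm_eq (fun g => g ∈ K) hK _ hr
  · rw [trace_center (setSum K hK) _ hr, Nat.cast_sum]
    refine Finset.sum_congr rfl fun c _ => ?_
    rw [nK, Finset.card_filter, Nat.cast_sum, Finset.sum_filter]
    refine Finset.sum_congr rfl fun b _ => ?_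
    rw [setSum_coeff, hr]
    by_cases h1 : ConjClasses.mk b = c
    · by_cases h2 : Quotient.out c * b⁻¹ ∈ K
      · rw [if_pos h1, Set.indicator_of_mem h2, if_pos ⟨h1, h2⟩]
        simp
      · rw [if_pos h1, Set.indicator_of_notMem h2, if_neg (fun h => h2 h.2)]
        simp
    · rw [if_neg h1, if_neg (fun h => h1 h.1)]
      simp

/-- The same with the quotient written out: if `#{(x,y) : [x,y] ∈ K} = |H| * r` then the trace
of the sum of `K` on the centre is `r`. -/
theorem trace_setSum_eq (K : Set H) (hK : ∀ g h : H, g ∈ K → h * g * h⁻¹ ∈ K) (r : ℕ)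
    (hr : Nat.card {q : H × H // ⁅q.1, q.2⁆ ∈ K} = Nat.card H * r) :
    Algebra.trace k (Subalgebra.center k (MonoidAlgebra k H)) (setSum K hK) = (r : k) := by
  obtain ⟨r', h1, h2⟩ := trace_setSum (k := k) K hK
  have : r' = r := by
    have hpos : 0 < Nat.card H := Nat.card_pos
    exact Nat.eq_of_mul_eq_mul_left hpos (h1.symm.trans hr)
  rw [h2, this]

theorem trZ_eq (z : Subalgebra.center k (MonoidAlgebra k H)) :
    LinearMap.trace k (Subalgebra.center k (MonoidAlgebra k H)) (LinearMap.mulLeft k z)
      = Algebra.trace k (Subalgebra.center k (MonoidAlgebra k H)) z := rfl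

end Main

section TrZ

variable {k G : Type} [Field k] [Group G] [Finite G]

/-- **Leaf C in the names of `DefW_995`.** -/
theorem trZ_setSum (K : Set G) (hK : ∀ g h : G, g ∈ K → h * g * h⁻¹ ∈ K) :
    ∃ r : ℕ, Nat.card {q : G × G // q.1 * q.2 * q.1⁻¹ * q.2⁻¹ ∈ K} = Nat.card G * r ∧
      trZ (setSum (k := k) K hK) = (r : k) :=
  trace_setSum (k := k) K hK

theorem trZ_setSum_eq (K : Set G) (hK : ∀ g h : G, g ∈ K → h * g * h⁻¹ ∈ K) (r : ℕ)
    (hr : Nat.card {q : G × G // q.1 * q.2 * q.1⁻¹ * q.2⁻¹ ∈ K} = Nat.card G * r) :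
    trZ (setSum (k := k) K hK) = (r : k) :=
  trace_setSum_eq (k := k) K hK r hr


end TrZ

end Crest.Agent.R170.C176
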