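import Mathlib
import Crest.Agent.R170.DefW_995

/-!
# Row 170: orbit sums over chains (helper700)
-/

set_option autoImplicit false
set_option linter.unusedSectionVars false
set_option linter.style.haveILetI false

namespace Crest.Agent.R170.ORB700

open Crest.Agent.R170

section action
variable {p : ℕ} {G : Type} [Group G]

/-- conjugation on subgroups -/
def cj (g : G) (Q : Subgroup G) : Subgroup G := Q.map (MulAut.conj g).toMonoidHom

theorem mem_cj {g x : G} {Q : Subgroup G} : x ∈ cj g Q ↔ g⁻¹ * x * g ∈ Q := by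
  constructor
  · rintro ⟨y, hy, rfl⟩
    have : g⁻¹ * ((MulAut.conj g).toMonoidHom y) * g = y := by
      simp [MulAut.conj_apply, mul_assoc]
    rw [this]; exact hy
  · intro h
    refine ⟨g⁻¹ * x * g, h, ?_⟩
    simp [MulAut.conj_apply, mul_assoc]

theorem cj_one (Q : Subgroup G) : cj 1 Q = Q := by
  ext x; simp [mem_cj]

theorem cj_mul (g h : G) (Q : Subgroup G) : cj (g * h) Q = cj g (cj h Q) := by
  ext x; simp [mem_cj, mul_assoc]

theorem cj_inv_cj (g : G) (Q : Subgroup G) : cj g⁻¹ (cj g Q) = Q := by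
  rw [← cj_mul, inv_mul_cancel, cj_one]

theorem cj_injective (g : G) : Function.Injective (cj (G := G) g) := by
  intro Q R h
  rw [← cj_inv_cj g Q, h, cj_inv_cj]

theorem cj_mono (g : G) : Monotone (cj (G := G) g) := by
  intro Q R h x hx
  rw [mem_cj] at hx ⊢
  exact h hx


theorem cj_bot (g : G) : cj g (⊥ : Subgroup G) = ⊥ := by
  simp [cj]

theorem cj_isPGroup {g : G} {Q : Subgroup G} (h : IsPGroup p Q) : IsPGroup p (cj g Q) :=
  h.map _

theorem cj_card (g : G) (Q : Subgroup G) : Nat.card (cj g Q) = Nat.card Q :=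
  Nat.card_congr (Q.equivMapOfInjective _ (MulAut.conj g).injective).toEquiv.symm

theorem cj_eq_iff {g : G} {Q : Subgroup G} :
    cj g Q = Q ↔ g ∈ Subgroup.normalizer (Q : Set G) :=
  (Subgroup.mem_normalizer_iff_map_conj_eq (H := Q) (g := g)).symm

/-- conjugation on subgroups, as an embedding -/
def cjE (g : G) : Subgroup G ↪ Subgroup G := ⟨cj g, cj_injective g⟩


instance : SMul G (Ch p G) where
  smul g σ := ⟨σ.1.map (cjE g), by
    constructor
    · intro Q hQ
      rw [Finset.mem_map] at hQ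
      obtain ⟨R, hR, rfl⟩ := hQ
      refine ⟨cj_isPGroup (σ.2.1 R hR).1, fun h => (σ.2.1 R hR).2 ?_⟩
      exact cj_injective g (h.trans (cj_bot g).symm)
    · intro Q hQ R hR _
      rw [Finset.coe_map] at hQ hR
      obtain ⟨Q', hQ', rfl⟩ := hQ
      obtain ⟨R', hR', rfl⟩ := hR
      rcases σ.2.2.total hQ' hR' with h | h
      · exact Or.inl (cj_mono g h)
      · exact Or.inr (cj_mono g h)⟩

theorem smul_val (g : G) (σ : Ch p G) : (g • σ).1 = σ.1.map (cjE g) := rfl

theorem mem_smul {g : G} {σ : Ch p G} {Q : Subgroup G} :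
    Q ∈ (g • σ).1 ↔ ∃ R ∈ σ.1, cj g R = Q := by
  rw [smul_val, Finset.mem_map]; rfl

instance : MulAction G (Ch p G) where
  one_smul σ := by
    apply Subtype.ext; ext Q
    rw [mem_smul]
    simp [cj_one]
  mul_smul g h σ := by
    apply Subtype.ext; ext Q
    rw [mem_smul, mem_smul]
    constructor
    · rintro ⟨R, hR, rfl⟩
      exact ⟨cj h R, mem_smul.2 ⟨R, hR, rfl⟩, (cj_mul g h R).symm⟩
    · rintro ⟨R, hR, rfl⟩
      obtain ⟨S, hS, rfl⟩ := mem_smul.1 hR
      exact ⟨S, hS, cj_mul g h S⟩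

theorem chRel_iff {σ τ : Ch p G} : chRel σ τ ↔ ∃ g : G, g • σ = τ := by
  constructor
  · rintro ⟨g, hg⟩
    refine ⟨g, Subtype.ext (Finset.coe_injective ?_)⟩
    rw [smul_val, Finset.coe_map, ← hg]; rfl
  · rintro ⟨g, rfl⟩
    refine ⟨g, ?_⟩
    rw [smul_val, Finset.coe_map]; rfl


theorem chRel_equivalence : Equivalence (chRel (p := p) (G := G)) where
  refl σ := chRel_iff.2 ⟨1, one_smul _ _⟩
  symm := by
    intro σ τ h
    obtain ⟨g, rfl⟩ := chRel_iff.1 h
    exact chRel_iff.2 ⟨g⁻¹, inv_smul_smul _ _⟩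
  trans := by
    intro σ τ υ h h'
    obtain ⟨g, rfl⟩ := chRel_iff.1 h
    obtain ⟨g', rfl⟩ := chRel_iff.1 h'
    exact chRel_iff.2 ⟨g' * g, mul_smul _ _ _⟩

theorem chRel_iff_orbit {σ τ : Ch p G} : chRel σ τ ↔ τ ∈ MulAction.orbit G σ := by
  rw [chRel_iff]; rfl

theorem mk_eq_iff {σ τ : Ch p G} :
    Quot.mk (chRel (p := p) (G := G)) σ = Quot.mk chRel τ ↔ chRel σ τ :=
  ⟨fun h => by
    have := Quot.eqvGen_exact h
    rwa [Equivalence.eqvGen_iff chRel_equivalence] at this, fun h => Quot.sound h⟩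

theorem chRel_out (σ : Ch p G) : chRel (Quot.mk chRel σ : Quot (chRel (p := p) (G := G))).out σ :=
  mk_eq_iff.1 (Quot.out_eq _)

theorem sgn_smul (g : G) (σ : Ch p G) : sgn (g • σ) = sgn σ := by
  rw [sgn, sgn, smul_val, Finset.card_map]

theorem sgn_congr {σ τ : Ch p G} (h : chRel σ τ) : sgn σ = sgn τ := by
  obtain ⟨g, rfl⟩ := chRel_iff.1 h
  exact (sgn_smul g σ).symm

theorem mem_st {σ : Ch p G} {g : G} : g ∈ st σ ↔ ∀ Q ∈ σ.1, cj g Q = Q := by
  rw [st]
  simp only [Subgroup.mem_iInf, cj_eq_iff]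

theorem st_smul (g : G) (σ : Ch p G) : st (g • σ) = cj g (st σ) := by
  ext x
  rw [mem_st, mem_cj, mem_st]
  constructor
  · intro h Q hQ
    have := h (cj g Q) (mem_smul.2 ⟨Q, hQ, rfl⟩)
    rw [← cj_mul] at this
    rw [cj_mul, cj_mul, ← cj_mul x g, this, cj_inv_cj]
  · intro h Q hQ
    obtain ⟨R, hR, rfl⟩ := mem_smul.1 hQ
    have := h R hR
    rw [← cj_mul]
    have h2 : x * g = g * (g⁻¹ * x * g) := by group
    rw [h2, cj_mul, this]


theorem cj_iSup {ι : Sort*} (g : G) (Q : ι → Subgroup G) : cj g (⨆ i, Q i) = ⨆ i, cj g (Q i) :=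
  Subgroup.map_iSup _ _

theorem top_smul (g : G) (σ : Ch p G) : top (g • σ) = cj g (top σ) := by
  rw [top, top, cj_iSup]
  apply le_antisymm
  · refine iSup₂_le fun Q hQ => ?_
    obtain ⟨R, hR, rfl⟩ := mem_smul.1 hQ
    refine le_trans ?_ (le_iSup _ R)
    rw [cj_iSup]
    exact le_iSup (fun _ : R ∈ σ.1 => cj g R) hR
  · refine iSup_le fun R => ?_
    rw [cj_iSup]
    refine iSup_le fun hR => ?_
    exact le_iSup₂_of_le (cj g R) (mem_smul.2 ⟨R, hR, rfl⟩) le_rfl

end action

section finite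
variable {p : ℕ} {G : Type} [Group G] [Finite G]

instance : Finite (Ch p G) := by
  unfold Ch
  infer_instance

theorem smul_eq_iff {g : G} {σ : Ch p G} : g • σ = σ ↔ g ∈ st σ := by
  rw [mem_st]
  constructor
  · intro h Q hQ
    have h1 : cj g Q ∈ σ.1 := by
      have : cj g Q ∈ (g • σ).1 := mem_smul.2 ⟨Q, hQ, rfl⟩
      rwa [h] at this
    rcases σ.2.2.total h1 hQ with h2 | h2
    · exact Subgroup.eq_of_le_of_card_ge h2 (le_of_eq (cj_card g Q).symm)
    · exact (Subgroup.eq_of_le_of_card_ge h2 (le_of_eq (cj_card g Q))).symm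
  · intro h
    apply Subtype.ext; ext Q
    rw [mem_smul]
    constructor
    · rintro ⟨R, hR, rfl⟩
      rw [h R hR]; exact hR
    · intro hQ
      exact ⟨Q, hQ, h Q hQ⟩

theorem stabilizer_eq (σ : Ch p G) : MulAction.stabilizer G σ = st σ := by
  ext g
  rw [MulAction.mem_stabilizer_iff, smul_eq_iff]

/-- the conjugacy class of a chain has `|G : st σ|` elements -/
theorem card_class_mul (σ : Ch p G) :
    Nat.card {τ : Ch p G // chRel σ τ} * Nat.card (st σ) = Nat.card G := by
  have h1 : Nat.card {τ : Ch p G // chRel σ τ} = Nat.card (MulAction.orbit G σ) :=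
    Nat.card_congr (Equiv.subtypeEquivRight fun τ => chRel_iff_orbit)
  rw [h1, ← stabilizer_eq]
  rw [Nat.card_congr (MulAction.orbitEquivQuotientStabilizer G σ)]
  exact (Subgroup.card_eq_card_quotient_mul_card_subgroup _).symm

theorem card_st_congr {σ τ : Ch p G} (h : chRel σ τ) : Nat.card (st σ) = Nat.card (st τ) := by
  obtain ⟨g, rfl⟩ := chRel_iff.1 h
  rw [st_smul, cj_card]

end finite

section sums
variable {p : ℕ} {G : Type} [Group G] [Finite G]

theorem finsum_eq_sum_classes {M : Type*} [AddCommMonoid M] (F : Ch p G → M) :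
    ∑ᶠ σ, F σ = ∑ᶠ q : Quot (chRel (p := p) (G := G)), ∑ᶠ τ : {τ : Ch p G // chRel q.out τ}, F τ := by
  classical
  haveI : Fintype (Ch p G) := Fintype.ofFinite _
  haveI : Fintype (Quot (chRel (p := p) (G := G))) := Fintype.ofFinite _
  rw [finsum_eq_sum_of_fintype, finsum_eq_sum_of_fintype,
    ← Finset.sum_fiberwise (s := Finset.univ) (g := fun σ : Ch p G => Quot.mk chRel σ)]
  refine Finset.sum_congr rfl fun q _ => ?_
  haveI : Fintype {τ : Ch p G // chRel q.out τ} := Fintype.ofFinite _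
  rw [finsum_eq_sum_of_fintype]
  symm
  refine Finset.sum_bij (fun τ _ => τ.1) ?_ ?_ ?_ ?_
  · intro τ _
    rw [Finset.mem_filter]
    refine ⟨Finset.mem_univ _, ?_⟩
    rw [← Quot.sound τ.2, Quot.out_eq]
  · intro a _ b _ h
    exact Subtype.ext h
  · intro τ hτ
    rw [Finset.mem_filter] at hτ
    refine ⟨⟨τ, ?_⟩, Finset.mem_univ _, rfl⟩
    have := chRel_out τ
    rwa [hτ.2] at this
  · intro τ _
    rfl

/-- **the orbit sum, times `|G|`, is the weighted sum over all chains** -/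
theorem card_mul_altSum (f : Ch p G → ℤ) (hf : ∀ σ τ, chRel σ τ → f σ = f τ) :
    (Nat.card G : ℤ) * altSum f = ∑ᶠ σ : Ch p G, sgn σ * ((Nat.card (st σ) : ℤ) * f σ) := by
  classical
  rw [finsum_eq_sum_classes, altSum]
  haveI : Fintype (Quot (chRel (p := p) (G := G))) := Fintype.ofFinite _
  rw [finsum_eq_sum_of_fintype, finsum_eq_sum_of_fintype, Finset.mul_sum]
  refine Finset.sum_congr rfl fun q _ => ?_
  haveI : Fintype {τ : Ch p G // chRel q.out τ} := Fintype.ofFinite _
  rw [finsum_eq_sum_of_fintype]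
  have h1 : ∀ τ : {τ : Ch p G // chRel q.out τ},
      sgn τ.1 * ((Nat.card (st τ.1) : ℤ) * f τ.1) =
        sgn q.out * ((Nat.card (st q.out) : ℤ) * f q.out) := by
    intro τ
    rw [← sgn_congr τ.2, ← card_st_congr τ.2, ← hf _ _ τ.2]
  rw [Finset.sum_congr rfl fun τ _ => h1 τ, Finset.sum_const, Finset.card_univ,
    ← Nat.card_eq_fintype_card, nsmul_eq_mul, ← card_class_mul q.out]
  push_cast
  ring



theorem altSum_sub (f g : Ch p G → ℤ) : altSum (fun σ => f σ - g σ) = altSum f - altSum g := by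
  unfold altSum
  rw [← finsum_sub_distrib (Set.toFinite _) (Set.toFinite _)]
  exact finsum_congr fun q => mul_sub _ _ _




/-- **`altSumK` of integers is the cast of `altSum`** -/
theorem altSumK_cast {k : Type} [Field k] (f : Ch p G → ℤ) :
    altSumK (fun σ => ((f σ : ℤ) : k)) = ((altSum f : ℤ) : k) := by
  classical
  unfold altSumK altSum
  haveI : Fintype (Quot (chRel (p := p) (G := G))) := Fintype.ofFinite _
  rw [finsum_eq_sum_of_fintype, finsum_eq_sum_of_fintype, Int.cast_sum]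
  exact Finset.sum_congr rfl fun q _ => by rw [Int.cast_mul]

theorem altSumK_congr {k : Type} [Field k] {f g : Ch p G → k} (h : ∀ σ, f σ = g σ) :
    altSumK f = altSumK g := by
  rw [funext h]

theorem altSumK_add {k : Type} [Field k] (f g : Ch p G → k) :
    altSumK (fun σ => f σ + g σ) = altSumK f + altSumK g := by
  unfold altSumK
  rw [← finsum_add_distrib (Set.toFinite _) (Set.toFinite _)]
  exact finsum_congr fun q => mul_add _ _ _

theorem altSumK_mul_left {k : Type} [Field k] (c : k) (f : Ch p G → k) :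
    altSumK (fun σ => c * f σ) = c * altSumK f := by
  unfold altSumK
  rw [mul_finsum]
  exact finsum_congr fun q => mul_left_comm _ _ _

theorem altSumK_sum {k : Type} [Field k] {ι : Type*} (s : Finset ι) (f : ι → Ch p G → k) :
    altSumK (fun σ => ∑ i ∈ s, f i σ) = ∑ i ∈ s, altSumK (f i) := by
  classical
  induction s using Finset.induction_on with
  | empty => simp [altSumK]
  | insert a s ha ih =>
    rw [Finset.sum_insert ha, ← ih, ← altSumK_add]
    exact altSumK_congr fun σ => Finset.sum_insert ha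


end sums

end Crest.Agent.R170.ORB700
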