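import Mathlib
import Crest.Agent.R170.DefW_995
import Crest.Agent.R170.Stm_995

-- ▼ part R170/Toggle_262
section

/-!
Row 170 (swarm A): chains of nontrivial `p`-subgroups, the toggle involution.

* `PChain p C`: `C : Finset (Subgroup G)` is a chain of nontrivial `p`-subgroups.
* `st C`: the common normaliser of the members of `C`.
* `chains p`: the finset of all `p`-chains of `G`.
* `toggle U C`: `M` = largest member of `C` not containing `U` (or `⊥`), toggle `M ⊔ U`.
* `sum_toggle`: `∑_{C ∈ chains, U ≤ st C} (-1)^|C| f C = 0` for `f` invariant under `toggle U`.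
* `s_eq_zero`: `∑_{C ∈ chains, A ≤ st C} (-1)^|C| = 0` if `A` has a nontrivial normal `p`-subgroup.
-/

set_option autoImplicit false
open scoped BigOperators Classical

namespace Crest.Agent.R170.Toggle262

section Defs
variable {G : Type*} [Group G]

/-- chain of nontrivial `p`-subgroups (the empty chain is allowed) -/
def PChain (p : ℕ) (C : Finset (Subgroup G)) : Prop :=
  (∀ P ∈ C, P ≠ ⊥ ∧ IsPGroup p P) ∧ IsChain (· ≤ ·) (C : Set (Subgroup G))

/-- stabiliser of the chain: the common normaliser of its members -/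
def st (C : Finset (Subgroup G)) : Subgroup G := ⨅ P ∈ C, Subgroup.normalizer (P : Set G)

theorem le_st {C : Finset (Subgroup G)} {A : Subgroup G} :
    A ≤ st C ↔ ∀ P ∈ C, A ≤ Subgroup.normalizer (P : Set G) := by
  unfold st
  exact le_iInf₂_iff

theorem mem_st {C : Finset (Subgroup G)} {g : G} :
    g ∈ st C ↔ ∀ P ∈ C, g ∈ Subgroup.normalizer (P : Set G) := by
  unfold st
  simp only [Subgroup.mem_iInf]

theorem st_empty : st (∅ : Finset (Subgroup G)) = ⊤ := by
  unfold st; simp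

/-- largest member of `C` not containing `U`, or `⊥` -/
noncomputable def low (U : Subgroup G) (C : Finset (Subgroup G)) : Subgroup G :=
  (C.filter (fun P => ¬ U ≤ P)).sup id

/-- toggle `low U C ⊔ U` in `C` -/
noncomputable def toggle (U : Subgroup G) (C : Finset (Subgroup G)) : Finset (Subgroup G) :=
  if low U C ⊔ U ∈ C then C.erase (low U C ⊔ U) else insert (low U C ⊔ U) C

theorem low_mem {U : Subgroup G} {C : Finset (Subgroup G)}
    (hC : IsChain (· ≤ ·) (C : Set (Subgroup G))) :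
    low U C = ⊥ ∨ (low U C ∈ C ∧ ¬ U ≤ low U C) := by
  unfold low
  rcases (C.filter (fun P => ¬ U ≤ P)).eq_empty_or_nonempty with h | h
  · left; rw [h]; simp
  · right
    have hdir : ∀ s : Finset (Subgroup G), s.Nonempty → IsChain (· ≤ ·) (s : Set (Subgroup G)) →
        s.sup id ∈ s := by
      intro s hs
      induction hs using Finset.Nonempty.cons_induction with
      | singleton a => intro _; simp
      | cons a s ha hs ih =>
        intro hch
        rw [Finset.sup_cons]
        have h1 := ih (hch.mono (by intro x hx; simp at hx ⊢; exact Or.inr hx))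
        have h2 : a ≤ s.sup id ∨ s.sup id ≤ a := by
          by_cases hh : a = s.sup id
          · left; exact hh.le
          · exact hch (by simp) (by simp; right; exact h1) hh
        rcases h2 with h2 | h2
        · rw [id, sup_eq_right.2 h2]; exact Finset.mem_cons_of_mem h1
        · rw [id, sup_eq_left.2 h2]; exact Finset.mem_cons_self a s
    have h3 := hdir _ h (hC.mono (by intro x hx; simp at hx ⊢; exact hx.1))
    rw [Finset.mem_filter] at h3
    exact h3

theorem le_low {U : Subgroup G} {C : Finset (Subgroup G)} {P : Subgroup G} (hP : P ∈ C)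
    (h : ¬ U ≤ P) : P ≤ low U C := by
  unfold low
  exact Finset.le_sup (f := id) (Finset.mem_filter.2 ⟨hP, h⟩)

theorem filter_toggle (U : Subgroup G) (C : Finset (Subgroup G)) :
    (toggle U C).filter (fun P => ¬ U ≤ P) = C.filter (fun P => ¬ U ≤ P) := by
  unfold toggle
  have hU : U ≤ low U C ⊔ U := le_sup_right
  split_ifs with h
  · ext P
    simp only [Finset.mem_filter, Finset.mem_erase]
    constructor
    · rintro ⟨⟨_, h1⟩, h2⟩; exact ⟨h1, h2⟩
    · rintro ⟨h1, h2⟩; exact ⟨⟨fun h3 => h2 (h3 ▸ hU), h1⟩, h2⟩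
  · ext P
    simp only [Finset.mem_filter, Finset.mem_insert]
    constructor
    · rintro ⟨h1 | h1, h2⟩
      · exact absurd (h1 ▸ hU) h2
      · exact ⟨h1, h2⟩
    · rintro ⟨h1, h2⟩; exact ⟨Or.inr h1, h2⟩

theorem low_toggle (U : Subgroup G) (C : Finset (Subgroup G)) : low U (toggle U C) = low U C := by
  unfold low
  rw [filter_toggle]

theorem toggle_toggle (U : Subgroup G) (C : Finset (Subgroup G)) :
    toggle U (toggle U C) = C := by
  have e : toggle U (toggle U C) = if low U (toggle U C) ⊔ U ∈ toggle U C then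
      (toggle U C).erase (low U (toggle U C) ⊔ U)
      else insert (low U (toggle U C) ⊔ U) (toggle U C) := rfl
  rw [e, low_toggle]
  by_cases h : low U C ⊔ U ∈ C
  · have h1 : toggle U C = C.erase (low U C ⊔ U) := by unfold toggle; rw [if_pos h]
    rw [h1, if_neg (by simp)]
    exact Finset.insert_erase h
  · have h1 : toggle U C = insert (low U C ⊔ U) C := by unfold toggle; rw [if_neg h]
    rw [h1, if_pos (by simp)]
    exact Finset.erase_insert h

theorem toggle_ne (U : Subgroup G) (C : Finset (Subgroup G)) : toggle U C ≠ C := by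
  intro h
  unfold toggle at h
  split_ifs at h with h1
  · have : low U C ⊔ U ∈ C.erase (low U C ⊔ U) := by rw [h]; exact h1
    simp at this
  · apply h1
    rw [← h]
    conv_rhs => rw [h]
    rw [← h]; simp

theorem neg_one_pow_toggle {R : Type*} [Ring R] (U : Subgroup G) (C : Finset (Subgroup G)) :
    (-1 : R) ^ (toggle U C).card = - (-1 : R) ^ C.card := by
  by_cases h : low U C ⊔ U ∈ C
  · have h1 : toggle U C = C.erase (low U C ⊔ U) := by unfold toggle; rw [if_pos h]
    have h2 : C.card = (toggle U C).card + 1 := by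
      rw [h1, Finset.card_erase_add_one h]
    rw [h2, pow_succ]; simp
  · have h1 : toggle U C = insert (low U C ⊔ U) C := by unfold toggle; rw [if_neg h]
    rw [h1, Finset.card_insert_of_notMem h, pow_succ]; simp

theorem mem_toggle {U : Subgroup G} {C : Finset (Subgroup G)} {P : Subgroup G}
    (h : P ∈ toggle U C) : P = low U C ⊔ U ∨ P ∈ C := by
  unfold toggle at h
  split_ifs at h with h1
  · right; exact Finset.mem_of_mem_erase h
  · exact Finset.mem_insert.1 h

/-- `A` normalises `low U C` if it normalises the chain -/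
theorem le_normalizer_low {U A : Subgroup G} {C : Finset (Subgroup G)}
    (hC : IsChain (· ≤ ·) (C : Set (Subgroup G))) (hA : A ≤ st C) :
    A ≤ Subgroup.normalizer (low U C : Set G) := by
  rcases low_mem (U := U) hC with h | h
  · rw [h, Subgroup.normalizer_eq_top]; exact le_top
  · exact le_st.1 hA _ h.1

theorem le_st_toggle {U A : Subgroup G} {C : Finset (Subgroup G)}
    (hC : IsChain (· ≤ ·) (C : Set (Subgroup G))) (hAU : A ≤ Subgroup.normalizer (U : Set G))
    (hA : A ≤ st C) : A ≤ st (toggle U C) := by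
  rw [le_st]
  intro P hP
  rcases mem_toggle hP with rfl | h
  · exact (le_inf (le_normalizer_low hC hA) hAU).trans
      (Subgroup.normalizer_inf_normalizer_le_normalizer_sup _ _)
  · exact le_st.1 hA _ h

theorem pchain_toggle {p : ℕ} {U : Subgroup G} {C : Finset (Subgroup G)} (hU : U ≠ ⊥)
    (hUp : IsPGroup p U) (hC : PChain p C) (hUC : U ≤ st C) : PChain p (toggle U C) := by
  have hR : low U C ⊔ U ≠ ⊥ ∧ IsPGroup p (low U C ⊔ U : Subgroup G) := by
    constructor
    · intro h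
      apply hU
      rw [eq_bot_iff, ← h]; exact le_sup_right
    · have h1 : IsPGroup p (low U C) := by
        rcases low_mem (U := U) hC.2 with h | h
        · rw [h]; exact IsPGroup.of_bot
        · exact (hC.1 _ h.1).2
      exact h1.to_sup_of_normal_left' hUp (le_normalizer_low hC.2 hUC)
  constructor
  · intro P hP
    rcases mem_toggle hP with rfl | h
    · exact hR
    · exact hC.1 _ h
  · have key : ∀ P ∈ C, P ≤ low U C ⊔ U ∨ low U C ⊔ U ≤ P := by
      intro P hP
      by_cases h : U ≤ P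
      · right
        refine sup_le ?_ h
        rcases low_mem (U := U) hC.2 with h1 | h1
        · rw [h1]; exact bot_le
        · by_cases h2 : low U C = P
          · exact h2.le
          · rcases hC.2 h1.1 hP h2 with h3 | h3
            · exact h3
            · exact absurd (h.trans h3) h1.2
      · left
        exact (le_low hP h).trans le_sup_left
    intro P hP Q hQ hPQ
    have hP' := mem_toggle (Finset.mem_coe.1 hP)
    have hQ' := mem_toggle (Finset.mem_coe.1 hQ)
    rcases hP' with rfl | hP'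
    · rcases hQ' with rfl | hQ'
      · exact absurd rfl hPQ
      · exact (key Q hQ').symm
    · rcases hQ' with rfl | hQ'
      · exact key P hP'
      · exact hC.2 hP' hQ' hPQ

end Defs

section Sums
variable {G : Type*} [Group G] [Finite G]

variable (G) in
/-- the finset of `p`-chains -/
noncomputable def chains (p : ℕ) : Finset (Finset (Subgroup G)) :=
  (Set.toFinite {C : Finset (Subgroup G) | PChain p C}).toFinset

theorem mem_chains {p : ℕ} {C : Finset (Subgroup G)} : C ∈ chains G p ↔ PChain p C := by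
  unfold chains; simp

/-- **The toggle lemma.** -/
theorem sum_toggle {R : Type*} [Ring R] {p : ℕ} {U : Subgroup G} (hU : U ≠ ⊥)
    (hUp : IsPGroup p U) (f : Finset (Subgroup G) → R)
    (hf : ∀ C, PChain p C → U ≤ st C → f (toggle U C) = f C) :
    ∑ C ∈ (chains G p).filter (fun C => U ≤ st C), (-1 : R) ^ C.card * f C = 0 := by
  refine Finset.sum_involution (fun C _ => toggle U C) ?_ ?_ ?_ ?_
  · intro C hC
    rw [Finset.mem_filter, mem_chains] at hC
    rw [neg_one_pow_toggle, hf C hC.1 hC.2]; simp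
  · intro C _ _
    exact toggle_ne U C
  · intro C hC
    rw [Finset.mem_filter, mem_chains] at hC ⊢
    exact ⟨pchain_toggle hU hUp hC.1 hC.2, le_st_toggle hC.1.2 Subgroup.le_normalizer hC.2⟩
  · intro C _
    exact toggle_toggle U C

/-- alternating number of chains normalised by `A` -/
noncomputable def s (p : ℕ) (A : Subgroup G) : ℤ :=
  ∑ C ∈ (chains G p).filter (fun C => A ≤ st C), (-1 : ℤ) ^ C.card

theorem s_eq_zero {p : ℕ} {A U : Subgroup G} (hU : U ≠ ⊥) (hUp : IsPGroup p U) (hUA : U ≤ A)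
    (hAU : A ≤ Subgroup.normalizer (U : Set G)) : s p A = 0 := by
  have h := sum_toggle (R := ℤ) (p := p) hU hUp (fun C => if A ≤ st C then 1 else 0) (by
    intro C hC hUC
    have h1 : A ≤ st (toggle U C) ↔ A ≤ st C := by
      constructor
      · intro h
        have h2 := pchain_toggle hU hUp hC hUC
        have h3 := le_st_toggle (U := U) h2.2 hAU h
        rwa [toggle_toggle] at h3
      · exact le_st_toggle hC.2 hAU
    simp only [h1])
  unfold s
  rw [← h]
  rw [Finset.sum_filter, Finset.sum_filter]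
  refine Finset.sum_congr rfl ?_
  intro C _
  by_cases h1 : A ≤ st C
  · rw [if_pos h1, if_pos (hUA.trans h1), if_pos h1]; simp
  · rw [if_neg h1]; simp [h1]

end Sums

end Crest.Agent.R170.Toggle262
end

-- ▼ part R170/S4_262
section

/-!
Row 170 (swarm A), leaf S4: `WCc p` gives the alternating trace identity (integer form).
-/

set_option autoImplicit false
open scoped BigOperators Classical

namespace Crest.Agent.R170.S4262

open Crest.Agent.R170

section Orbit

/-- number of solutions, as an integer -/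
noncomputable def cnt {α : Type*} (P : α → Prop) : ℤ := (Nat.card {w : α // P w} : ℤ)

/-- indicator -/
noncomputable def ind (P : Prop) : ℤ := if P then 1 else 0

theorem ind_congr {P Q : Prop} (h : P ↔ Q) : ind P = ind Q := by rw [propext h]

theorem ind_true {P : Prop} (h : P) : ind P = 1 := by unfold ind; rw [if_pos h]

theorem ind_false {P : Prop} (h : ¬ P) : ind P = 0 := by unfold ind; rw [if_neg h]

theorem cnt_eq {α : Type*} [Fintype α] (P : α → Prop) :
    cnt P = ∑ w, ind (P w) := by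
  unfold cnt ind
  rw [Nat.card_eq_fintype_card, Fintype.card_subtype]
  rw [Finset.sum_boole]

theorem cnt_congr {α β : Type*} (e : α ≃ β) (P : α → Prop) (Q : β → Prop)
    (h : ∀ a, P a ↔ Q (e a)) : cnt P = cnt Q := by
  unfold cnt
  congr 1
  exact Nat.card_congr (e.subtypeEquiv h)

/-- orbit lemma -/
theorem orbit_dvd {Γ X : Type*} [Group Γ] [Finite Γ] [MulAction Γ X] [Fintype X] (π : ℕ → ℕ)
    (hπ : ∀ a b, a ≠ 0 → b ≠ 0 → π (a * b) ∣ a * π b)
    (m : ℕ) (f : X → ℤ) (hf : ∀ (g : Γ) x, f (g • x) = f x)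
    (hd : ∀ x, ((m * π (Nat.card (MulAction.stabilizer Γ x)) : ℕ) : ℤ) ∣ f x) :
    ((m * π (Nat.card Γ) : ℕ) : ℤ) ∣ ∑ x, f x := by
  have := Fintype.ofFinite Γ
  rw [← Finset.sum_fiberwise (Finset.univ : Finset X)
    (fun x => (Quotient.mk (MulAction.orbitRel Γ X) x)) f]
  refine Finset.dvd_sum ?_
  intro ω _
  obtain ⟨x0, rfl⟩ := Quotient.exists_rep ω
  have h1 : ∀ x ∈ (Finset.univ : Finset X).filter (fun x =>
      (Quotient.mk (MulAction.orbitRel Γ X) x) = Quotient.mk (MulAction.orbitRel Γ X) x0),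
      f x = f x0 := by
    intro x hx
    rw [Finset.mem_filter] at hx
    have h2 := Quotient.exact hx.2
    obtain ⟨g, hg⟩ := (MulAction.orbitRel_apply.1 h2)
    simp only at hg
    rw [← hg, hf]
  rw [Finset.sum_congr rfl h1, Finset.sum_const, nsmul_eq_mul]
  have h3 : ((Finset.univ : Finset X).filter (fun x =>
      (Quotient.mk (MulAction.orbitRel Γ X) x) = Quotient.mk (MulAction.orbitRel Γ X) x0)).card
      = Nat.card (MulAction.orbit Γ x0) := by
    rw [Nat.card_eq_fintype_card, ← Set.toFinset_card]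
    congr 1
    ext x
    simp only [Finset.mem_filter, Finset.mem_univ, true_and, Set.mem_toFinset]
    rw [Quotient.eq]
    exact MulAction.orbitRel_apply
  rw [h3]
  have h4 : Nat.card Γ = Nat.card (MulAction.orbit Γ x0) *
      Nat.card (MulAction.stabilizer Γ x0) := by
    rw [Nat.card_eq_fintype_card, Nat.card_eq_fintype_card, Nat.card_eq_fintype_card]
    exact (MulAction.card_orbit_mul_card_stabilizer_eq_card_group Γ x0).symm
  have h5 : Nat.card (MulAction.orbit Γ x0) ≠ 0 := by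
    intro h; rw [h, zero_mul] at h4; exact Nat.card_pos.ne' h4
  have h6 : Nat.card (MulAction.stabilizer Γ x0) ≠ 0 := Nat.card_pos.ne'
  have h7 : π (Nat.card Γ) ∣ Nat.card (MulAction.orbit Γ x0) *
      π (Nat.card (MulAction.stabilizer Γ x0)) := by rw [h4]; exact hπ _ _ h5 h6
  have h8 : ((m * π (Nat.card Γ) : ℕ) : ℤ) ∣
      (Nat.card (MulAction.orbit Γ x0) : ℤ) *
        ((m * π (Nat.card (MulAction.stabilizer Γ x0)) : ℕ) : ℤ) := by
    rw [← Nat.cast_mul]
    apply Int.natCast_dvd_natCast.2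
    have := Nat.mul_dvd_mul_left m h7
    refine this.trans (dvd_of_eq ?_)
    ring
  exact h8.trans (mul_dvd_mul_left _ (hd x0))

theorem pPart_mul_dvd (p : ℕ) [Fact p.Prime] (a b : ℕ) (ha : a ≠ 0) (hb : b ≠ 0) :
    pPart p (a * b) ∣ a * pPart p b := by
  unfold pPart
  rw [padicValNat.mul ha hb, pow_add]
  exact Nat.mul_dvd_mul_right pow_padicValNat_dvd _

theorem pPart_dvd (p a : ℕ) : pPart p a ∣ a := by
  unfold pPart; exact pow_padicValNat_dvd

end Orbit

section Conj
variable {H : Type*} [Group H]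

theorem card_stab_conj (x : H) : Nat.card (MulAction.stabilizer (ConjAct H) x) =
    Nat.card (Subgroup.centralizer ({x} : Set H)) := by
  refine Nat.card_congr ?_
  refine ⟨fun g => ⟨ConjAct.ofConjAct g.1, ?_⟩, fun g => ⟨ConjAct.toConjAct g.1, ?_⟩,
    fun _ => rfl, fun _ => rfl⟩
  · have h := g.2
    rw [MulAction.mem_stabilizer_iff, ConjAct.smul_def] at h
    rw [Subgroup.mem_centralizer_singleton_iff]
    exact mul_inv_eq_iff_eq_mul.1 h
  · have h := g.2
    rw [Subgroup.mem_centralizer_singleton_iff] at h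
    rw [MulAction.mem_stabilizer_iff, ConjAct.smul_def]
    exact mul_inv_eq_iff_eq_mul.2 h

/-- conjugation version of the orbit lemma -/
theorem conj_dvd [Fintype H] (π : ℕ → ℕ) (hπ : ∀ a b, a ≠ 0 → b ≠ 0 → π (a * b) ∣ a * π b)
    (m : ℕ) (f : H → ℤ) (hf : ∀ g x, f (g * x * g⁻¹) = f x)
    (hd : ∀ x, ((m * π (Nat.card (Subgroup.centralizer ({x} : Set H))) : ℕ) : ℤ) ∣ f x) :
    ((m * π (Nat.card H) : ℕ) : ℤ) ∣ ∑ x, f x := by
  have h := orbit_dvd (Γ := ConjAct H) (X := H) π hπ m f (by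
    intro g x; rw [ConjAct.smul_def]; exact hf _ _) (by
    intro x; rw [card_stab_conj]; exact hd x)
  have h2 : Nat.card (ConjAct H) = Nat.card H := Nat.card_congr ConjAct.ofConjAct.toEquiv
  rwa [h2] at h

/-- `|H|` divides the sum of a class function over all commutators -/
theorem card_dvd_comm [Fintype H] (n : H → ℤ) (hn : ∀ g x, n (g * x * g⁻¹) = n x) :
    (Nat.card H : ℤ) ∣ ∑ x : H, ∑ y : H, n (x * y * x⁻¹ * y⁻¹) := by
  have h := conj_dvd (H := H) id (fun a b _ _ => dvd_rfl) 1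
    (fun x => ∑ y : H, n (x * y * x⁻¹ * y⁻¹)) (by
      intro g x
      refine Fintype.sum_equiv (MulAut.conj g⁻¹).toEquiv _ _ ?_
      intro y
      rw [← hn g⁻¹]
      congr 1
      simp only [MulEquiv.toEquiv_eq_coe, EquivLike.coe_coe, MulAut.conj_apply, inv_inv]
      group) (by
      intro x
      have h3 := orbit_dvd (Γ := Subgroup.centralizer ({x} : Set H)) (X := H) (π := id)
        (fun a b _ _ => dvd_rfl) 1 (fun y => n (x * y⁻¹ * x⁻¹ * y)) (by
          intro g y
          have hg := Subgroup.mem_centralizer_singleton_iff.1 g.2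
          congr 1
          show x * ((g : H) * y)⁻¹ * x⁻¹ * ((g : H) * y) = x * y⁻¹ * x⁻¹ * y
          have hg2 : (g : H)⁻¹ * x⁻¹ * g = x⁻¹ := by
            rw [mul_assoc, inv_mul_eq_iff_eq_mul]
            have := congrArg (fun t => x⁻¹ * t * x⁻¹) hg
            have h9 : x⁻¹ * ((g : H) * x) * x⁻¹ = x⁻¹ * g := by group
            have h10 : x⁻¹ * (x * (g : H)) * x⁻¹ = g * x⁻¹ := by group
            rw [h9, h10] at this
            exact this
          calc x * ((g : H) * y)⁻¹ * x⁻¹ * ((g : H) * y)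
              = x * y⁻¹ * ((g : H)⁻¹ * x⁻¹ * g) * y := by group
            _ = _ := by rw [hg2]) (by
          intro y
          have : MulAction.stabilizer (Subgroup.centralizer ({x} : Set H)) y = ⊥ := by
            rw [eq_bot_iff]
            intro g hg
            rw [MulAction.mem_stabilizer_iff] at hg
            rw [Subgroup.mem_bot]
            have : (g : H) * y = y := hg
            have h4 : (g : H) = 1 := mul_eq_right.1 this
            exact Subtype.ext h4
          rw [this]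
          simp)
      have h4 : ∑ y : H, n (x * y⁻¹ * x⁻¹ * y) = ∑ y : H, n (x * y * x⁻¹ * y⁻¹) := by
        refine Fintype.sum_equiv (Equiv.inv H) _ _ ?_
        intro y; simp
      rw [h4] at h3
      exact h3)
  simpa using h

/-- sum over a group of a function on the quotient -/
theorem sum_quot [Fintype H] (N : Subgroup H) [N.Normal] [Fintype (H ⧸ N)] (F : H ⧸ N → ℤ) :
    ∑ x : H, F (QuotientGroup.mk x) = (Nat.card N : ℤ) * ∑ q, F q := by
  have := Fintype.ofFinite N
  rw [Fintype.sum_equiv (Subgroup.groupEquivQuotientProdSubgroup (s := N)) _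
    (fun t => F t.1) (by intro x; rfl)]
  rw [Fintype.sum_prod_type]
  simp only [Finset.sum_const, nsmul_eq_mul]
  rw [Finset.mul_sum]
  refine Finset.sum_congr rfl ?_
  intro q _
  rw [Nat.card_eq_fintype_card]; rfl

end Conj

section Conj2
variable {H : Type} [Group H]

/-- `p`-element modulo a normal `p`-subgroup -/
theorem isPElt_mk {p : ℕ} (N : Subgroup H) [N.Normal] (hN : IsPGroup p N) (g : H) :
    IsPElt p (QuotientGroup.mk g : H ⧸ N) ↔ IsPElt p g := by
  constructor
  · rintro ⟨n, hn⟩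
    rw [← QuotientGroup.mk_pow, QuotientGroup.eq_one_iff] at hn
    obtain ⟨m, hm⟩ := hN ⟨_, hn⟩
    refine ⟨n + m, ?_⟩
    rw [pow_add, pow_mul]
    exact congrArg Subtype.val hm
  · rintro ⟨n, hn⟩
    refine ⟨n, ?_⟩
    rw [← QuotientGroup.mk_pow, hn]; rfl

theorem pelt_conj {p : ℕ} {g : H} (h : IsPElt p g) (x : H) : IsPElt p (x * g * x⁻¹) := by
  obtain ⟨n, hn⟩ := h
  refine ⟨n, ?_⟩
  rw [conj_pow, hn]; simp

theorem isPElt_conj {p : ℕ} (g x : H) : IsPElt p (x * g * x⁻¹) ↔ IsPElt p g := by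
  constructor
  · intro h
    have := pelt_conj h x⁻¹
    have e : x⁻¹ * (x * g * x⁻¹) * x⁻¹⁻¹ = g := by group
    rwa [e] at this
  · intro h; exact pelt_conj h x

/-- J2 in integer form: a normal `p`-subgroup `N` gives the factor `|N| |H|` -/
theorem J2_int [Fintype H] {p : ℕ} (N : Subgroup H) [N.Normal] (hN : IsPGroup p N)
    (S : H → Prop) (hS : ∀ g x, S (g * x * g⁻¹) ↔ S x) :
    ((Nat.card N : ℤ) * Nat.card H) ∣
      cnt (fun w : H × H × H => S w.2.2 ∧
        IsPElt p (w.2.2⁻¹ * (w.1 * w.2.1 * w.1⁻¹ * w.2.1⁻¹))) := by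
  have := Fintype.ofFinite (H ⧸ N)
  have hcard : (Nat.card H : ℤ) = Nat.card (H ⧸ N) * Nat.card N := by
    rw [Subgroup.card_eq_card_quotient_mul_card_subgroup N]; push_cast; ring
  -- class function on the quotient
  let n : H ⧸ N → ℤ := fun q =>
    ∑ h : H, ind (S h ∧ IsPElt p ((QuotientGroup.mk h : H ⧸ N)⁻¹ * q))
  have hn : ∀ g x, n (g * x * g⁻¹) = n x := by
    intro g x
    obtain ⟨g, rfl⟩ := QuotientGroup.mk_surjective g
    obtain ⟨x, rfl⟩ := QuotientGroup.mk_surjective x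
    refine Fintype.sum_equiv (MulAut.conj g⁻¹).toEquiv _ _ ?_
    intro h
    have e1 : S h ↔ S ((MulAut.conj g⁻¹) h) := by
      rw [MulAut.conj_apply, hS]
    have e2 : IsPElt p ((QuotientGroup.mk h : H ⧸ N)⁻¹ *
          ((QuotientGroup.mk g : H ⧸ N) * QuotientGroup.mk x * (QuotientGroup.mk g)⁻¹)) ↔
        IsPElt p ((QuotientGroup.mk ((MulAut.conj g⁻¹) h) : H ⧸ N)⁻¹ * QuotientGroup.mk x) := by
      rw [← isPElt_conj _ (QuotientGroup.mk g : H ⧸ N)⁻¹]
      have : (QuotientGroup.mk g : H ⧸ N)⁻¹ * ((QuotientGroup.mk h : H ⧸ N)⁻¹ *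
          ((QuotientGroup.mk g : H ⧸ N) * QuotientGroup.mk x * (QuotientGroup.mk g)⁻¹)) *
            (QuotientGroup.mk g : H ⧸ N)⁻¹⁻¹ =
          (QuotientGroup.mk ((MulAut.conj g⁻¹) h) : H ⧸ N)⁻¹ * QuotientGroup.mk x := by
        rw [MulAut.conj_apply]
        simp only [QuotientGroup.mk_mul, QuotientGroup.mk_inv]
        group
      rw [this]
    simp only [MulEquiv.toEquiv_eq_coe, EquivLike.coe_coe]
    exact ind_congr (and_congr e1 e2)
  have h1 := card_dvd_comm (H := H ⧸ N) n hn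
  have h2 : cnt (fun w : H × H × H => S w.2.2 ∧
        IsPElt p (w.2.2⁻¹ * (w.1 * w.2.1 * w.1⁻¹ * w.2.1⁻¹))) =
      (Nat.card N : ℤ) * ((Nat.card N : ℤ) *
        ∑ x : H ⧸ N, ∑ y : H ⧸ N, n (x * y * x⁻¹ * y⁻¹)) := by
    rw [cnt_eq, Fintype.sum_prod_type]
    rw [Finset.mul_sum]
    rw [← sum_quot N (fun x => (Nat.card N : ℤ) * ∑ y : H ⧸ N, n (x * y * x⁻¹ * y⁻¹))]
    refine Finset.sum_congr rfl ?_
    intro x _
    rw [Fintype.sum_prod_type]
    rw [← sum_quot N (fun y => n (QuotientGroup.mk x * y * (QuotientGroup.mk x)⁻¹ * y⁻¹))]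
    refine Finset.sum_congr rfl ?_
    intro y _
    refine Finset.sum_congr rfl ?_
    intro h _
    exact ind_congr (and_congr Iff.rfl (isPElt_mk N hN (h⁻¹ * (x * y * x⁻¹ * y⁻¹))).symm)
  rw [h2, hcard]
  obtain ⟨r, hr⟩ := h1
  rw [hr]
  exact ⟨r, by ring⟩

end Conj2

section Local
variable {H : Type} [Group H]

theorem inOp_map {p : ℕ} {G' : Type} [Group G'] (φ : H →* G') (hφ : Function.Injective φ)
    (A : Subgroup H) (g : H) : InOp p (A.map φ) (φ g) ↔ InOp p A g := by
  constructor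
  · rintro ⟨P, hP, hPA, hAP, hg⟩
    refine ⟨P.comap φ, hP.comap_of_injective φ hφ, ?_, ?_, hg⟩
    · intro x hx
      obtain ⟨y, hy, hxy⟩ := hPA (Subgroup.mem_comap.1 hx)
      rw [← hφ hxy]; exact hy
    · intro a ha
      have h1 := hAP (Subgroup.mem_map_of_mem φ ha)
      rw [Subgroup.mem_normalizer_iff] at h1 ⊢
      intro x
      rw [Subgroup.mem_comap, Subgroup.mem_comap, h1 (φ x)]
      simp
  · rintro ⟨P, hP, hPA, hAP, hg⟩
    exact ⟨P.map φ, hP.map φ, Subgroup.map_mono hPA,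
      (Subgroup.map_mono hAP).trans (Subgroup.le_normalizer_map φ), Subgroup.mem_map_of_mem φ hg⟩

/-- the counting lemma summed over a normal set of labels -/
theorem WC_sum [Fintype H] {p : ℕ} [Fact p.Prime] (hW : WCc p)
    (S : H → Prop) (hS : ∀ g x, S (g * x * g⁻¹) ↔ S x) (hreg : ∀ x, S x → (orderOf x).Coprime p) :
    ((p * pPart p (Nat.card H) : ℕ) : ℤ) ∣
      cnt (fun w : H × H × H => S w.2.2 ∧
        IsPElt p (w.2.2⁻¹ * (w.1 * w.2.1 * w.1⁻¹ * w.2.1⁻¹)) ∧
        ¬ InOp p (Subgroup.closure {w.1, w.2.1, w.2.2})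
          (w.2.2⁻¹ * (w.1 * w.2.1 * w.1⁻¹ * w.2.1⁻¹))) := by
  have h2 : cnt (fun w : H × H × H => S w.2.2 ∧
        IsPElt p (w.2.2⁻¹ * (w.1 * w.2.1 * w.1⁻¹ * w.2.1⁻¹)) ∧
        ¬ InOp p (Subgroup.closure {w.1, w.2.1, w.2.2})
          (w.2.2⁻¹ * (w.1 * w.2.1 * w.1⁻¹ * w.2.1⁻¹))) =
      ∑ h : H, ind (S h) * cnt (fun w : H × H =>
        IsPElt p (h⁻¹ * (w.1 * w.2 * w.1⁻¹ * w.2⁻¹)) ∧
          ¬ InOp p (Subgroup.closure {w.1, w.2, h}) (h⁻¹ * (w.1 * w.2 * w.1⁻¹ * w.2⁻¹))) := by
    rw [cnt_eq]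
    rw [Fintype.sum_equiv (Equiv.prodAssoc H H H).symm _
      (fun t : (H × H) × H => ind (S t.2 ∧
        IsPElt p (t.2⁻¹ * (t.1.1 * t.1.2 * t.1.1⁻¹ * t.1.2⁻¹)) ∧
          ¬ InOp p (Subgroup.closure {t.1.1, t.1.2, t.2})
            (t.2⁻¹ * (t.1.1 * t.1.2 * t.1.1⁻¹ * t.1.2⁻¹))))
      (by intro x; rfl)]
    rw [Fintype.sum_prod_type_right]
    refine Finset.sum_congr rfl ?_
    intro h _
    by_cases hSh : S h
    · rw [cnt_eq, ind_true hSh, one_mul]
      refine Finset.sum_congr rfl ?_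
      intro w _
      exact ind_congr (and_iff_right hSh)
    · rw [ind_false hSh, zero_mul]
      refine Finset.sum_eq_zero ?_
      intro w _
      exact ind_false (fun h => hSh h.1)
  rw [h2]
  refine conj_dvd (H := H) (pPart p) (pPart_mul_dvd p) p _ ?_ ?_
  · intro g x
    rw [ind_congr (hS g x)]
    · congr 1
      refine (cnt_congr ((MulAut.conj g).toEquiv.prodCongr (MulAut.conj g).toEquiv) _ _ ?_).symm
      have key : ∀ w : H × H,
          (IsPElt p (x⁻¹ * (w.1 * w.2 * w.1⁻¹ * w.2⁻¹)) ∧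
          ¬ InOp p (Subgroup.closure {w.1, w.2, x}) (x⁻¹ * (w.1 * w.2 * w.1⁻¹ * w.2⁻¹))) ↔
          (IsPElt p ((g * x * g⁻¹)⁻¹ * ((g * w.1 * g⁻¹) * (g * w.2 * g⁻¹) * (g * w.1 * g⁻¹)⁻¹ *
            (g * w.2 * g⁻¹)⁻¹)) ∧
          ¬ InOp p (Subgroup.closure {g * w.1 * g⁻¹, g * w.2 * g⁻¹, g * x * g⁻¹})
            ((g * x * g⁻¹)⁻¹ * ((g * w.1 * g⁻¹) * (g * w.2 * g⁻¹) * (g * w.1 * g⁻¹)⁻¹ *
            (g * w.2 * g⁻¹)⁻¹))) := by
        intro w
        have e : (g * x * g⁻¹)⁻¹ * ((g * w.1 * g⁻¹) * (g * w.2 * g⁻¹) * (g * w.1 * g⁻¹)⁻¹ *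
            (g * w.2 * g⁻¹)⁻¹) = g * (x⁻¹ * (w.1 * w.2 * w.1⁻¹ * w.2⁻¹)) * g⁻¹ := by group
        rw [e, isPElt_conj]
        have e2 : Subgroup.closure {g * w.1 * g⁻¹, g * w.2 * g⁻¹, g * x * g⁻¹} =
            (Subgroup.closure {w.1, w.2, x}).map (MulAut.conj g).toMonoidHom := by
          rw [MonoidHom.map_closure]
          congr 1
          ext t
          simp [Set.image_insert_eq]
        have e3 := inOp_map (p := p) (MulAut.conj g).toMonoidHom (MulAut.conj g).injective
          (Subgroup.closure {w.1, w.2, x}) (x⁻¹ * (w.1 * w.2 * w.1⁻¹ * w.2⁻¹))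
        rw [e2, ← e3]
        rfl
      exact key
  · intro x
    by_cases hx : S x
    · rw [ind_true hx, one_mul]
      unfold cnt
      exact Int.natCast_dvd_natCast.2 (hW H x (hreg x hx))
    · rw [ind_false hx, zero_mul]
      exact dvd_zero _

end Local

section Global
variable {G : Type} [Group G]

/-- the subgroup generated by a triple -/
def cl (t : G × G × G) : Subgroup G := Subgroup.closure {t.1, t.2.1, t.2.2}

theorem cl_le {t : G × G × G} {K : Subgroup G} : cl t ≤ K ↔ t.1 ∈ K ∧ t.2.1 ∈ K ∧ t.2.2 ∈ K := by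
  unfold cl
  rw [Subgroup.closure_le]
  constructor
  · intro h
    exact ⟨h (by simp), h (by simp), h (by simp)⟩
  · rintro ⟨h1, h2, h3⟩ x hx
    simp only [Set.mem_insert_iff, Set.mem_singleton_iff] at hx
    rcases hx with rfl | rfl | rfl
    · exact h1
    · exact h2
    · exact h3

/-- commutator quotient `h⁻¹ [x, y]` -/
def cq (t : G × G × G) : G := t.2.2⁻¹ * (t.1 * t.2.1 * t.1⁻¹ * t.2.1⁻¹)

def T1 (c : G) (t : G × G × G) : Prop := IsConj t.2.2 c ∧ cq t = 1
def T2 (p : ℕ) (c : G) (t : G × G × G) : Prop := IsConj t.2.2 c ∧ IsPElt p (cq t)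
def T3 (p : ℕ) (c : G) (t : G × G × G) : Prop :=
  IsConj t.2.2 c ∧ IsPElt p (cq t) ∧ ¬ InOp p (cl t) (cq t)

/-- number of solutions inside `K` -/
noncomputable def NK (T : G × G × G → Prop) (K : Subgroup G) : ℤ :=
  cnt (fun t => T t ∧ cl t ≤ K)

theorem NK_sub (T : G × G × G → Prop) (K : Subgroup G) :
    NK T K = cnt (fun w : K × K × K => T ((w.1 : G), (w.2.1 : G), (w.2.2 : G))) := by
  unfold NK cnt
  congr 1
  refine Nat.card_congr ⟨fun t => ⟨(⟨t.1.1, (cl_le.1 t.2.2).1⟩, ⟨t.1.2.1, (cl_le.1 t.2.2).2.1⟩,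
      ⟨t.1.2.2, (cl_le.1 t.2.2).2.2⟩), t.2.1⟩,
    fun w => ⟨((w.1.1 : G), (w.1.2.1 : G), (w.1.2.2 : G)), w.2, cl_le.2 ⟨w.1.1.2, w.1.2.1.2,
      w.1.2.2.2⟩⟩, fun _ => rfl, fun _ => rfl⟩

theorem NK_T1 (c : G) (K : Subgroup G) :
    NK (T1 c) K = (Nat.card {w : K × K //
        IsConj ((w.1 * w.2 * w.1⁻¹ * w.2⁻¹ : K) : G) c} : ℤ) := by
  rw [NK_sub]
  unfold cnt
  congr 1
  refine Nat.card_congr ⟨fun t => ⟨(t.1.1, t.1.2.1), ?_⟩,
    fun w => ⟨(w.1.1, w.1.2, w.1.1 * w.1.2 * w.1.1⁻¹ * w.1.2⁻¹), ?_⟩, ?_, ?_⟩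
  · obtain ⟨t, h1, h2⟩ := t
    have h3 := inv_mul_eq_one.1 h2
    rw [h3] at h1
    exact h1
  · refine ⟨w.2, ?_⟩
    show _⁻¹ * _ = _
    rw [inv_mul_eq_one]
    rfl
  · rintro ⟨⟨x, y, h⟩, h1, h2⟩
    have h3 := inv_mul_eq_one.1 h2
    have h4 : h = x * y * x⁻¹ * y⁻¹ := Subtype.ext h3
    subst h4
    rfl
  · rintro ⟨⟨x, y⟩, h1⟩; rfl

theorem NK_conj (T : G × G × G → Prop)
    (hT : ∀ g t, T (g * t.1 * g⁻¹, g * t.2.1 * g⁻¹, g * t.2.2 * g⁻¹) ↔ T t)
    (K K' : Subgroup G) (g : G) (hK : ∀ x, g * x * g⁻¹ ∈ K' ↔ x ∈ K) : NK T K' = NK T K := by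
  symm
  refine cnt_congr ((MulAut.conj g).toEquiv.prodCongr ((MulAut.conj g).toEquiv.prodCongr
    (MulAut.conj g).toEquiv)) _ _ ?_
  intro t
  refine and_congr (hT g t).symm ?_
  rw [cl_le, cl_le]
  exact and_congr (hK _).symm (and_congr (hK _).symm (hK _).symm)

theorem cq_conj (g : G) (t : G × G × G) :
    cq (g * t.1 * g⁻¹, g * t.2.1 * g⁻¹, g * t.2.2 * g⁻¹) = g * cq t * g⁻¹ := by
  unfold cq; simp only; group

theorem cl_conj (g : G) (t : G × G × G) :
    cl (g * t.1 * g⁻¹, g * t.2.1 * g⁻¹, g * t.2.2 * g⁻¹) =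
      (cl t).map (MulAut.conj g).toMonoidHom := by
  unfold cl
  rw [MonoidHom.map_closure]
  congr 1
  ext x
  simp [Set.image_insert_eq]

theorem isConj_conj (g h c : G) : IsConj (g * h * g⁻¹) c ↔ IsConj h c := by
  have : IsConj h (g * h * g⁻¹) := isConj_iff.2 ⟨g, rfl⟩
  exact ⟨fun h1 => this.trans h1, fun h1 => this.symm.trans h1⟩

theorem T2_conj (p : ℕ) (c g : G) (t : G × G × G) :
    T2 p c (g * t.1 * g⁻¹, g * t.2.1 * g⁻¹, g * t.2.2 * g⁻¹) ↔ T2 p c t := by
  unfold T2
  rw [cq_conj, isPElt_conj]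
  exact and_congr (isConj_conj g _ c) Iff.rfl

theorem T3_conj (p : ℕ) (c g : G) (t : G × G × G) :
    T3 p c (g * t.1 * g⁻¹, g * t.2.1 * g⁻¹, g * t.2.2 * g⁻¹) ↔ T3 p c t := by
  unfold T3
  rw [cq_conj, isPElt_conj, cl_conj]
  refine and_congr (isConj_conj g _ c) (and_congr Iff.rfl (not_congr ?_))
  exact inOp_map (p := p) (MulAut.conj g).toMonoidHom (MulAut.conj g).injective (cl t) (cq t)

section fin
variable [Finite G]

/-- double counting -/
theorem sum_NK {p : ℕ} [Fintype G] (T : G × G × G → Prop) :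
    ∑ C ∈ Toggle262.chains G p, (-1 : ℤ) ^ C.card * NK T (Toggle262.st C) =
      ∑ t : G × G × G, ind (T t) * Toggle262.s p (cl t) := by
  have h1 : ∀ C ∈ Toggle262.chains G p, (-1 : ℤ) ^ C.card * NK T (Toggle262.st C) =
      ∑ t : G × G × G, ind (T t) * ((-1 : ℤ) ^ C.card * ind (cl t ≤ Toggle262.st C)) := by
    intro C _
    unfold NK
    rw [cnt_eq, Finset.mul_sum]
    refine Finset.sum_congr rfl ?_
    intro t _
    by_cases h1 : T t
    · rw [ind_true h1, one_mul]
      rw [ind_congr (and_iff_right h1)]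
    · rw [ind_false h1, zero_mul, ind_false (fun h => h1 h.1), mul_zero]
  rw [Finset.sum_congr rfl h1, Finset.sum_comm]
  refine Finset.sum_congr rfl ?_
  intro t _
  rw [← Finset.mul_sum]
  congr 1
  unfold Toggle262.s
  rw [Finset.sum_filter]
  refine Finset.sum_congr rfl ?_
  intro C _
  by_cases h : cl t ≤ Toggle262.st C
  · rw [ind_true h, if_pos h, mul_one]
  · rw [ind_false h, if_neg h, mul_zero]

theorem pointwise {p : ℕ} (c : G) (t : G × G × G) :
    ind (T2 p c t) * Toggle262.s p (cl t) =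
      ind (T1 c t) * Toggle262.s p (cl t) + ind (T3 p c t) * Toggle262.s p (cl t) := by
  have hone : IsPElt p (1 : G) := ⟨0, by simp⟩
  have hop : ∀ A : Subgroup G, InOp p A 1 := fun A =>
    ⟨⊥, IsPGroup.of_bot, bot_le, by rw [Subgroup.normalizer_eq_top]; exact le_top,
      Subgroup.one_mem _⟩
  by_cases h2 : T2 p c t
  · rw [ind_true h2]
    by_cases h1 : cq t = 1
    · rw [ind_true (show T1 c t from ⟨h2.1, h1⟩), ind_false (show ¬ T3 p c t from fun h => h.2.2 (by
        rw [h1]; exact hop _))]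
      ring
    · rw [ind_false (show ¬ T1 c t from fun h => h1 h.2)]
      by_cases h3 : InOp p (cl t) (cq t)
      · obtain ⟨P, hP, hPA, hAP, hg⟩ := h3
        have hP1 : P ≠ ⊥ := by
          rintro rfl
          exact h1 (Subgroup.mem_bot.1 hg)
        rw [Toggle262.s_eq_zero hP1 hP hPA hAP]
        ring
      · rw [ind_true (show T3 p c t from ⟨h2.1, h2.2, h3⟩)]
        ring
  · rw [ind_false h2, ind_false (show ¬ T1 c t from fun h => h2 ⟨h.1, by rw [h.2]; exact hone⟩),
      ind_false (show ¬ T3 p c t from fun h => h2 ⟨h.1, h.2.1⟩)]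
    ring

theorem sum_T2 {p : ℕ} (c : G) :
    ∑ C ∈ Toggle262.chains G p, (-1 : ℤ) ^ C.card * NK (T2 p c) (Toggle262.st C) =
      ∑ C ∈ Toggle262.chains G p, (-1 : ℤ) ^ C.card * NK (T1 c) (Toggle262.st C) +
      ∑ C ∈ Toggle262.chains G p, (-1 : ℤ) ^ C.card * NK (T3 p c) (Toggle262.st C) := by
  have := Fintype.ofFinite G
  rw [sum_NK, sum_NK, sum_NK, ← Finset.sum_add_distrib]
  exact Finset.sum_congr rfl (fun t _ => pointwise c t)

theorem NK_T3_dvd {p : ℕ} [Fact p.Prime] (hW : WCc p) (c : G) (hc : (orderOf c).Coprime p)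
    (K : Subgroup G) : ((p * pPart p (Nat.card K) : ℕ) : ℤ) ∣ NK (T3 p c) K := by
  have := Fintype.ofFinite K
  rw [NK_sub]
  have h := WC_sum (H := K) hW (fun h => IsConj (h : G) c) (by
    intro g x
    exact isConj_conj (g : G) x c) (by
    intro x hx
    have h1 : orderOf (x : G) = orderOf c := by
      obtain ⟨g, hg⟩ := isConj_iff.1 hx
      rw [← hg]
      exact (orderOf_injective (MulAut.conj g).toMonoidHom (MulAut.conj g).injective (x : G)).symm
    rw [← Subgroup.orderOf_coe, h1]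
    exact hc)
  have e : cnt (fun w : K × K × K => T3 p c ((w.1 : G), (w.2.1 : G), (w.2.2 : G))) =
      cnt (fun w : K × K × K => IsConj ((w.2.2 : K) : G) c ∧
        IsPElt p (w.2.2⁻¹ * (w.1 * w.2.1 * w.1⁻¹ * w.2.1⁻¹)) ∧
        ¬ InOp p (Subgroup.closure {w.1, w.2.1, w.2.2})
          (w.2.2⁻¹ * (w.1 * w.2.1 * w.1⁻¹ * w.2.1⁻¹))) := by
    refine cnt_congr (Equiv.refl _) _ _ ?_
    intro w
    unfold T3
    have e1 : cq ((w.1 : G), (w.2.1 : G), (w.2.2 : G)) =
      K.subtype (w.2.2⁻¹ * (w.1 * w.2.1 * w.1⁻¹ * w.2.1⁻¹)) := rfl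
    have e2 : cl ((w.1 : G), (w.2.1 : G), (w.2.2 : G)) =
      (Subgroup.closure {w.1, w.2.1, w.2.2} : Subgroup K).map K.subtype := by
      unfold cl
      rw [MonoidHom.map_closure]
      congr 1
      ext x
      simp [Set.image_insert_eq]
    have e3 : ∀ g : K, IsPElt p (K.subtype g) ↔ IsPElt p g := by
      intro g
      unfold IsPElt
      refine exists_congr ?_
      intro n
      rw [← map_pow, ← map_one K.subtype]
      exact K.subtype_injective.eq_iff
    rw [e1, e2, inOp_map _ K.subtype_injective, e3]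
    rfl
  rw [e]
  exact h

theorem NK_T2_dvd {p : ℕ} [Fact p.Prime] (c : G) (K P : Subgroup G) (hP : IsPGroup p P)
    (hP1 : P ≠ ⊥) (hPK : P ≤ K) (hKP : K ≤ Subgroup.normalizer (P : Set G)) :
    ((p * pPart p (Nat.card K) : ℕ) : ℤ) ∣ NK (T2 p c) K := by
  have := Fintype.ofFinite K
  rw [NK_sub]
  have hn : (P.subgroupOf K).Normal := (Subgroup.normal_subgroupOf_iff_le_normalizer hPK).2 hKP
  have h := J2_int (H := K) (P.subgroupOf K) (hP.comap_subtype) (fun h => IsConj (h : G) c) (by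
    intro g x
    exact isConj_conj (g : G) x c)
  have e : cnt (fun w : K × K × K => T2 p c ((w.1 : G), (w.2.1 : G), (w.2.2 : G))) =
      cnt (fun w : K × K × K => IsConj ((w.2.2 : K) : G) c ∧
        IsPElt p (w.2.2⁻¹ * (w.1 * w.2.1 * w.1⁻¹ * w.2.1⁻¹))) := by
    refine cnt_congr (Equiv.refl _) _ _ ?_
    intro w
    unfold T2
    have e1 : cq ((w.1 : G), (w.2.1 : G), (w.2.2 : G)) =
      K.subtype (w.2.2⁻¹ * (w.1 * w.2.1 * w.1⁻¹ * w.2.1⁻¹)) := rfl
    have e3 : ∀ g : K, IsPElt p (K.subtype g) ↔ IsPElt p g := by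
      intro g
      unfold IsPElt
      refine exists_congr ?_
      intro n
      rw [← map_pow, ← map_one K.subtype]
      exact K.subtype_injective.eq_iff
    rw [e1, e3]
    rfl
  rw [e]
  refine dvd_trans ?_ h
  rw [← Nat.cast_mul]
  apply Int.natCast_dvd_natCast.2
  refine Nat.mul_dvd_mul ?_ (pPart_dvd p _)
  have h2 : Nat.card (P.subgroupOf K) = Nat.card P :=
    Nat.card_congr (Subgroup.subgroupOfEquivOfLe hPK).toEquiv
  rw [h2]
  obtain ⟨n, hn⟩ := IsPGroup.iff_card.1 hP
  rw [hn]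
  refine dvd_pow_self p ?_
  rintro rfl
  rw [pow_zero] at hn
  exact hP1 (Subgroup.card_eq_one.1 hn)

/-- smallest member -/
theorem exists_min {p : ℕ} {C : Finset (Subgroup G)} (hC : Toggle262.PChain p C)
    (hne : C.Nonempty) : ∃ P ∈ C, P ≤ Toggle262.st C := by
  obtain ⟨P, hP, hmin⟩ := Finset.exists_min_image C (fun Q => Nat.card Q) hne
  refine ⟨P, hP, ?_⟩
  rw [Toggle262.le_st]
  intro Q hQ
  have h1 : P ≤ Q := by
    by_cases h : P = Q
    · exact h.le
    · rcases hC.2 hP hQ h with h2 | h2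
      · exact h2
      · exact (Subgroup.eq_of_le_of_card_ge h2 (hmin Q hQ)).ge
  exact h1.trans Subgroup.le_normalizer

end fin

end Global

end Crest.Agent.R170.S4262
end

-- ▼ part R170/S4b_262

/-!
Row 170 (swarm A), leaf S4, part 2: orbits of chains, `SS4`.
-/

set_option autoImplicit false
open scoped BigOperators Classical Pointwise

namespace Crest.Agent.R170.S4262

open Crest.Agent.R170

section Orb
variable {G : Type} [Group G]

theorem mem_normalizer_smul (g : ConjAct G) (P : Subgroup G) (x : G) :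
    ConjAct.ofConjAct g * x * (ConjAct.ofConjAct g)⁻¹ ∈
      Subgroup.normalizer ((g • P : Subgroup G) : Set G) ↔
      x ∈ Subgroup.normalizer (P : Set G) := by
  have hmem : ∀ y : G, y ∈ (g • P : Subgroup G) ↔
      (ConjAct.ofConjAct g)⁻¹ * y * ConjAct.ofConjAct g ∈ P := by
    intro y
    rw [Subgroup.mem_pointwise_smul_iff_inv_smul_mem, ConjAct.smul_def]
    simp
  rw [Subgroup.mem_normalizer_iff, Subgroup.mem_normalizer_iff]
  constructor
  · intro h y
    have h1 := h (ConjAct.ofConjAct g * y * (ConjAct.ofConjAct g)⁻¹)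
    rw [hmem, hmem] at h1
    have e1 : (ConjAct.ofConjAct g)⁻¹ * (ConjAct.ofConjAct g * y * (ConjAct.ofConjAct g)⁻¹) *
      ConjAct.ofConjAct g = y := by group
    have e2 : (ConjAct.ofConjAct g)⁻¹ * (ConjAct.ofConjAct g * x * (ConjAct.ofConjAct g)⁻¹ *
      (ConjAct.ofConjAct g * y * (ConjAct.ofConjAct g)⁻¹) *
      (ConjAct.ofConjAct g * x * (ConjAct.ofConjAct g)⁻¹)⁻¹) *
      ConjAct.ofConjAct g = x * y * x⁻¹ := by group
    rw [e1, e2] at h1
    exact h1
  · intro h y
    have h1 := h ((ConjAct.ofConjAct g)⁻¹ * y * ConjAct.ofConjAct g)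
    rw [hmem, hmem]
    have e2 : (ConjAct.ofConjAct g)⁻¹ * (ConjAct.ofConjAct g * x * (ConjAct.ofConjAct g)⁻¹ *
      y * (ConjAct.ofConjAct g * x * (ConjAct.ofConjAct g)⁻¹)⁻¹) *
      ConjAct.ofConjAct g = x * ((ConjAct.ofConjAct g)⁻¹ * y * ConjAct.ofConjAct g) * x⁻¹ := by
      group
    rw [e2]
    exact h1

theorem mem_smul_chain (g : ConjAct G) (C : Finset (Subgroup G)) (P : Subgroup G) :
    P ∈ g • C ↔ ∃ Q ∈ C, g • Q = P := by
  rw [Finset.mem_smul_finset]

theorem st_smul (g : ConjAct G) (C : Finset (Subgroup G)) (x : G) :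
    ConjAct.ofConjAct g * x * (ConjAct.ofConjAct g)⁻¹ ∈ Toggle262.st (g • C) ↔
      x ∈ Toggle262.st C := by
  rw [Toggle262.mem_st, Toggle262.mem_st]
  constructor
  · intro h P hP
    exact (mem_normalizer_smul g P x).1 (h _ ((mem_smul_chain g C _).2 ⟨P, hP, rfl⟩))
  · intro h P hP
    obtain ⟨Q, hQ, rfl⟩ := (mem_smul_chain g C _).1 hP
    exact (mem_normalizer_smul g Q x).2 (h Q hQ)

variable [Finite G]

theorem pchain_smul {p : ℕ} (g : ConjAct G) (C : Finset (Subgroup G))
    (hC : Toggle262.PChain p C) : Toggle262.PChain p (g • C) := by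
  constructor
  · intro P hP
    obtain ⟨Q, hQ, rfl⟩ := (mem_smul_chain g C _).1 hP
    refine ⟨?_, ?_⟩
    · intro h
      apply (hC.1 Q hQ).1
      have h2 : Nat.card (g • Q : Subgroup G) = Nat.card Q :=
        Nat.card_congr (Subgroup.equivSMul g Q).toEquiv.symm
      rw [h] at h2
      apply Subgroup.card_eq_one.1
      rw [← h2]; simp
    · exact (hC.1 Q hQ).2.of_equiv (Subgroup.equivSMul g Q)
  · intro P hP Q hQ hPQ
    obtain ⟨P', hP', rfl⟩ := (mem_smul_chain g C _).1 (Finset.mem_coe.1 hP)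
    obtain ⟨Q', hQ', rfl⟩ := (mem_smul_chain g C _).1 (Finset.mem_coe.1 hQ)
    have h : P' ≠ Q' := by rintro rfl; exact hPQ rfl
    rcases hC.2 hP' hQ' h with h1 | h1
    · left; exact Subgroup.pointwise_smul_le_pointwise_smul_iff.2 h1
    · right; exact Subgroup.pointwise_smul_le_pointwise_smul_iff.2 h1

theorem pchain_smul_iff {p : ℕ} (g : ConjAct G) (C : Finset (Subgroup G)) :
    Toggle262.PChain p (g • C) ↔ Toggle262.PChain p C := by
  constructor
  · intro h
    have := pchain_smul g⁻¹ _ h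
    rwa [inv_smul_smul] at this
  · exact pchain_smul g C

theorem smul_mem_of_chain {p : ℕ} (g : ConjAct G) (C : Finset (Subgroup G))
    (hC : Toggle262.PChain p C) (h : g • C = C) (P : Subgroup G) (hP : P ∈ C) : g • P = P := by
  have h1 : g • P ∈ C := by
    rw [← h]; exact (mem_smul_chain g C _).2 ⟨P, hP, rfl⟩
  have h2 : Nat.card (g • P : Subgroup G) = Nat.card P :=
    Nat.card_congr (Subgroup.equivSMul g P).toEquiv.symm
  by_contra hne
  rcases hC.2 h1 hP hne with h3 | h3
  · exact hne (Subgroup.eq_of_le_of_card_ge h3 h2.ge)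
  · exact hne (Subgroup.eq_of_le_of_card_ge h3 h2.le).symm

theorem card_stab_chain {p : ℕ} (C : Finset (Subgroup G)) (hC : Toggle262.PChain p C) :
    Nat.card (MulAction.stabilizer (ConjAct G) C) = Nat.card (Toggle262.st C) := by
  refine Nat.card_congr ⟨fun g => ⟨ConjAct.ofConjAct g.1, ?_⟩,
    fun g => ⟨ConjAct.toConjAct g.1, ?_⟩, fun _ => rfl, fun _ => rfl⟩
  · have h := MulAction.mem_stabilizer_iff.1 g.2
    rw [Toggle262.mem_st]
    intro P hP
    have h2 := smul_mem_of_chain g.1 C hC h P hP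
    rw [Subgroup.mem_normalizer_iff]
    intro y
    have h3 : g.1 • y ∈ g.1 • P ↔ y ∈ P := Subgroup.smul_mem_pointwise_smul_iff
    rw [h2, ConjAct.smul_def] at h3
    exact h3.symm
  · rw [MulAction.mem_stabilizer_iff]
    have h := Toggle262.mem_st.1 g.2
    have h2 : ∀ P ∈ C, ConjAct.toConjAct (g : G) • P = P := by
      intro P hP
      ext y
      rw [Subgroup.mem_pointwise_smul_iff_inv_smul_mem, ConjAct.smul_def]
      have h3 := Subgroup.mem_normalizer_iff.1 (Subgroup.inv_mem _ (h P hP)) y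
      simpa using h3.symm
    ext P
    rw [mem_smul_chain]
    constructor
    · rintro ⟨Q, hQ, rfl⟩
      rw [h2 Q hQ]; exact hQ
    · intro hP
      exact ⟨P, hP, h2 P hP⟩

/-- orbit lemma for chains -/
theorem chain_dvd {p : ℕ} [Fact p.Prime] (m : ℕ) (F : Finset (Subgroup G) → ℤ)
    (hF : ∀ (g : ConjAct G) C, Toggle262.PChain p C → F (g • C) = F C)
    (hd : ∀ C, Toggle262.PChain p C → ((m * pPart p (Nat.card (Toggle262.st C)) : ℕ) : ℤ) ∣ F C) :
    ((m * pPart p (Nat.card G) : ℕ) : ℤ) ∣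
      ∑ C ∈ Toggle262.chains G p, (-1 : ℤ) ^ C.card * F C := by
  have := Fintype.ofFinite G
  have := Fintype.ofFinite (Subgroup G)
  have h := orbit_dvd (Γ := ConjAct G) (X := Finset (Subgroup G)) (pPart p) (pPart_mul_dvd p) m
    (fun C => ind (Toggle262.PChain p C) * ((-1 : ℤ) ^ C.card * F C)) (by
      intro g C
      rw [ind_congr (pchain_smul_iff g C), Finset.card_smul_finset]
      by_cases hC : Toggle262.PChain p C
      · rw [hF g C hC]
      · rw [ind_false hC]; simp) (by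
      intro C
      by_cases hC : Toggle262.PChain p C
      · rw [card_stab_chain C hC, ind_true hC, one_mul]
        exact (hd C hC).mul_left _
      · rw [ind_false hC, zero_mul]; exact dvd_zero _)
  have h2 : Nat.card (ConjAct G) = Nat.card G := Nat.card_congr ConjAct.ofConjAct.toEquiv
  rw [h2] at h
  have h3 : ∑ C : Finset (Subgroup G), ind (Toggle262.PChain p C) * ((-1 : ℤ) ^ C.card * F C) =
      ∑ C ∈ Toggle262.chains G p, (-1 : ℤ) ^ C.card * F C := by
    have e : Toggle262.chains G p = Finset.univ.filter (fun C => Toggle262.PChain p C) := by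
      ext C; rw [Toggle262.mem_chains]; simp
    rw [e, Finset.sum_filter]
    refine Finset.sum_congr rfl ?_
    intro C _
    by_cases hC : Toggle262.PChain p C
    · rw [ind_true hC, one_mul, if_pos hC]
    · rw [ind_false hC, zero_mul, if_neg hC]
  rwa [h3] at h

/-- conversion between `Ch p G` and `Toggle262.chains` -/
theorem finsum_ch {p : ℕ} (F : Finset (Subgroup G) → ℤ) :
    ∑ᶠ σ : Ch p G, F σ.1 = ∑ C ∈ Toggle262.chains G p, F C := by
  have : Finite (Ch p G) := by unfold Ch; infer_instance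
  have := Fintype.ofFinite (Ch p G)
  rw [finsum_eq_sum_of_fintype]
  refine (Finset.sum_subtype (p := fun σ : Finset (Subgroup G) =>
    (∀ Q ∈ σ, IsPGroup p Q ∧ Q ≠ ⊥) ∧ IsChain (· ≤ ·) (σ : Set (Subgroup G)))
    (Toggle262.chains G p) ?_ F).symm
  intro C
  rw [Toggle262.mem_chains]
  unfold Toggle262.PChain
  refine and_congr ?_ Iff.rfl
  exact forall₂_congr (fun _ _ => and_comm)

end Orb

/-- **leaf S4** -/
theorem ss4 (p : ℕ) [Fact p.Prime] : SS4 p := by
  intro hW G _ _ c hc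
  have e1 : ∑ᶠ σ : Ch p G, sgn σ * (Nat.card {w : st σ × st σ //
        IsConj ((w.1 * w.2 * w.1⁻¹ * w.2⁻¹ : st σ) : G) c} : ℤ) =
      ∑ C ∈ Toggle262.chains G p, (-1 : ℤ) ^ C.card * NK (T1 c) (Toggle262.st C) := by
    rw [← finsum_ch (fun C => (-1 : ℤ) ^ C.card * NK (T1 c) (Toggle262.st C))]
    refine finsum_congr ?_
    intro σ
    rw [NK_T1]
    rfl
  have e2 : (Nat.card {w : G × G × G // IsConj w.2.2 c ∧
        IsPElt p (w.2.2⁻¹ * (w.1 * w.2.1 * w.1⁻¹ * w.2.1⁻¹))} : ℤ) =
      NK (T2 p c) (Toggle262.st (∅ : Finset (Subgroup G))) := by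
    unfold NK cnt
    congr 1
    refine Nat.card_congr (Equiv.subtypeEquivRight ?_)
    intro t
    rw [Toggle262.st_empty]
    simp only [le_top, and_true]
    rfl
  rw [e1, e2]
  have hempty : (∅ : Finset (Subgroup G)) ∈ Toggle262.chains G p := by
    rw [Toggle262.mem_chains]
    exact ⟨by simp, by simp⟩
  have e3 : ∑ C ∈ Toggle262.chains G p, (-1 : ℤ) ^ C.card * NK (T2 p c) (Toggle262.st C) =
      NK (T2 p c) (Toggle262.st (∅ : Finset (Subgroup G))) +
      ∑ C ∈ Toggle262.chains G p, (-1 : ℤ) ^ C.card *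
        (if C = ∅ then 0 else NK (T2 p c) (Toggle262.st C)) := by
    rw [← Finset.add_sum_erase _ _ hempty, ← Finset.add_sum_erase (Toggle262.chains G p)
      (fun C => (-1 : ℤ) ^ C.card * (if C = ∅ then 0 else NK (T2 p c) (Toggle262.st C))) hempty]
    simp only [Finset.card_empty, pow_zero, one_mul, if_true, zero_add]
    congr 1
    refine Finset.sum_congr rfl ?_
    intro C hC
    rw [if_neg (Finset.ne_of_mem_erase hC)]
  have e4 := sum_T2 (p := p) c
  have h1 := chain_dvd (G := G) (p := p) p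
    (fun C => if C = ∅ then 0 else NK (T2 p c) (Toggle262.st C)) (by
      intro g C hC
      have : g • C = ∅ ↔ C = ∅ := Finset.smul_finset_eq_empty
      simp only [this]
      split_ifs
      · rfl
      · exact NK_conj _ (T2_conj p c) _ _ (ConjAct.ofConjAct g) (st_smul g C)) (by
      intro C hC
      split_ifs with h
      · exact dvd_zero _
      · obtain ⟨P, hP, hPs⟩ := exists_min hC (Finset.nonempty_iff_ne_empty.2 h)
        exact NK_T2_dvd c _ P (hC.1 P hP).2 (hC.1 P hP).1 hPs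
          (Toggle262.le_st.1 le_rfl P hP))
  have h2 := chain_dvd (G := G) (p := p) p
    (fun C => NK (T3 p c) (Toggle262.st C)) (by
      intro g C hC
      exact NK_conj _ (T3_conj p c) _ _ (ConjAct.ofConjAct g) (st_smul g C)) (by
      intro C hC
      exact NK_T3_dvd hW c hc _)
  have e5 : ∑ C ∈ Toggle262.chains G p, (-1 : ℤ) ^ C.card * NK (T1 c) (Toggle262.st C) -
      NK (T2 p c) (Toggle262.st (∅ : Finset (Subgroup G))) =
      ∑ C ∈ Toggle262.chains G p, (-1 : ℤ) ^ C.card *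
        (if C = ∅ then 0 else NK (T2 p c) (Toggle262.st C)) -
      ∑ C ∈ Toggle262.chains G p, (-1 : ℤ) ^ C.card * NK (T3 p c) (Toggle262.st C) := by
    linarith
  rw [e5]
  exact dvd_sub h1 h2

end Crest.Agent.R170.S4262
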