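import Crest.Agent.R170.DefW_995
import Crest.Agent.R170.AB_983
import Crest.Agent.R170.Q2_940
import Crest.Agent.R170.J1_482
import Mathlib
import Crest.Agent.R170.Stm_995
import Crest.Agent.R170.ORB_700
import Crest.Agent.R170.SCC_538
import Crest.Agent.R170.F0iso_538
import Crest.Agent.R170.P2_482
import Crest.Agent.R170.LC_806
import Crest.Agent.R170.LD_170

-- ▼ part R170/AB2_983
section

/-!
# Row 170, leaf AB, part 2 (helper983)

* `sum_pgroup` : sums of invariant functions vanishing on the fixed points of a `p`-group action.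
* `AB2` : `R` normal `p`-subgroup of `H`, `y` central in `k[H]` with no coefficient on `C_H(R)`:
  `y` is nilpotent.
* `AB3` : `z` central in `k[G]`, supported on `p`-regular elements, `σ` a chain:
  `restrictCoeff (st σ) z - br (st σ) (top σ) z` is nilpotent (and both are central).
-/

set_option autoImplicit false

namespace Crest.Agent.R170.AB983

open Subgroup Crest.AlgebraR.Weights

section sums

theorem sum_pgroup {p : ℕ} [hp : Fact p.Prime] {R α k : Type*} [Group R] [Fintype α]
    [MulAction R α] [Ring k] [CharP k p] (hR : IsPGroup p R) (f : α → k)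
    (hf : ∀ (r : R) (a : α), f (r • a) = f a) (h0 : ∀ a ∈ MulAction.fixedPoints R α, f a = 0) :
    ∑ a, f a = 0 := by
  classical
  have h1 : ∑ a, f a = ∑ v ∈ Finset.univ.image f,
      ((Finset.univ.filter (fun a => f a = v)).card : k) * v := by
    rw [← Finset.sum_fiberwise_of_maps_to (g := f) (t := Finset.univ.image f)
      (fun a _ => Finset.mem_image_of_mem _ (Finset.mem_univ a))]
    refine Finset.sum_congr rfl fun v _ => ?_
    rw [Finset.sum_congr rfl (g := fun _ => v) (fun a ha => (Finset.mem_filter.1 ha).2)]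
    rw [Finset.sum_const, nsmul_eq_mul]
  rw [h1]
  refine Finset.sum_eq_zero fun v _ => ?_
  by_cases hv : v = 0
  · rw [hv, mul_zero]
  let β := {a : α // f a = v}
  let _ : MulAction R β :=
    { smul := fun r b => ⟨r • b.1, by rw [hf]; exact b.2⟩
      one_smul := fun b => Subtype.ext (one_smul R b.1)
      mul_smul := fun r s b => Subtype.ext (mul_smul r s b.1) }
  have h2 := hR.card_modEq_card_fixedPoints (α := β)
  have h3 : IsEmpty (MulAction.fixedPoints R β) := by
    refine ⟨fun x => ?_⟩
    have h4 : x.1.1 ∈ MulAction.fixedPoints R α := fun r => congrArg Subtype.val (x.2 r)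
    exact hv (x.1.2.symm.trans (h0 _ h4))
  have h6 : Nat.card (MulAction.fixedPoints R β) = 0 := Nat.card_of_isEmpty
  rw [h6] at h2
  have h5 : Nat.card β = (Finset.univ.filter (fun a => f a = v)).card := by
    rw [Nat.card_eq_fintype_card, Fintype.card_subtype]
  rw [← h5, (CharP.cast_eq_zero_iff k p _).2 (Nat.modEq_zero_iff_dvd.1 h2), zero_mul]

end sums

section AB2
variable {k H : Type} [Field k] [Group H] [Finite H]

theorem coeff_conj {y : MonoidAlgebra k H} (hy : ∀ x, y * x = x * y) (g h : H) :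
    y.coeff (g * h * g⁻¹) = y.coeff h := by
  have h1 := congrArg (fun z : MonoidAlgebra k H => z.coeff (g * h))
    (hy (MonoidAlgebra.single g 1))
  simp only [MonoidAlgebra.coeff_mul_single_apply, MonoidAlgebra.coeff_single_mul_apply] at h1
  simpa using h1

theorem AB2 {p : ℕ} [hp : Fact p.Prime] [CharP k p] (R : Subgroup H) [hRn : R.Normal]
    (hR : IsPGroup p R) (y : MonoidAlgebra k H) (hy : ∀ x, y * x = x * y)
    (h0 : ∀ h ∈ Subgroup.centralizer (R : Set H), y.coeff h = 0) : IsNilpotent y := by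
  classical
  haveI : Fintype H := Fintype.ofFinite H
  haveI : IsArtinianRing (MonoidAlgebra k H) := IsArtinianRing.of_finite k _
  apply J482.isNilpotent_of_mem_jacobson
  rw [Ring.jacobson, Module.jacobson, Submodule.mem_sInf]
  intro m hm
  apply Q940.ker_le (p := p) R hR hm
  apply MonoidAlgebra.coeff_injective
  ext q
  have h1 : (MonoidAlgebra.mapDomain (QuotientGroup.mk : H → H ⧸ R) y).coeff q =
      ∑ g : H, if (QuotientGroup.mk g : H ⧸ R) = q then y.coeff g else 0 := by
    show (Finsupp.mapDomain _ y.coeff) q = _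
    rw [Finsupp.mapDomain, Finsupp.sum_apply, Finsupp.sum_fintype _ _ (by intro i; simp)]
    refine Finset.sum_congr rfl fun g _ => ?_
    rw [Finsupp.single_apply]
  rw [h1, ← Finset.sum_filter, Finset.sum_subtype (p := fun g : H => (QuotientGroup.mk g : H ⧸ R) = q)
    _ (fun g => by simp) y.coeff]
  show _ = (0 : k)
  have hconj : ∀ (r g : H), r ∈ R → (QuotientGroup.mk (r * g * r⁻¹) : H ⧸ R) = QuotientGroup.mk g := by
    intro r g hr
    rw [eq_comm, QuotientGroup.eq]
    have h2 : g⁻¹ * (r * g * r⁻¹) = (g⁻¹ * r * g⁻¹⁻¹) * r⁻¹ := by group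
    rw [h2]
    exact R.mul_mem (hRn.conj_mem r hr g⁻¹) (R.inv_mem hr)
  let _ : MulAction R {g : H // (QuotientGroup.mk g : H ⧸ R) = q} :=
    { smul := fun r g => ⟨r * g.1 * (r : H)⁻¹, by rw [hconj _ _ r.2]; exact g.2⟩
      one_smul := fun g => Subtype.ext (by
        show ((1 : R) : H) * g.1 * ((1 : R) : H)⁻¹ = g.1
        simp)
      mul_smul := fun r s g => Subtype.ext (by
        show ((r * s : R) : H) * g.1 * ((r * s : R) : H)⁻¹ = r * (s * g.1 * (s : H)⁻¹) * (r : H)⁻¹
        push_cast
        group) }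
  refine sum_pgroup (p := p) hR _ (fun r g => coeff_conj hy (r : H) g.1) ?_
  intro g hg
  refine h0 g.1 ?_
  rw [Subgroup.mem_centralizer_iff]
  intro r hr
  have h3 : r * g.1 * r⁻¹ = g.1 := congrArg Subtype.val (hg ⟨r, hr⟩)
  exact mul_inv_eq_iff_eq_mul.1 h3

end AB2

section AB3
variable {k G : Type} [Field k] [Group G] [Finite G]

theorem restrictCoeff_coeff (H : Subgroup G) (z : MonoidAlgebra k G) (h : H) :
    (restrictCoeff H z).coeff h = z.coeff (h : G) := rfl

open Classical in
theorem br_coeff (H Q : Subgroup G) (z : MonoidAlgebra k G) (h : H) :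
    (br H Q z).coeff h = if (h : G) ∈ Subgroup.centralizer (Q : Set G) then z.coeff (h : G)
      else 0 := rfl

/-- an element of `k[H]` with conjugation invariant coefficients is central -/
theorem central_of_conj {H : Type} [Group H] [Finite H] {y : MonoidAlgebra k H}
    (hy : ∀ g h : H, y.coeff (g * h * g⁻¹) = y.coeff h) (x : MonoidAlgebra k H) :
    y * x = x * y := by
  induction x using MonoidAlgebra.induction_linear with
  | zero => simp
  | add a b ha hb => rw [mul_add, add_mul, ha, hb]
  | single g c =>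
    apply MonoidAlgebra.coeff_injective
    ext h
    rw [MonoidAlgebra.coeff_mul_single_apply, MonoidAlgebra.coeff_single_mul_apply, mul_comm]
    congr 1
    have := hy g (g⁻¹ * h)
    rw [← this]
    congr 1
    group

theorem st_le_normalizer_top {p : ℕ} (σ : Ch p G) :
    st σ ≤ Subgroup.normalizer (top σ : Set G) := by
  rcases σ.1.eq_empty_or_nonempty with h0 | hne
  · have : top σ = ⊥ := by unfold top; rw [h0]; simp
    rw [this, Subgroup.normalizer_eq_top]
    exact le_top
  · obtain ⟨M, hM⟩ := σ.1.exists_maximal hne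
    have h1 : top σ = M := by
      refine le_antisymm (iSup₂_le fun Q hQ => ?_) (le_iSup₂_of_le M hM.prop le_rfl)
      by_cases h : Q = M
      · exact h.le
      · rcases σ.2.2 hQ hM.prop h with h1 | h1
        · exact h1
        · exact hM.le_of_ge hQ h1
    rw [h1]
    exact iInf₂_le M hM.prop

theorem top_isPGroup {p : ℕ} (σ : Ch p G) : IsPGroup p (top σ) := by
  rcases σ.1.eq_empty_or_nonempty with h0 | hne
  · have : top σ = ⊥ := by unfold top; rw [h0]; simp
    rw [this]
    exact IsPGroup.of_bot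
  · obtain ⟨M, hM⟩ := σ.1.exists_maximal hne
    have h1 : top σ = M := by
      refine le_antisymm (iSup₂_le fun Q hQ => ?_) (le_iSup₂_of_le M hM.prop le_rfl)
      by_cases h : Q = M
      · exact h.le
      · rcases σ.2.2 hQ hM.prop h with h1 | h1
        · exact h1
        · exact hM.le_of_ge hQ h1
    rw [h1]
    exact (σ.2.1 M hM.prop).1

/-- restriction of a central element to a subgroup is central -/
theorem restrict_central {z : MonoidAlgebra k G} (hz : ∀ x, z * x = x * z) (H : Subgroup G)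
    (x : MonoidAlgebra k H) : restrictCoeff H z * x = x * restrictCoeff H z :=
  central_of_conj (fun g h => by
    rw [restrictCoeff_coeff, restrictCoeff_coeff]
    push_cast
    exact coeff_conj hz _ _) x

theorem mem_centralizer_conj {Q : Subgroup G} {g h : G}
    (hg : g ∈ Subgroup.normalizer (Q : Set G)) :
    g * h * g⁻¹ ∈ Subgroup.centralizer (Q : Set G) ↔ h ∈ Subgroup.centralizer (Q : Set G) := by
  have key : ∀ g h : G, g ∈ Subgroup.normalizer (Q : Set G) →
      h ∈ Subgroup.centralizer (Q : Set G) → g * h * g⁻¹ ∈ Subgroup.centralizer (Q : Set G) := by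
    intro g h hg hh
    rw [Subgroup.mem_centralizer_iff] at hh ⊢
    intro q hq
    have h1 : g⁻¹ * q * g ∈ Q := by
      have h2 := (Subgroup.mem_normalizer_iff.1 ((Subgroup.normalizer (Q : Set G)).inv_mem hg) q).1 hq
      simpa using h2
    have h3 := hh _ h1
    have h4 : q = g * (g⁻¹ * q * g) * g⁻¹ := by group
    calc q * (g * h * g⁻¹) = g * ((g⁻¹ * q * g) * h) * g⁻¹ := by group
      _ = g * (h * (g⁻¹ * q * g)) * g⁻¹ := by rw [h3]
      _ = g * h * g⁻¹ * q := by group
  refine ⟨fun h1 => ?_, key g h hg⟩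
  have h2 := key g⁻¹ _ ((Subgroup.normalizer (Q : Set G)).inv_mem hg) h1
  have h3 : g⁻¹ * (g * h * g⁻¹) * g⁻¹⁻¹ = h := by group
  rwa [h3] at h2

/-- the Brauer map lands in the centre -/
theorem br_central {z : MonoidAlgebra k G} (hz : ∀ x, z * x = x * z) (H Q : Subgroup G)
    (hH : H ≤ Subgroup.normalizer (Q : Set G)) (x : MonoidAlgebra k H) :
    br H Q z * x = x * br H Q z := by
  classical
  refine central_of_conj (fun g h => ?_) x
  rw [br_coeff, br_coeff]
  push_cast
  rw [coeff_conj hz]
  simp only [mem_centralizer_conj (hH g.2)]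

/-- **(AB3)** -/
theorem AB3 {p : ℕ} [hp : Fact p.Prime] [CharP k p] (σ : Ch p G) (z : MonoidAlgebra k G)
    (hz : ∀ x, z * x = x * z) (hreg : ∀ g : G, z.coeff g ≠ 0 → (orderOf g).Coprime p) :
    IsNilpotent (restrictCoeff (st σ) z - br (st σ) (top σ) z) := by
  classical
  have hR : IsPGroup p ((top σ).subgroupOf (st σ)) := by
    have h1 : IsPGroup p (top σ ⊓ st σ : Subgroup G) :=
      (top_isPGroup σ).to_le inf_le_left
    have h2 : (top σ ⊓ st σ).subgroupOf (st σ) = (top σ).subgroupOf (st σ) := by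
      rw [Subgroup.inf_subgroupOf_right]
    rw [← h2]
    exact h1.comap_subtype
  haveI hRn : ((top σ).subgroupOf (st σ)).Normal := by
    refine ⟨fun n hn g => ?_⟩
    rw [Subgroup.mem_subgroupOf] at hn ⊢
    push_cast
    exact (Subgroup.mem_normalizer_iff.1 (st_le_normalizer_top σ g.2) _).1 hn
  refine AB2 (p := p) ((top σ).subgroupOf (st σ)) hR _ (fun x => ?_) fun h hh => ?_
  · rw [sub_mul, mul_sub, restrict_central hz, br_central hz _ _ (st_le_normalizer_top σ)]
  · show (restrictCoeff (st σ) z).coeff h - (br (st σ) (top σ) z).coeff h = 0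
    rw [restrictCoeff_coeff, br_coeff]
    by_cases h0 : z.coeff (h : G) = 0
    · rw [h0]; simp
    · rw [if_pos, sub_self]
      refine AB1 σ (h : G) (hreg _ h0) h.2 ?_
      rw [Subgroup.mem_centralizer_iff] at hh ⊢
      intro x hx
      have h1 := hh ⟨x, hx.2⟩ (by
        show (⟨x, hx.2⟩ : st σ) ∈ (top σ).subgroupOf (st σ)
        rw [Subgroup.mem_subgroupOf]
        exact hx.1)
      exact congrArg Subtype.val h1

/-- **(AB3), traces** -/
theorem AB3_trZ {p : ℕ} [hp : Fact p.Prime] [CharP k p] (σ : Ch p G) (z : MonoidAlgebra k G)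
    (hz : ∀ x, z * x = x * z) (hreg : ∀ g : G, z.coeff g ≠ 0 → (orderOf g).Coprime p)
    (y1 y2 : Subalgebra.center k (MonoidAlgebra k (st σ)))
    (h1 : (y1 : MonoidAlgebra k (st σ)) = restrictCoeff (st σ) z)
    (h2 : (y2 : MonoidAlgebra k (st σ)) = br (st σ) (top σ) z) : trZ y1 = trZ y2 := by
  have hn : IsNilpotent (y1 - y2) := by
    obtain ⟨n, hn⟩ := AB3 (p := p) σ z hz hreg
    refine ⟨n, Subtype.ext ?_⟩
    push_cast
    rw [h1, h2, hn]
  have h3 : IsNilpotent (LinearMap.mulLeft k (y1 - y2)) := by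
    obtain ⟨n, hn⟩ := hn
    refine ⟨n, ?_⟩
    rw [LinearMap.pow_mulLeft, hn]
    exact LinearMap.mulLeft_zero_eq_zero _ _
  have h4 := LinearMap.isNilpotent_trace_of_isNilpotent h3
  have h5 : LinearMap.trace k _ (LinearMap.mulLeft k (y1 - y2)) = 0 := h4.eq_zero
  unfold trZ
  have h6 : LinearMap.mulLeft k (y1 - y2) = LinearMap.mulLeft k y1 - LinearMap.mulLeft k y2 := by
    ext x
    simp [sub_mul]
  have h7 := (LinearMap.trace k (Subalgebra.center k (MonoidAlgebra k (st σ)))).map_sub
    (LinearMap.mulLeft k y1) (LinearMap.mulLeft k y2)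
  rw [h6] at h5
  exact sub_eq_zero.1 (h7.symm.trans h5)

end AB3

end Crest.Agent.R170.AB983
end

-- ▼ part R170/ORB2_700
section

/-!
# Row 170: `SOrb`, and conjugation invariance of `σ ↦ lc (eC σ e)`, ... (helper700)
-/

set_option autoImplicit false
set_option linter.unusedSectionVars false

namespace Crest.Agent.R170.ORB700

open MonoidAlgebra Crest.AlgebraR.Weights Crest.Agent.R170


section conj
variable {p : ℕ} {k G : Type} [Field k] [Group G] [Finite G]

theorem coeff_conj {e : MonoidAlgebra k G} (he : ∀ x : MonoidAlgebra k G, e * x = x * e)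
    (g x : G) : e.coeff (g * x * g⁻¹) = e.coeff x := by
  have h := congrArg (fun y : MonoidAlgebra k G => y.coeff (g * x)) (he (single g 1))
  simpa [coeff_mul_single_apply, coeff_single_mul_apply, mul_assoc] using h

/-- conjugation by `g`, as an isomorphism of stabilisers -/
noncomputable def stIso (g : G) (σ : Ch p G) : st σ ≃* st (g • σ) :=
  ((st σ).equivMapOfInjective (MulAut.conj g).toMonoidHom (MulAut.conj g).injective).trans
    (MulEquiv.subgroupCongr (st_smul g σ).symm)

theorem stIso_coe (g : G) (σ : Ch p G) (x : st σ) :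
    ((stIso g σ x : st (g • σ)) : G) = g * (x : G) * g⁻¹ := by
  rfl

theorem mem_centralizer_cj {g x : G} {Q : Subgroup G} :
    g * x * g⁻¹ ∈ Subgroup.centralizer ((cj g Q : Subgroup G) : Set G) ↔
      x ∈ Subgroup.centralizer (Q : Set G) := by
  rw [Subgroup.mem_centralizer_iff, Subgroup.mem_centralizer_iff]
  constructor
  · intro h y hy
    have h1 := h (g * y * g⁻¹) (by
      show g * y * g⁻¹ ∈ cj g Q
      rw [mem_cj]
      have : g⁻¹ * (g * y * g⁻¹) * g = y := by group
      rw [this]; exact hy)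
    have h2 : g * (y * x) * g⁻¹ = g * (x * y) * g⁻¹ := by
      calc g * (y * x) * g⁻¹ = g * y * g⁻¹ * (g * x * g⁻¹) := by group
        _ = g * x * g⁻¹ * (g * y * g⁻¹) := h1
        _ = g * (x * y) * g⁻¹ := by group
    exact mul_left_cancel (mul_right_cancel h2)
  · intro h y hy
    have hy' : g⁻¹ * y * g ∈ Q := mem_cj.1 hy
    have h1 := h _ hy'
    calc y * (g * x * g⁻¹) = g * (g⁻¹ * y * g * x) * g⁻¹ := by group
      _ = g * (x * (g⁻¹ * y * g)) * g⁻¹ := by rw [h1]
      _ = g * x * g⁻¹ * y := by group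

open Classical in
theorem eC_coeff (σ : Ch p G) (e : MonoidAlgebra k G) (x : st σ) :
    (eC σ e).coeff x =
      if (x : G) ∈ Subgroup.centralizer (top σ : Set G) then e.coeff (x : G) else 0 := rfl

/-- **the idempotent of a conjugate chain is the transported idempotent** -/
theorem eC_smul {e : MonoidAlgebra k G} (he : ∀ x : MonoidAlgebra k G, e * x = x * e)
    (g : G) (σ : Ch p G) (x : st σ) :
    (eC (g • σ) e).coeff (stIso g σ x) = (eC σ e).coeff x := by
  classical
  rw [eC_coeff, eC_coeff, stIso_coe, top_smul, coeff_conj he]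
  exact if_congr mem_centralizer_cj rfl rfl

theorem eC_conj {e : MonoidAlgebra k G} (he : ∀ x : MonoidAlgebra k G, e * x = x * e)
    {σ τ : Ch p G} (h : chRel σ τ) :
    ∃ φ : st σ ≃* st τ, ∀ x, (eC τ e).coeff (φ x) = (eC σ e).coeff x := by
  obtain ⟨g, rfl⟩ := chRel_iff.1 h
  exact ⟨stIso g σ, eC_smul he g σ⟩


theorem lc_eC {e : MonoidAlgebra k G} (he : ∀ x : MonoidAlgebra k G, e * x = x * e)
    {σ τ : Ch p G} (h : chRel σ τ) : lc (eC σ e) = lc (eC τ e) := by
  obtain ⟨φ, hφ⟩ := eC_conj he h
  exact (SCC538.lc_congr φ _ _ hφ).symm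

theorem f0_eC {e : MonoidAlgebra k G} (he : ∀ x : MonoidAlgebra k G, e * x = x * e)
    {σ τ : Ch p G} (h : chRel σ τ) : f0 (eC σ e) = f0 (eC τ e) := by
  obtain ⟨φ, hφ⟩ := eC_conj he h
  exact (SCC538.f0_congr φ _ _ hφ).symm

end conj

section kc
variable {k G H : Type} [Field k] [Group G] [Group H]

/-- transport of the centre part along a group isomorphism -/
theorem kc_congr (f : G ≃* H) (e : MonoidAlgebra k G) (e' : MonoidAlgebra k H)
    (h : ∀ g, e'.coeff (f g) = e.coeff g) : kc e' = kc e := by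
  have h1 : e' = mapDomainRingEquiv k f e := by
    apply MonoidAlgebra.coeff_injective
    ext x
    rw [coeff_mapDomainRingEquiv]
    obtain ⟨g, rfl⟩ := f.surjective x
    rw [h]
    simp [Finsupp.equivMapDomain]
  subst h1
  unfold kc
  symm
  refine LinearEquiv.finrank_eq ?_
  refine
    { toFun := fun z => ⟨mapDomainRingEquiv k f z.1, ?_, ?_⟩
      invFun := fun z => ⟨(mapDomainRingEquiv k f).symm z.1, ?_, ?_⟩
      map_add' := ?_
      map_smul' := ?_
      left_inv := ?_
      right_inv := ?_ }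
  · intro x
    obtain ⟨y, rfl⟩ := (mapDomainRingEquiv k f).surjective x
    rw [← map_mul, ← map_mul, z.2.1]
  · rw [← map_mul, z.2.2]
  · intro a b
    exact Subtype.ext (map_add _ _ _)
  · intro c a
    apply Subtype.ext
    apply MonoidAlgebra.coeff_injective
    ext x
    simp only [RingHom.id_apply]
    show (mapDomainRingEquiv k f (c • a.1)).coeff x = (c • mapDomainRingEquiv k f a.1).coeff x
    rw [coeff_mapDomainRingEquiv]
    show _ = c • (mapDomainRingEquiv k f a.1).coeff x
    rw [coeff_mapDomainRingEquiv]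
    rfl
  · intro x
    apply (mapDomainRingEquiv k f).injective
    rw [map_mul, map_mul, RingEquiv.apply_symm_apply, z.2.1]
  · apply (mapDomainRingEquiv k f).injective
    rw [map_mul, RingEquiv.apply_symm_apply, z.2.2]
  · intro a
    exact Subtype.ext (RingEquiv.symm_apply_apply _ _)
  · intro a
    exact Subtype.ext (RingEquiv.apply_symm_apply _ _)

variable {p : ℕ} [Finite G]

theorem kc_eC {e : MonoidAlgebra k G} (he : ∀ x : MonoidAlgebra k G, e * x = x * e)
    {σ τ : Ch p G} (h : chRel σ τ) : kc (eC σ e) = kc (eC τ e) := by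
  obtain ⟨φ, hφ⟩ := eC_conj he h
  exact (kc_congr φ _ _ hφ).symm

end kc

end Crest.Agent.R170.ORB700
end

-- ▼ part R170/OS_182
section

set_option autoImplicit false

/-!
Row 170, leaf OS (Osima's theorem, purely modular proof): the coefficients of a central idempotent
of `k[G]`, `char k = p`, vanish on the `p`-singular elements.

* `restrict_mul` : restriction of coefficients to the centraliser of a `p`-element `u` is
  multiplicative on the elements commuting with `u` (Brauer homomorphism).
* `coeff_central_pow` : `u` central, `u ≠ 1` a `p`-element: the coefficient of `x ^ (p ^ n)` at `u` is `0`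
  for `|G| ∣ p ^ n * r`, `p ∤ r`.
* `osima`, `os : SOs p k`.
-/

namespace Crest.Agent.R170.OS182

open Crest.AlgebraR.Weights Crest.Agent.R170.J482

section restrict
variable {k G : Type*} [Field k] [Group G] [Finite G]

theorem restrictCoeff_coeff (H : Subgroup G) (z : MonoidAlgebra k G) (h : H) :
    (restrictCoeff H z).coeff h = z.coeff (h : G) := rfl

/-- conjugation by `u` -/
def cj {G : Type*} [Group G] (u : G) : Function.End G := fun g => u * g * u⁻¹

theorem cj_apply {G : Type*} [Group G] (u g : G) : cj u g = u * g * u⁻¹ := rfl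

theorem cj_pow {G : Type*} [Group G] (u : G) (m : ℕ) (g : G) :
    (cj u ^ m) g = u ^ m * g * (u ^ m)⁻¹ := by
  induction m generalizing g with
  | zero => rw [pow_zero, pow_zero]; change g = _; simp
  | succ m ih =>
    rw [pow_succ]
    change (cj u ^ m) (cj u g) = _
    rw [ih, pow_succ, cj_apply]
    simp only [mul_assoc, mul_inv_rev]

/-- Brauer homomorphism at a `p`-element. -/
theorem restrict_mul (p : ℕ) [Fact p.Prime] [CharP k p] (u : G) (n : ℕ) (hu : u ^ p ^ n = 1)
    (x y : MonoidAlgebra k G) (hx : ∀ g, x.coeff (u * g * u⁻¹) = x.coeff g)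
    (hy : ∀ g, y.coeff (u * g * u⁻¹) = y.coeff g) :
    restrictCoeff (Subgroup.centralizer ({u} : Set G)) (x * y) =
      restrictCoeff (Subgroup.centralizer ({u} : Set G)) x *
        restrictCoeff (Subgroup.centralizer ({u} : Set G)) y := by
  classical
  have := Fintype.ofFinite G
  have := Fintype.ofFinite (Subgroup.centralizer ({u} : Set G))
  apply MonoidAlgebra.coeff_injective
  ext c
  have hc : u * (c : G) = c * u := (Subgroup.mem_centralizer_singleton_iff.1 c.2).symm
  rw [restrictCoeff_coeff, coeff_mul_fin, coeff_mul_fin]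
  have hcj : (cj u) ^ p ^ n = 1 := by
    funext g
    rw [cj_pow, hu]
    change _ = g
    simp
  rw [sum_fixed p n (cj u) hcj (fun h : G => x.coeff h * y.coeff (h⁻¹ * c))
    (by
      intro g
      change x.coeff (u * g * u⁻¹) * y.coeff ((u * g * u⁻¹)⁻¹ * c) = _
      rw [hx]
      congr 1
      rw [← hy (g⁻¹ * c)]
      congr 1
      rw [mul_assoc (u) (g⁻¹ * (c : G)) u⁻¹, mul_assoc g⁻¹ (c : G) u⁻¹]
      have h3 : (c : G) * u⁻¹ = u⁻¹ * c := by
        rw [mul_inv_eq_iff_eq_mul, mul_assoc, ← hc, inv_mul_cancel_left]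
      rw [h3]
      simp only [mul_inv_rev, inv_inv, mul_assoc])]
  refine Finset.sum_subtype _ ?_ (fun h : G => x.coeff h * y.coeff (h⁻¹ * c))
  intro g
  simp only [Finset.mem_filter, Finset.mem_univ, true_and]
  rw [Subgroup.mem_centralizer_singleton_iff, cj_apply, mul_inv_eq_iff_eq_mul]
  exact eq_comm

theorem restrict_pow (p : ℕ) [Fact p.Prime] [CharP k p] (u : G) (n : ℕ) (hu : u ^ p ^ n = 1)
    (x : MonoidAlgebra k G) (hx : Commute (MonoidAlgebra.single u (1 : k)) x) (m : ℕ) :
    restrictCoeff (Subgroup.centralizer ({u} : Set G)) (x ^ (m + 1)) =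
      restrictCoeff (Subgroup.centralizer ({u} : Set G)) x ^ (m + 1) := by
  have hc : ∀ y : MonoidAlgebra k G, Commute (MonoidAlgebra.single u (1 : k)) y →
      ∀ g, y.coeff (u * g * u⁻¹) = y.coeff g := by
    intro y hy g
    have := congrArg (fun z => z.coeff (u * g)) hy.eq
    simp only [MonoidAlgebra.coeff_single_mul_apply, MonoidAlgebra.coeff_mul_single_apply] at this
    simpa using this.symm
  induction m with
  | zero => simp
  | succ m ih =>
    rw [pow_succ, restrict_mul p u n hu _ _ (hc _ (hx.pow_right _)) (hc _ hx), ih, pow_succ _ (m + 1)]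

end restrict

section central
variable {k G : Type*} [Field k] [Group G] [Finite G]

/-- coefficient at a central `p`-element `u ≠ 1` of a `p ^ n`-th power -/
theorem coeff_central_pow (p : ℕ) [hp : Fact p.Prime] [CharP k p] (u : G) (hu : ∀ g, u * g = g * u)
    (n r : ℕ) (hG : ∀ g : G, g ^ (p ^ n * r) = 1) (hur : u ^ r ≠ 1)
    (x : MonoidAlgebra k G) : (x ^ p ^ n).coeff u = 0 := by
  classical
  have := Fintype.ofFinite G
  let lam : MonoidAlgebra k G →+ k :=
    { toFun := fun z => z.coeff u
      map_zero' := rfl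
      map_add' := fun _ _ => rfl }
  have hlam : ∀ a b, lam (a * b) = lam (b * a) := by
    intro a b
    change (a * b).coeff u = (b * a).coeff u
    rw [coeff_mul_fin, coeff_mul_fin]
    refine Fintype.sum_bijective (fun h => h⁻¹ * u)
      ⟨fun a b hab => by simpa using hab, fun g => ⟨u * g⁻¹, by
        simp only [mul_inv_rev, inv_inv]
        rw [mul_assoc, inv_mul_cancel, mul_one]⟩⟩ _ _ ?_
    intro h
    rw [mul_comm]
    congr 2
    rw [mul_inv_rev, inv_inv, mul_assoc, ← hu h]
    simp
  have h := trace_pow (A := MonoidAlgebra k G) (R := k) p n lam hlam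
    (fun g : G => MonoidAlgebra.single g (x.coeff g))
  rw [← eq_sum_single] at h
  change (x ^ p ^ n).coeff u = _ at h
  rw [h]
  refine Finset.sum_eq_zero fun g _ => ?_
  change (MonoidAlgebra.single g (x.coeff g) ^ p ^ n).coeff u = 0
  rw [MonoidAlgebra.single_pow, MonoidAlgebra.coeff_single, Finsupp.single_apply, if_neg]
  intro hgu
  have h1 : u ^ r = 1 := by rw [← hgu, ← pow_mul, hG]
  exact hur h1

end central

section osima
variable {k G : Type*} [Field k] [Group G] [Finite G]

/-- **Osima**: the coefficients of a central idempotent vanish on the `p`-singular elements. -/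
theorem osima (p : ℕ) [hp : Fact p.Prime] [CharP k p] (e : MonoidAlgebra k G)
    (hc : ∀ x, e * x = x * e) (hi : e * e = e) (g : G) (hg : p ∣ orderOf g) : e.coeff g = 0 := by
  classical
  have := Fintype.ofFinite G
  obtain ⟨n, r, hr, hcard⟩ := Nat.exists_eq_pow_mul_and_not_dvd
    (Nat.card_pos (α := G)).ne' p hp.out.ne_one
  have hcop : Nat.Coprime (p ^ n) r := Nat.Coprime.pow_left n ((Nat.Prime.coprime_iff_not_dvd hp.out).2 hr)
  have hn : n ≠ 0 := by
    rintro rfl
    rw [pow_zero, one_mul] at hcard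
    exact hr (hcard ▸ hg.trans (orderOf_dvd_natCard g))
  have hpn : p ∣ p ^ n := dvd_pow_self p hn
  obtain ⟨K, hK1, hK2⟩ := Nat.chineseRemainder hcop 1 0
  have hK : 1 ≤ K := by
    rcases Nat.eq_zero_or_pos K with h | h
    · subst h
      have := (Nat.modEq_iff_dvd' (Nat.zero_le 1)).1 hK1
      simp only [Nat.sub_zero, Nat.dvd_one] at this
      rw [this] at hpn
      exact absurd (Nat.dvd_one.1 hpn) hp.out.ne_one
    · exact h
  obtain ⟨t, ht⟩ := (Nat.modEq_iff_dvd' hK).1 hK1.symm
  have hKr : r ∣ K := (Nat.modEq_zero_iff_dvd).1 hK2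
  have hKt : K = 1 + t * p ^ n := by rw [mul_comm t, ← ht]; omega
  have hpow : ∀ h : G, h ^ (p ^ n * r) = 1 := fun h => by rw [← hcard]; exact pow_card_eq_one'
  set u := g ^ K with hu
  have hup : u ^ p ^ n = 1 := by
    obtain ⟨s, rfl⟩ := hKr
    rw [hu, ← pow_mul, show r * s * p ^ n = p ^ n * r * s by ring, pow_mul, hpow, one_pow]
  have hu1 : u ≠ 1 := by
    intro h
    have h1 : p ∣ 1 + t * p ^ n := hKt ▸ hg.trans (orderOf_dvd_of_pow_eq_one h)
    have h2 : p ∣ 1 := (Nat.dvd_add_left (hpn.mul_left t)).1 h1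
    exact hp.out.ne_one (Nat.dvd_one.1 h2)
  have hur : u ^ r ≠ 1 := by
    intro h
    apply hu1
    have h1 := orderOf_dvd_of_pow_eq_one h
    have h2 := orderOf_dvd_of_pow_eq_one hup
    have h3 := Nat.dvd_gcd h2 h1
    rw [Nat.Coprime] at hcop
    rw [hcop] at h3
    exact orderOf_eq_one_iff.1 (Nat.dvd_one.1 h3)
  -- the element `x = e * g ^ t`
  set x : MonoidAlgebra k G := e * MonoidAlgebra.single (g ^ t) 1 with hx
  have hcomm : Commute (MonoidAlgebra.single u (1 : k)) x := by
    refine Commute.mul_right (hc _).symm ?_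
    refine MonoidAlgebra.single_commute_single ?_ (Commute.one_left _)
    exact (Commute.refl g).pow_pow _ _
  have hxpow : x ^ p ^ n = e * MonoidAlgebra.single (g ^ (t * p ^ n)) 1 := by
    rw [hx, Commute.mul_pow (hc _), MonoidAlgebra.single_pow, one_pow, ← pow_mul,
      IsIdempotentElem.pow_eq hi (pow_pos hp.out.pos n).ne']
  have hval : (x ^ p ^ n).coeff u = e.coeff g := by
    rw [hxpow, MonoidAlgebra.coeff_mul_single_apply, mul_one, hu, hKt, pow_add, pow_one,
      mul_inv_cancel_right]
  rw [← hval]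
  set H := Subgroup.centralizer ({u} : Set G) with hH
  have huH : u ∈ H := Subgroup.mem_centralizer_singleton_iff.2 rfl
  obtain ⟨m, hm⟩ : ∃ m, p ^ n = m + 1 := ⟨p ^ n - 1, by have := pow_pos hp.out.pos n; omega⟩
  have h1 := restrict_pow p u n hup x hcomm m
  rw [← hm] at h1
  have h2 : (restrictCoeff H (x ^ p ^ n)).coeff ⟨u, huH⟩ =
      (restrictCoeff H x ^ p ^ n).coeff ⟨u, huH⟩ := by rw [h1]
  rw [restrictCoeff_coeff] at h2
  change (x ^ p ^ n).coeff u = _ at h2
  rw [h2]
  refine coeff_central_pow p (⟨u, huH⟩ : H) ?_ n r ?_ ?_ _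
  · rintro ⟨h, hh⟩
    apply Subtype.ext
    exact (Subgroup.mem_centralizer_singleton_iff.1 hh).symm
  · rintro ⟨h, hh⟩
    apply Subtype.ext
    exact hpow h
  · intro h
    exact hur (congrArg Subtype.val h)

/-- leaf OS, literal form -/
theorem os (p : ℕ) [Fact p.Prime] (k : Type) [Field k] [IsAlgClosed k] [CharP k p] : SOs p k := by
  intro G _ _ e he g hg
  refine osima p e he.1 he.2 g ?_
  by_contra h
  exact hg ((Nat.Prime.coprime_iff_not_dvd (Fact.out : p.Prime)).2 h).symm

end osima

end Crest.Agent.R170.OS182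
end

-- ▼ part R170/TransK_876
section

/-!
Row 170, leaf K (helper876): transport of `simpleClassCount` and `lc` along isomorphisms.
-/

set_option autoImplicit false

namespace Crest.Agent.R170.K876

open MonoidAlgebra Crest.AlgebraR.Weights

attribute [local instance] RingHomInvPair.of_ringEquiv

section
variable {A B : Type*} [Ring A] [Ring B] (f : A ≃+* B)

/-- the order isomorphism of the lattices of left ideals -/
def oI : Submodule A A ≃o Submodule B B :=
  Submodule.orderIsoMapComap (f.toSemilinearEquiv)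

theorem mem_oI (m : Submodule A A) (x : A) : f x ∈ oI f m ↔ x ∈ m := by
  unfold oI
  constructor
  · intro h
    obtain ⟨y, hy, hxy⟩ := h
    have : y = x := f.injective hxy
    rwa [← this]
  · intro h
    exact ⟨x, h, rfl⟩

theorem quot_congr_of {m m' : Submodule A A} (h : Nonempty ((A ⧸ m) ≃ₗ[A] (A ⧸ m'))) :
    Nonempty ((B ⧸ oI f m) ≃ₗ[B] (B ⧸ oI f m')) := by
  obtain ⟨g⟩ := h
  have e1 : (A ⧸ m) ≃ₛₗ[(f : A →+* B)] (B ⧸ oI f m) :=
    Submodule.Quotient.equiv m (oI f m) f.toSemilinearEquiv rfl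
  have e2 : (A ⧸ m') ≃ₛₗ[(f : A →+* B)] (B ⧸ oI f m') :=
    Submodule.Quotient.equiv m' (oI f m') f.toSemilinearEquiv rfl
  exact ⟨(e1.symm.trans g).trans e2⟩

theorem projective_oI (m : Submodule A A) :
    Module.Projective A (A ⧸ m) ↔ Module.Projective B (B ⧸ oI f m) := by
  have e1 : (A ⧸ m) ≃ₛₗ[(f : A →+* B)] (B ⧸ oI f m) :=
    Submodule.Quotient.equiv m (oI f m) f.toSemilinearEquiv rfl
  constructor
  · intro hp
    exact Module.Projective.of_equiv e1
  · intro hp
    exact Module.Projective.of_equiv e1.symm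

theorem simpleClassCount_congr (P : Submodule A A → Prop) (P' : Submodule B B → Prop)
    (h : ∀ m, P m ↔ P' (oI f m)) : simpleClassCount A P = simpleClassCount B P' := by
  unfold simpleClassCount
  refine Nat.card_congr (Quotient.congr ?_ ?_)
  · exact (oI f).toEquiv.subtypeEquiv fun m => by
      rw [h m]
      simp [(oI f).isCoatom_iff]
  · intro m m'
    constructor
    · intro hm
      exact quot_congr_of f hm
    · intro hm
      have h1 : ∀ m : Submodule A A, oI f.symm (oI f m) = m := by
        intro m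
        ext x
        have := mem_oI f.symm (oI f m) (f x)
        rw [RingEquiv.symm_apply_apply] at this
        rw [this, mem_oI]
      have h2 := quot_congr_of f.symm hm
      have h3 : Nonempty ((A ⧸ oI f.symm (oI f m.1)) ≃ₗ[A] (A ⧸ oI f.symm (oI f m'.1))) := h2
      rw [h1, h1] at h3
      exact h3
end

section
variable {k : Type} [Field k] {G H : Type} [Group G] [Group H]

/-- transport of `lc` along a group isomorphism, in coefficients -/
theorem lc_congr (φ : G ≃* H) (e : MonoidAlgebra k G) (e' : MonoidAlgebra k H)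
    (h : ∀ g, e'.coeff (φ g) = e.coeff g) : lc e' = lc e := by
  have he : MonoidAlgebra.domCongr k k φ e = e' := by
    ext n
    rw [MonoidAlgebra.coeff_domCongr, ← h, MulEquiv.apply_symm_apply]
  unfold lc blockSimpleCount
  symm
  apply simpleClassCount_congr (MonoidAlgebra.domCongr k k φ).toRingEquiv
  intro m
  rw [← mem_oI (MonoidAlgebra.domCongr k k φ).toRingEquiv m (1 - e)]
  rw [map_sub, map_one]
  rw [← he]
  rfl
/-- transport of `f0` along a group isomorphism, in coefficients -/
theorem f0_congr (φ : G ≃* H) (e : MonoidAlgebra k G) (e' : MonoidAlgebra k H)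
    (h : ∀ g, e'.coeff (φ g) = e.coeff g) : f0 e' = f0 e := by
  have he : MonoidAlgebra.domCongr k k φ e = e' := by
    ext n
    rw [MonoidAlgebra.coeff_domCongr, ← h, MulEquiv.apply_symm_apply]
  unfold f0
  symm
  apply simpleClassCount_congr (MonoidAlgebra.domCongr k k φ).toRingEquiv
  intro m
  refine and_congr (projective_oI _ m) ?_
  · rw [← mem_oI (MonoidAlgebra.domCongr k k φ).toRingEquiv m (1 - e)]
    rw [map_sub, map_one]
    rw [← he]
    rfl
end

end Crest.Agent.R170.K876
end

-- ▼ part R170/TogK_876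
section

/-!
Row 170, leaf K (helper876), part 1: the toggle involution on chains of `p`-subgroups.

For a nontrivial `p`-subgroup `U` normalising every member of a chain `σ` of nontrivial
`p`-subgroups, put `base σ U = ⨆ {Q ∈ σ | ¬ U ≤ Q}` and `R = base σ U ⊔ U`, and toggle the
membership of `R` in `σ`.
-/

set_option autoImplicit false

namespace Crest.Agent.R170.K876

open scoped Classical

variable {G : Type*} [Group G]

/-- `σ` is a chain of nontrivial `p`-subgroups. -/
def IsPChain (p : ℕ) (σ : Finset (Subgroup G)) : Prop :=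
  (∀ Q ∈ σ, Q ≠ ⊥ ∧ IsPGroup p Q) ∧ IsChain (· ≤ ·) (σ : Set (Subgroup G))

/-- The stabiliser of a chain (as a set of subgroups each of which is normalised). -/
def stab (σ : Finset (Subgroup G)) : Subgroup G :=
  ⨅ Q ∈ σ, Subgroup.normalizer (Q : Set G)

/-- The top of a chain. -/
def top (σ : Finset (Subgroup G)) : Subgroup G := σ.sup id

noncomputable def base (σ : Finset (Subgroup G)) (U : Subgroup G) : Subgroup G :=
  (σ.filter fun Q => ¬ U ≤ Q).sup id

noncomputable def toggle (U : Subgroup G) (σ : Finset (Subgroup G)) : Finset (Subgroup G) :=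
  if base σ U ⊔ U ∈ σ then σ.erase (base σ U ⊔ U) else insert (base σ U ⊔ U) σ

theorem toggle_of_mem {U : Subgroup G} {σ : Finset (Subgroup G)} (h : base σ U ⊔ U ∈ σ) :
    toggle U σ = σ.erase (base σ U ⊔ U) := if_pos h

theorem toggle_of_not_mem {U : Subgroup G} {σ : Finset (Subgroup G)} (h : base σ U ⊔ U ∉ σ) :
    toggle U σ = insert (base σ U ⊔ U) σ := if_neg h


theorem le_stab {σ : Finset (Subgroup G)} {U : Subgroup G} :
    U ≤ stab σ ↔ ∀ Q ∈ σ, U ≤ Subgroup.normalizer (Q : Set G) := by
  simp [stab]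

theorem filter_toggle (U : Subgroup G) (σ : Finset (Subgroup G)) :
    ((toggle U σ).filter fun Q => ¬ U ≤ Q) = σ.filter fun Q => ¬ U ≤ Q := by
  have hU : U ≤ base σ U ⊔ U := le_sup_right
  by_cases h : base σ U ⊔ U ∈ σ
  · rw [toggle_of_mem h]
    ext Q
    simp only [Finset.mem_filter, Finset.mem_erase]
    constructor
    · rintro ⟨⟨_, h1⟩, h2⟩
      exact ⟨h1, h2⟩
    · rintro ⟨h1, h2⟩
      refine ⟨⟨?_, h1⟩, h2⟩
      rintro rfl
      exact h2 hU
  · rw [toggle_of_not_mem h]
    ext Q
    simp only [Finset.mem_filter, Finset.mem_insert]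
    constructor
    · rintro ⟨h1 | h1, h2⟩
      · subst h1
        exact absurd hU h2
      · exact ⟨h1, h2⟩
    · rintro ⟨h1, h2⟩
      exact ⟨Or.inr h1, h2⟩

theorem base_toggle (U : Subgroup G) (σ : Finset (Subgroup G)) :
    base (toggle U σ) U = base σ U := by
  unfold base
  rw [filter_toggle]

theorem toggle_toggle (U : Subgroup G) (σ : Finset (Subgroup G)) :
    toggle U (toggle U σ) = σ := by
  have hb := base_toggle U σ
  by_cases h : base σ U ⊔ U ∈ σ
  · have h1 := toggle_of_mem h
    have h2 : base (toggle U σ) U ⊔ U ∉ toggle U σ := by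
      rw [hb, h1]; simp
    rw [toggle_of_not_mem h2, hb, h1, Finset.insert_erase h]
  · have h1 := toggle_of_not_mem h
    have h2 : base (toggle U σ) U ⊔ U ∈ toggle U σ := by
      rw [hb, h1]; simp
    rw [toggle_of_mem h2, hb, h1, Finset.erase_insert h]

/-- the sign is flipped -/
theorem neg_one_pow_card_toggle (U : Subgroup G) (σ : Finset (Subgroup G)) :
    (-1 : ℤ) ^ (toggle U σ).card = - (-1 : ℤ) ^ σ.card := by
  by_cases h : base σ U ⊔ U ∈ σ
  · rw [toggle_of_mem h]
    have h1 : σ.card = (σ.erase (base σ U ⊔ U)).card + 1 := by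
      rw [Finset.card_erase_of_mem h]
      have : 0 < σ.card := Finset.card_pos.2 ⟨_, h⟩
      omega
    rw [h1, pow_succ]; ring
  · rw [toggle_of_not_mem h, Finset.card_insert_of_notMem h, pow_succ]; ring

theorem toggle_ne (U : Subgroup G) (σ : Finset (Subgroup G)) : toggle U σ ≠ σ := by
  intro h
  have h1 := neg_one_pow_card_toggle U σ
  rw [h] at h1
  have h2 : (-1 : ℤ) ^ σ.card ≠ 0 := pow_ne_zero _ (by norm_num)
  omega

theorem base_le_top (σ : Finset (Subgroup G)) (U : Subgroup G) : base σ U ≤ top σ :=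
  Finset.sup_mono (Finset.filter_subset _ _)

theorem le_base {σ : Finset (Subgroup G)} {U Q : Subgroup G} (hQ : Q ∈ σ) (h : ¬ U ≤ Q) :
    Q ≤ base σ U :=
  Finset.le_sup (f := id) (Finset.mem_filter.2 ⟨hQ, h⟩)

/-- `sup σ ⊔ U` is unchanged -/
theorem top_toggle_sup (U : Subgroup G) (σ : Finset (Subgroup G)) :
    top (toggle U σ) ⊔ U = top σ ⊔ U := by
  have key : ∀ τ : Finset (Subgroup G), base τ U ⊔ U ∉ τ →
      top (insert (base τ U ⊔ U) τ) ⊔ U = top τ ⊔ U := by
    intro τ _
    have h1 : top (insert (base τ U ⊔ U) τ) = (base τ U ⊔ U) ⊔ top τ := by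
      unfold top
      rw [Finset.sup_insert]; rfl
    rw [h1]
    have h2 := base_le_top τ U
    apply le_antisymm
    · exact sup_le (sup_le (sup_le (h2.trans le_sup_left) le_sup_right) le_sup_left) le_sup_right
    · exact sup_le (le_sup_right.trans le_sup_left) le_sup_right
  by_cases h : base σ U ⊔ U ∈ σ
  · have h2 : base (toggle U σ) U ⊔ U ∉ toggle U σ := by
      rw [base_toggle, toggle_of_mem h]; simp
    have h3 := key _ h2
    rw [← toggle_of_not_mem h2, toggle_toggle] at h3
    exact h3.symm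
  · rw [toggle_of_not_mem h]
    exact key σ h

/-- in a chain, `base` is `⊥` or a member not containing `U` -/
theorem base_eq_bot_or_mem {σ : Finset (Subgroup G)} {U : Subgroup G}
    (hσ : IsChain (· ≤ ·) (σ : Set (Subgroup G))) :
    base σ U = ⊥ ∨ (base σ U ∈ σ ∧ ¬ U ≤ base σ U) := by
  unfold base
  set τ := σ.filter fun Q => ¬ U ≤ Q with hτ
  rcases τ.eq_empty_or_nonempty with h | h
  · left; rw [h]; rfl
  · right
    have hd : DirectedOn (· ≤ ·) (τ : Set (Subgroup G)) := by
      apply IsChain.directedOn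
      exact hσ.mono (by rw [hτ]; intro x hx; exact (Finset.mem_filter.1 hx).1)
    have h1 : τ.sup id ∈ τ := by
      obtain ⟨M, hM, hmax⟩ := τ.exists_maximal h
      have : τ.sup id = M := by
        apply le_antisymm
        · apply Finset.sup_le
          intro Q hQ
          rcases eq_or_ne Q M with rfl | hne
          · exact le_rfl
          · have hQ' : Q ∈ (σ : Set (Subgroup G)) := (Finset.mem_filter.1 hQ).1
            have hM' : M ∈ (σ : Set (Subgroup G)) := (Finset.mem_filter.1 hM).1
            rcases hσ hQ' hM' hne with h2 | h2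
            · exact h2
            · exact hmax hQ h2
        · exact Finset.le_sup (f := id) hM
      rw [this]; exact hM
    exact Finset.mem_filter.1 (by rw [← hτ]; exact h1)

theorem isPGroup_sup {p : ℕ} {B U : Subgroup G} (hB : IsPGroup p B) (hU : IsPGroup p U)
    (hn : U ≤ Subgroup.normalizer (B : Set G)) : IsPGroup p (B ⊔ U : Subgroup G) := by
  rw [sup_comm]
  exact IsPGroup.to_sup_of_normal_right' hU hB hn

theorem mem_normalizer_sup {B U : Subgroup G} {g : G}
    (hB : g ∈ Subgroup.normalizer (B : Set G)) (hU : g ∈ Subgroup.normalizer (U : Set G)) :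
    g ∈ Subgroup.normalizer ((B ⊔ U : Subgroup G) : Set G) := by
  rw [Subgroup.mem_normalizer_iff_map_conj_eq] at hB hU ⊢
  rw [Subgroup.map_sup, hB, hU]

theorem mem_normalizer_bot (g : G) : g ∈ Subgroup.normalizer ((⊥ : Subgroup G) : Set G) := by
  rw [Subgroup.mem_normalizer_iff_map_conj_eq, Subgroup.map_bot]

theorem le_normalizer_base {σ : Finset (Subgroup G)} {U V : Subgroup G}
    (hσ : IsChain (· ≤ ·) (σ : Set (Subgroup G))) (hV : V ≤ stab σ) :
    V ≤ Subgroup.normalizer (base σ U : Set G) := by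
  rcases base_eq_bot_or_mem (U := U) hσ with h | ⟨h, _⟩
  · rw [h]
    intro v _
    exact mem_normalizer_bot v
  · exact le_stab.1 hV _ h

/-- `R = base σ U ⊔ U` is a nontrivial `p`-group -/
theorem isPGroup_R {p : ℕ} {σ : Finset (Subgroup G)} {U : Subgroup G} (hσ : IsPChain p σ)
    (hU : IsPGroup p U) (hn : U ≤ stab σ) : IsPGroup p (base σ U ⊔ U : Subgroup G) := by
  refine isPGroup_sup ?_ hU (le_normalizer_base hσ.2 hn)
  rcases base_eq_bot_or_mem (U := U) hσ.2 with h | ⟨h, _⟩
  · rw [h]; exact IsPGroup.of_bot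
  · exact (hσ.1 _ h).2

theorem isPChain_toggle {p : ℕ} {σ : Finset (Subgroup G)} {U : Subgroup G} (hσ : IsPChain p σ)
    (hU : IsPGroup p U) (hU1 : U ≠ ⊥) (hn : U ≤ stab σ) : IsPChain p (toggle U σ) := by
  by_cases h : base σ U ⊔ U ∈ σ
  · rw [toggle_of_mem h]
    refine ⟨fun Q hQ => hσ.1 Q (Finset.mem_of_mem_erase hQ), hσ.2.mono ?_⟩
    intro x hx
    exact Finset.mem_of_mem_erase hx
  · rw [toggle_of_not_mem h]
    refine ⟨?_, ?_⟩
    · intro Q hQ
      rcases Finset.mem_insert.1 hQ with rfl | hQ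
      · refine ⟨?_, isPGroup_R hσ hU hn⟩
        intro h1
        exact hU1 (le_bot_iff.1 (h1 ▸ le_sup_right))
      · exact hσ.1 Q hQ
    · rw [Finset.coe_insert]
      refine hσ.2.insert ?_
      intro Q hQ _
      by_cases hUQ : U ≤ Q
      · left
        refine sup_le ?_ hUQ
        rcases base_eq_bot_or_mem (U := U) hσ.2 with h1 | ⟨h1, h2⟩
        · rw [h1]; exact bot_le
        · rcases hσ.2.total h1 hQ with h3 | h3
          · exact h3
          · exact absurd (hUQ.trans h3) h2
      · right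
        exact (le_base hQ hUQ).trans le_sup_left

theorem le_stab_toggle_of_le {σ : Finset (Subgroup G)} {U V : Subgroup G}
    (hσ : IsChain (· ≤ ·) (σ : Set (Subgroup G)))
    (hVU : V ≤ Subgroup.normalizer (U : Set G)) (hV : V ≤ stab σ) : V ≤ stab (toggle U σ) := by
  rw [le_stab]
  intro Q hQ
  by_cases h : base σ U ⊔ U ∈ σ
  · rw [toggle_of_mem h] at hQ
    exact le_stab.1 hV Q (Finset.mem_of_mem_erase hQ)
  · rw [toggle_of_not_mem h] at hQ
    rcases Finset.mem_insert.1 hQ with rfl | hQ
    · intro v hv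
      exact mem_normalizer_sup (le_normalizer_base hσ hV hv) (hVU hv)
    · exact le_stab.1 hV Q hQ

theorem isChain_toggle {p : ℕ} {σ : Finset (Subgroup G)} {U : Subgroup G} (hσ : IsPChain p σ)
    (hU : IsPGroup p U) (hU1 : U ≠ ⊥) (hn : U ≤ stab σ) :
    IsChain (· ≤ ·) ((toggle U σ : Finset (Subgroup G)) : Set (Subgroup G)) :=
  (isPChain_toggle hσ hU hU1 hn).2

theorem le_stab_toggle {p : ℕ} {σ : Finset (Subgroup G)} {U : Subgroup G} (hσ : IsPChain p σ)
    (hn : U ≤ stab σ) : U ≤ stab (toggle U σ) :=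
  le_stab_toggle_of_le hσ.2 Subgroup.le_normalizer hn

/-- the intersection of the stabiliser with any `C ≤ N_G(U)` is unchanged -/
theorem inf_stab_toggle {p : ℕ} {σ : Finset (Subgroup G)} {U C : Subgroup G} (hσ : IsPChain p σ)
    (hU : IsPGroup p U) (hU1 : U ≠ ⊥) (hn : U ≤ stab σ)
    (hC : C ≤ Subgroup.normalizer (U : Set G)) : C ⊓ stab (toggle U σ) = C ⊓ stab σ := by
  apply le_antisymm
  · refine le_inf inf_le_left ?_
    have h1 : C ⊓ stab (toggle U σ) ≤ stab (toggle U (toggle U σ)) :=
      le_stab_toggle_of_le (isChain_toggle hσ hU hU1 hn) (inf_le_left.trans hC) inf_le_right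
    rwa [toggle_toggle] at h1
  · exact le_inf inf_le_left
      (le_stab_toggle_of_le hσ.2 (inf_le_left.trans hC) inf_le_right)


end Crest.Agent.R170.K876
end

-- ▼ part R170/K_876
section

/-!
Row 170, leaf K (helper876), part 2: `SB2` and `SBrCI` imply `SK`.
-/

set_option autoImplicit false

namespace Crest.Agent.R170.K876

open MonoidAlgebra Crest.AlgebraR.Weights Crest.AlgebraR.Blocks Finset

open scoped Classical

theorem finite_ch (p : ℕ) (G : Type) [Group G] [Finite G] : Finite (Ch p G) := by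
  unfold Ch
  infer_instance

/-! ### sums over conjugacy classes -/

section cls
variable {H : Type} [Group H] [Finite H]

theorem card_centralizer_eq (g u : H) (h : IsConj g u) :
    Nat.card (Subgroup.centralizer ({u} : Set H)) = Nat.card {x : H // x * g * x⁻¹ = u} := by
  obtain ⟨x0, hx0⟩ := isConj_iff.1 h
  refine Nat.card_congr ⟨fun y => ⟨y.1 * x0, ?_⟩, fun x => ⟨x.1 * x0⁻¹, ?_⟩, ?_, ?_⟩
  · have hy := Subgroup.mem_centralizer_singleton_iff.1 y.2
    calc y.1 * x0 * g * (y.1 * x0)⁻¹ = y.1 * (x0 * g * x0⁻¹) * y.1⁻¹ := by group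
      _ = y.1 * u * y.1⁻¹ := by rw [hx0]
      _ = u := by rw [hy]; group
  · rw [Subgroup.mem_centralizer_singleton_iff]
    have hx := x.2
    have h2 : x0⁻¹ * u = g * x0⁻¹ := by rw [← hx0]; group
    calc x.1 * x0⁻¹ * u = x.1 * (x0⁻¹ * u) := by group
      _ = x.1 * (g * x0⁻¹) := by rw [h2]
      _ = (x.1 * g * x.1⁻¹) * (x.1 * x0⁻¹) := by group
      _ = u * (x.1 * x0⁻¹) := by rw [hx]
  · intro y; ext; simp
  · intro x; ext; simp

theorem sum_class [Fintype H] (g : H) :
    ∑ u ∈ (univ : Finset H).filter (fun u => ConjClasses.mk u = ConjClasses.mk g),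
      Nat.card (Subgroup.centralizer ({u} : Set H)) = Nat.card H := by
  have h1 := Finset.card_eq_sum_card_fiberwise (s := (univ : Finset H))
    (t := (univ : Finset H).filter (fun u => ConjClasses.mk u = ConjClasses.mk g))
    (f := fun x => x * g * x⁻¹) (by
      intro x _
      simp only [coe_filter, mem_univ, true_and, Set.mem_ofPred_eq]
      rw [ConjClasses.mk_eq_mk_iff_isConj]
      exact (isConj_iff.2 ⟨x, rfl⟩).symm)
  rw [Nat.card_eq_fintype_card, ← Finset.card_univ, h1]
  refine Finset.sum_congr rfl fun u hu => ?_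
  have hu' : IsConj g u := by
    have := (mem_filter.1 hu).2
    exact (ConjClasses.mk_eq_mk_iff_isConj.1 this).symm
  rw [card_centralizer_eq g u hu', Nat.card_eq_fintype_card, Fintype.card_subtype]

theorem cls_sum [Fintype H] [Fintype (ConjClasses H)] (f : H → ℤ)
    (hf : ∀ g u, f (g * u * g⁻¹) = f u) :
    ∑ c : ConjClasses H, (Nat.card H : ℤ) * f c.out =
      ∑ u : H, (Nat.card (Subgroup.centralizer ({u} : Set H)) : ℤ) * f u := by
  rw [← Finset.sum_fiberwise (s := (univ : Finset H)) (g := fun u : H => ConjClasses.mk u)]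
  refine Finset.sum_congr rfl fun c _ => ?_
  have hc : ConjClasses.mk c.out = c := Quotient.out_eq c
  have h1 := sum_class (H := H) c.out
  rw [hc] at h1
  rw [← h1]
  push_cast
  rw [Finset.sum_mul]
  refine Finset.sum_congr rfl fun u hu => ?_
  have hu' : IsConj c.out u := by
    have := (mem_filter.1 hu).2
    rw [← hc] at this
    exact (ConjClasses.mk_eq_mk_iff_isConj.1 this).symm
  obtain ⟨x, hx⟩ := isConj_iff.1 hu'
  rw [← hx, hf]
end cls

/-! ### Brauer maps in coefficients -/

section brr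
variable {k G : Type} [Field k] [Group G] [Finite G]

theorem coeff_br (H Q : Subgroup G) (e : MonoidAlgebra k G) (h : H) :
    (br H Q e).coeff h =
      if (h : G) ∈ Subgroup.centralizer (Q : Set G) then e.coeff (h : G) else 0 := rfl

theorem lc_br_congr {H H' Q Q' : Subgroup G} (h : H = H') (e : MonoidAlgebra k G)
    (hc : ∀ x ∈ H, x ∈ Subgroup.centralizer (Q : Set G) ↔ x ∈ Subgroup.centralizer (Q' : Set G)) :
    lc (br H Q e) = lc (br H' Q' e) := by
  subst h
  congr 1
  ext x
  rw [coeff_br, coeff_br]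
  simp only [hc x.1 x.2]

theorem mem_centralizer_comm {x : G} {K : Subgroup G} :
    x ∈ Subgroup.centralizer (K : Set G) ↔ K ≤ Subgroup.centralizer ({x} : Set G) := by
  constructor
  · intro h y hy
    rw [Subgroup.mem_centralizer_singleton_iff]
    exact Subgroup.mem_centralizer_iff.1 h y hy
  · intro h
    rw [Subgroup.mem_centralizer_iff]
    intro y hy
    exact Subgroup.mem_centralizer_singleton_iff.1 (h hy)

/-- the iso `C_H(u) ≃ H ⊓ C_G(u)` -/
noncomputable def isoC (H : Subgroup G) (u : H) :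
    (Subgroup.centralizer ({u} : Set H)) ≃* (H ⊓ Subgroup.centralizer ({(u : G)} : Set G) :
      Subgroup G) where
  toFun x := ⟨x.1.1, Subgroup.mem_inf.2 ⟨x.1.2, Subgroup.mem_centralizer_singleton_iff.2
    (congrArg Subtype.val (Subgroup.mem_centralizer_singleton_iff.1 x.2))⟩⟩
  invFun x := ⟨⟨x.1, x.2.1⟩, by
    have := Subgroup.mem_centralizer_singleton_iff.1 x.2.2
    rw [Subgroup.mem_centralizer_singleton_iff]
    exact Subtype.ext this⟩
  left_inv x := rfl
  right_inv x := rfl
  map_mul' x y := rfl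

theorem lc_br_br (H Q : Subgroup G) (u : H) (e : MonoidAlgebra k G) :
    lc (br (Subgroup.centralizer ({u} : Set H)) (Subgroup.zpowers u) (br H Q e)) =
      lc (br (H ⊓ Subgroup.centralizer ({(u : G)} : Set G)) Q e) := by
  symm
  refine lc_congr (isoC H u) _ _ ?_
  intro x
  rw [coeff_br, coeff_br, coeff_br]
  have h1 : (x : H) ∈ Subgroup.centralizer ((Subgroup.zpowers u : Subgroup H) : Set H) := by
    rw [mem_centralizer_comm, Subgroup.zpowers_le, Subgroup.mem_centralizer_singleton_iff]
    exact (Subgroup.mem_centralizer_singleton_iff.1 x.2).symm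
  rw [if_pos h1]
  rfl

theorem card_br_br (H : Subgroup G) (u : H) :
    Nat.card (Subgroup.centralizer ({u} : Set H)) =
      Nat.card (H ⊓ Subgroup.centralizer ({(u : G)} : Set G) : Subgroup G) :=
  Nat.card_congr (isoC H u).toEquiv

theorem isPElt_coe {p : ℕ} {H : Subgroup G} (u : H) : IsPElt p u ↔ IsPElt p (u : G) := by
  unfold IsPElt
  refine exists_congr fun n => ?_
  rw [← Subgroup.coe_pow, ← Subgroup.coe_one H, Subtype.coe_inj]

theorem isPElt_conj {p : ℕ} (g u : G) : IsPElt p (g * u * g⁻¹) ↔ IsPElt p u := by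
  unfold IsPElt
  refine exists_congr fun n => ?_
  rw [conj_pow, conj_eq_one_iff]

/-- conjugation iso `C_H(u) ≃ C_H(g u g⁻¹)` -/
noncomputable def isoConj (g u : G) : (Subgroup.centralizer ({u} : Set G)) ≃*
    (Subgroup.centralizer ({g * u * g⁻¹} : Set G)) where
  toFun x := ⟨g * x.1 * g⁻¹, by
    have := Subgroup.mem_centralizer_singleton_iff.1 x.2
    rw [Subgroup.mem_centralizer_singleton_iff]
    calc g * x.1 * g⁻¹ * (g * u * g⁻¹) = g * (x.1 * u) * g⁻¹ := by group
      _ = g * (u * x.1) * g⁻¹ := by rw [this]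
      _ = g * u * g⁻¹ * (g * x.1 * g⁻¹) := by group⟩
  invFun x := ⟨g⁻¹ * x.1 * g, by
    have := Subgroup.mem_centralizer_singleton_iff.1 x.2
    rw [Subgroup.mem_centralizer_singleton_iff]
    calc g⁻¹ * x.1 * g * u = g⁻¹ * (x.1 * (g * u * g⁻¹)) * g := by group
      _ = g⁻¹ * ((g * u * g⁻¹) * x.1) * g := by rw [this]
      _ = u * (g⁻¹ * x.1 * g) := by group⟩
  left_inv x := by ext; simp only; group
  right_inv x := by ext; simp only; group
  map_mul' x y := by ext; simp only [Subgroup.coe_mul]; group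

theorem central_coeff_conj {e : MonoidAlgebra k G} (he : ∀ x : MonoidAlgebra k G, e * x = x * e)
    (g x : G) : e.coeff (g * x * g⁻¹) = e.coeff x := by
  have h := he (MonoidAlgebra.of k G g)
  have h2 := congrArg (fun z : MonoidAlgebra k G => z.coeff (g * x)) h
  simp only [MonoidAlgebra.of_apply, MonoidAlgebra.coeff_mul_single_apply, MonoidAlgebra.coeff_single_mul_apply,
    mul_one, one_mul, inv_mul_cancel_left] at h2
  exact h2

theorem lc_conj {e : MonoidAlgebra k G} (he : ∀ x : MonoidAlgebra k G, e * x = x * e) (g u : G) :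
    lc (br (Subgroup.centralizer ({g * u * g⁻¹} : Set G)) (Subgroup.zpowers (g * u * g⁻¹)) e) =
      lc (br (Subgroup.centralizer ({u} : Set G)) (Subgroup.zpowers u) e) := by
  refine lc_congr (isoConj g u) _ _ ?_
  intro x
  rw [coeff_br, coeff_br]
  have h1 : (x : G) ∈ Subgroup.centralizer ((Subgroup.zpowers u : Subgroup G) : Set G) := by
    rw [mem_centralizer_comm, Subgroup.zpowers_le, Subgroup.mem_centralizer_singleton_iff]
    exact (Subgroup.mem_centralizer_singleton_iff.1 x.2).symm
  have h2 : ((isoConj g u x : Subgroup.centralizer ({g * u * g⁻¹} : Set G)) : G) ∈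
      Subgroup.centralizer ((Subgroup.zpowers (g * u * g⁻¹) : Subgroup G) : Set G) := by
    rw [mem_centralizer_comm, Subgroup.zpowers_le, Subgroup.mem_centralizer_singleton_iff]
    exact (Subgroup.mem_centralizer_singleton_iff.1 (isoConj g u x).2).symm
  rw [if_pos h1, if_pos h2]
  exact central_coeff_conj he g x
end brr

/-! ### the toggle on `Ch p G` -/

section togg
variable {p : ℕ} {G : Type} [Group G]

theorem isPChain_ch (σ : Ch p G) : IsPChain p σ.1 :=
  ⟨fun Q hQ => ⟨(σ.2.1 Q hQ).2, (σ.2.1 Q hQ).1⟩, σ.2.2⟩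

theorem st_eq (σ : Ch p G) : st σ = stab σ.1 := rfl

theorem top_eq (σ : Ch p G) : Crest.Agent.R170.top σ = top σ.1 := by
  unfold Crest.Agent.R170.top top
  rw [Finset.sup_eq_iSup]
  rfl

noncomputable def tog (U : Subgroup G) (hU : IsPGroup p U) (hU1 : U ≠ ⊥) (σ : Ch p G)
    (h : U ≤ st σ) : Ch p G :=
  ⟨toggle U σ.1, fun Q hQ => ⟨((isPChain_toggle (isPChain_ch σ) hU hU1 h).1 Q hQ).2,
    ((isPChain_toggle (isPChain_ch σ) hU hU1 h).1 Q hQ).1⟩,
    (isPChain_toggle (isPChain_ch σ) hU hU1 h).2⟩

theorem sum_tog_eq_zero [Fintype (Ch p G)] (U : Subgroup G) (hU : IsPGroup p U) (hU1 : U ≠ ⊥)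
    (F : Ch p G → ℤ) (hF : ∀ σ (h : U ≤ st σ), F (tog U hU hU1 σ h) = F σ) :
    ∑ σ ∈ (univ : Finset (Ch p G)).filter (fun σ => U ≤ st σ), sgn σ * F σ = 0 := by
  refine Finset.sum_involution (fun σ hσ => tog U hU hU1 σ (mem_filter.1 hσ).2) ?_ ?_ ?_ ?_
  · intro σ hσ
    rw [hF]
    have h1 : sgn (tog U hU hU1 σ (mem_filter.1 hσ).2) = - sgn σ :=
      neg_one_pow_card_toggle U σ.1
    rw [h1]; ring
  · intro σ hσ _ h
    exact toggle_ne U σ.1 (congrArg Subtype.val h)
  · intro σ hσ
    exact mem_filter.2 ⟨mem_univ _, le_stab_toggle (isPChain_ch σ) (mem_filter.1 hσ).2⟩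
  · intro σ hσ
    exact Subtype.ext (toggle_toggle U σ.1)
end togg

section stt
variable {p : ℕ} {G : Type} [Group G]

theorem top_eq_bot_or_mem (σ : Ch p G) : top σ.1 = ⊥ ∨ top σ.1 ∈ σ.1 := by
  by_cases h0 : ∃ Q ∈ σ.1, True
  · right
    obtain ⟨Q0, hQ0, _⟩ := h0
    obtain ⟨M, hM, hmax⟩ := σ.1.exists_maximal ⟨Q0, hQ0⟩
    have : top σ.1 = M := by
      apply le_antisymm
      · apply Finset.sup_le
        intro Q hQ
        rcases σ.2.2.total hQ hM with h2 | h2
        · exact h2
        · exact hmax hQ h2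
      · exact Finset.le_sup (f := id) hM
    rw [this]; exact hM
  · left
    have : σ.1 = ∅ := by
      ext Q
      constructor
      · intro h; exact absurd ⟨Q, h, trivial⟩ h0
      · intro h; simp at h
    unfold top
    rw [this]; rfl

theorem isPGroup_top (σ : Ch p G) : IsPGroup p (Crest.Agent.R170.top σ) := by
  rw [top_eq]
  rcases top_eq_bot_or_mem σ with h | h
  · rw [h]; exact IsPGroup.of_bot
  · exact (σ.2.1 _ h).1

theorem st_le_normalizer_top (σ : Ch p G) :
    st σ ≤ Subgroup.normalizer ((Crest.Agent.R170.top σ : Subgroup G) : Set G) := by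
  rw [top_eq]
  rcases top_eq_bot_or_mem σ with h | h
  · rw [h]
    intro x _
    exact mem_normalizer_bot x
  · rw [st_eq]
    exact le_stab.1 le_rfl _ h

theorem centralizer_le_normalizer (Q : Subgroup G) :
    Subgroup.centralizer (Q : Set G) ≤ Subgroup.normalizer (Q : Set G) := by
  intro x hx
  rw [Subgroup.mem_normalizer_iff_map_conj_eq]
  ext y
  constructor
  · rintro ⟨z, hz, rfl⟩
    have h1 := Subgroup.mem_centralizer_iff.1 hx z hz
    have h2 : (MulAut.conj x).toMonoidHom z = z := by
      change x * z * x⁻¹ = z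
      rw [← h1]; group
    have h3 : ((MulAut.conj x : MulAut G) : G →* G) z = z := h2
    rw [h3]; exact hz
  · intro hy
    refine ⟨y, hy, ?_⟩
    have h1 := Subgroup.mem_centralizer_iff.1 hx y hy
    change x * y * x⁻¹ = y
    rw [← h1]; group

theorem centralizer_top_le_st (σ : Ch p G) :
    Subgroup.centralizer ((Crest.Agent.R170.top σ : Subgroup G) : Set G) ≤ st σ := by
  rw [top_eq, st_eq, le_stab]
  intro Q hQ
  have h1 : Q ≤ top σ.1 := Finset.le_sup (f := id) hQ
  exact (Subgroup.centralizer_le (by exact_mod_cast h1)).trans (centralizer_le_normalizer Q)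
end stt

/-! ### the main theorem -/

section main
variable {p : ℕ} [Fact p.Prime] {k : Type} [Field k] [IsAlgClosed k] [CharP k p]

theorem kc_eq (hB2 : SB2 p k) {H : Type} [Group H] [Finite H] [Fintype H] (ε : MonoidAlgebra k H)
    (hε : CI ε) :
    (Nat.card H : ℤ) * kc ε = ∑ u : H, (Nat.card (Subgroup.centralizer ({u} : Set H)) : ℤ) *
      (if IsPElt p u then
        (lc (br (Subgroup.centralizer ({u} : Set H)) (Subgroup.zpowers u) ε) : ℤ) else 0) := by
  have : Fintype (ConjClasses H) := Fintype.ofFinite _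
  rw [← cls_sum (fun u : H => (if IsPElt p u then
        (lc (br (Subgroup.centralizer ({u} : Set H)) (Subgroup.zpowers u) ε) : ℤ) else 0))]
  · rw [hB2 H ε hε, ← Finset.mul_sum]
    congr 1
    have : Fintype {c : ConjClasses H // IsPElt p c.out} := Fintype.ofFinite _
    rw [finsum_eq_sum_of_fintype]
    push_cast
    rw [← Finset.sum_filter]
    symm
    apply Finset.sum_subtype
    intro c
    simp
  · intro g u
    simp only [isPElt_conj, lc_conj hε.1]

theorem isPGroup_zpowers {G : Type} [Group G] {u : G} (hu : IsPElt p u) :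
    IsPGroup p (Subgroup.zpowers u) := by
  obtain ⟨n, hn⟩ := hu
  rintro ⟨x, hx⟩
  refine ⟨n, ?_⟩
  obtain ⟨m, rfl⟩ := Subgroup.mem_zpowers_iff.1 hx
  ext
  simp only [Subgroup.coe_pow, Subgroup.coe_one]
  rw [← zpow_natCast, ← zpow_mul, mul_comm, zpow_mul, zpow_natCast, hn, one_zpow]

theorem SK_of (hB2 : SB2 p k) (hBr : SBrCI p k) : SK p k := by
  intro G _ _ e he
  have := finite_ch p G
  have : Fintype (Ch p G) := Fintype.ofFinite _
  have : Fintype G := Fintype.ofFinite _
  rw [finsum_eq_sum_of_fintype, finsum_eq_sum_of_fintype]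
  set F : Ch p G → G → ℤ := fun σ u =>
    (Nat.card (st σ ⊓ Subgroup.centralizer ({u} : Set G) : Subgroup G) : ℤ) *
      lc (br (st σ ⊓ Subgroup.centralizer ({u} : Set G)) (Crest.Agent.R170.top σ) e) with hF
  have hCI : ∀ σ : Ch p G, CI (eC σ e) := by
    intro σ
    exact hBr G e (st σ) (Crest.Agent.R170.top σ) (isPGroup_top σ) (centralizer_top_le_st σ)
      (st_le_normalizer_top σ) he
  have h1 : ∀ σ : Ch p G, (Nat.card (st σ) : ℤ) * kc (eC σ e) =
      ∑ u ∈ (univ : Finset G).filter (fun u => IsPElt p u ∧ u ∈ st σ), F σ u := by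
    intro σ
    rw [kc_eq hB2 (eC σ e) (hCI σ)]
    have h2 : ∑ u ∈ (univ : Finset G).filter (fun u => IsPElt p u ∧ u ∈ st σ), F σ u =
        ∑ u ∈ (univ : Finset G).filter (fun u => u ∈ st σ),
          if IsPElt p u then F σ u else 0 := by
      rw [← Finset.sum_filter, Finset.filter_filter]
      refine Finset.sum_congr ?_ fun _ _ => rfl
      ext u
      simp [and_comm]
    rw [h2, Finset.sum_subtype ((univ : Finset G).filter (fun u => u ∈ st σ))
      (p := fun u => u ∈ st σ) (by simp)]
    refine Finset.sum_congr rfl fun u _ => ?_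
    by_cases hu : IsPElt p u
    · rw [if_pos hu, if_pos ((isPElt_coe u).1 hu)]
      simp only [hF]
      rw [card_br_br, eC, lc_br_br]
    · rw [if_neg hu, if_neg (fun h => hu ((isPElt_coe u).2 h)), mul_zero]
  have h3 : ∑ σ : Ch p G, sgn σ * ((Nat.card (st σ) : ℤ) * kc (eC σ e)) =
      ∑ u ∈ (univ : Finset G).filter (fun u => IsPElt p u),
        ∑ σ ∈ (univ : Finset (Ch p G)).filter (fun σ => Subgroup.zpowers u ≤ st σ),
          sgn σ * F σ u := by
    simp only [h1, Finset.mul_sum]
    apply Finset.sum_comm'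
    intro σ u
    simp [and_comm]
  rw [h3, Finset.sum_eq_single 1]
  · have h4 : ((univ : Finset (Ch p G)).filter (fun σ => Subgroup.zpowers (1 : G) ≤ st σ)) =
        univ := by
      ext σ; simp
    rw [h4]
    refine Finset.sum_congr rfl fun σ _ => ?_
    congr 1
    simp only [hF]
    have h5 : st σ ⊓ Subgroup.centralizer ({(1 : G)} : Set G) = st σ := by
      apply inf_eq_left.2
      intro x _
      rw [Subgroup.mem_centralizer_singleton_iff]; simp
    rw [lc_br_congr h5 e (fun x _ => Iff.rfl), h5]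
    rfl
  · intro u hu hu1
    have hu' := (mem_filter.1 hu).2
    have hU1 : Subgroup.zpowers u ≠ ⊥ := by
      rw [Ne, Subgroup.zpowers_eq_bot]; exact hu1
    have hU := isPGroup_zpowers (p := p) hu'
    refine sum_tog_eq_zero (Subgroup.zpowers u) hU hU1 (fun σ => F σ u) ?_
    intro σ hσ
    have hC : Subgroup.centralizer ({u} : Set G) ≤
        Subgroup.normalizer ((Subgroup.zpowers u : Subgroup G) : Set G) := by
      refine le_trans ?_ (centralizer_le_normalizer (Subgroup.zpowers u))
      intro x hx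
      rw [mem_centralizer_comm, Subgroup.zpowers_le, Subgroup.mem_centralizer_singleton_iff]
      exact (Subgroup.mem_centralizer_singleton_iff.1 hx).symm
    have h6 : st (tog (Subgroup.zpowers u) hU hU1 σ hσ) ⊓ Subgroup.centralizer ({u} : Set G) =
        st σ ⊓ Subgroup.centralizer ({u} : Set G) := by
      rw [inf_comm, inf_comm (st σ)]
      exact inf_stab_toggle (isPChain_ch σ) hU hU1 hσ hC
    simp only [hF]
    have h7 : ∀ x ∈ st (tog (Subgroup.zpowers u) hU hU1 σ hσ) ⊓
        Subgroup.centralizer ({u} : Set G),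
        x ∈ Subgroup.centralizer ((Crest.Agent.R170.top (tog (Subgroup.zpowers u) hU hU1 σ hσ) :
          Subgroup G) : Set G) ↔
        x ∈ Subgroup.centralizer ((Crest.Agent.R170.top σ : Subgroup G) : Set G) := by
      intro x hx
      have hxu : Subgroup.zpowers u ≤ Subgroup.centralizer ({x} : Set G) := by
        rw [Subgroup.zpowers_le, Subgroup.mem_centralizer_singleton_iff]
        exact (Subgroup.mem_centralizer_singleton_iff.1 hx.2).symm
      have h8 := top_toggle_sup (Subgroup.zpowers u) σ.1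
      rw [mem_centralizer_comm, mem_centralizer_comm, top_eq, top_eq]
      have h9 : ∀ K : Subgroup G, K ≤ Subgroup.centralizer ({x} : Set G) ↔
          K ⊔ Subgroup.zpowers u ≤ Subgroup.centralizer ({x} : Set G) := by
        intro K
        constructor
        · intro h; exact sup_le h hxu
        · intro h; exact le_sup_left.trans h
      rw [h9, h9 (top σ.1)]
      change top (toggle (Subgroup.zpowers u) σ.1) ⊔ _ ≤ _ ↔ _
      rw [h8]
    rw [lc_br_congr h6 e h7, h6]
  · intro h
    exact absurd (mem_filter.2 ⟨mem_univ _, ⟨0, by simp⟩⟩) h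
end main

end Crest.Agent.R170.K876
end

-- ▼ part R170/B2_334
section

/-!
Row 170, leaf B2 (helper334): `dim e Z(kG) = ∑_u l(C(u), e_u)`, through class functions.
-/

set_option autoImplicit false
open scoped BigOperators

namespace Crest.Agent.R170.B2334

open Crest.Agent.R170 Crest.Agent.R170.J482

variable {k : Type} [Field k]

/-- class functions `φ` on `G` fixed by the operator `φ ↦ φ(e ·)` -/
def CFe {G : Type} [Group G] [Fintype G] (e : MonoidAlgebra k G) : Submodule k (G → k) where
  carrier := {φ | (∀ g h, φ (h * g * h⁻¹) = φ g) ∧ ∀ g, ∑ h, e.coeff h * φ (h * g) = φ g}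
  add_mem' := by
    rintro a b ⟨ha, ha'⟩ ⟨hb, hb'⟩
    refine ⟨fun g h => ?_, fun g => ?_⟩
    · simp only [Pi.add_apply, ha, hb]
    · simp only [Pi.add_apply, mul_add, Finset.sum_add_distrib, ha', hb']
  zero_mem' := ⟨fun g h => rfl, fun g => by simp⟩
  smul_mem' := by
    rintro c a ⟨ha, ha'⟩
    refine ⟨fun g h => ?_, fun g => ?_⟩
    · simp only [Pi.smul_apply, ha]
    · simp only [Pi.smul_apply, smul_eq_mul]
      rw [← ha' g, Finset.mul_sum]
      exact Finset.sum_congr rfl fun h _ => by ring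

/-- (B2a) `e Z(kG)` and the class functions fixed by `e` -/
noncomputable def eZequiv {G : Type} [Group G] [Fintype G] (e : MonoidAlgebra k G)
    (he : CI e) : eZ e ≃ₗ[k] CFe e where
  toFun z := ⟨fun g => z.1.coeff g⁻¹, by
    have hz := z.2.1
    refine ⟨fun g h => ?_, fun g => ?_⟩
    · have h1 : (z.1 * MonoidAlgebra.single h (1 : k)).coeff (h * g⁻¹) =
          (MonoidAlgebra.single h (1 : k) * z.1).coeff (h * g⁻¹) := by rw [hz]
      rw [MonoidAlgebra.coeff_mul_single_apply, MonoidAlgebra.coeff_single_mul_apply,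
        mul_one, one_mul, inv_mul_cancel_left] at h1
      have e1 : (h * g * h⁻¹)⁻¹ = h * g⁻¹ * h⁻¹ := by group
      change z.1.coeff (h * g * h⁻¹)⁻¹ = z.1.coeff g⁻¹
      rw [e1, h1]
    · have h1 : z.1 * e = z.1 := by rw [z.2.1, z.2.2]
      change ∑ h, e.coeff h * z.1.coeff (h * g)⁻¹ = z.1.coeff g⁻¹
      conv_rhs => rw [← h1, coeff_mul_fin]
      refine (Fintype.sum_equiv ((Equiv.inv G).trans (Equiv.mulLeft g⁻¹)) _ _ ?_)
      intro h
      simp only [Equiv.trans_apply, Equiv.inv_apply, Equiv.coe_mulLeft]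
      rw [mul_comm]
      congr 2
      · group
      · group⟩
  invFun φ := ⟨MonoidAlgebra.ofCoeff (Finsupp.equivFunOnFinite.symm fun g => φ.1 g⁻¹), by
    have hcoeff : ∀ g, (MonoidAlgebra.ofCoeff (Finsupp.equivFunOnFinite.symm
      fun g => φ.1 g⁻¹) : MonoidAlgebra k G).coeff g = φ.1 g⁻¹ := fun g => rfl
    have hcen : ∀ x : MonoidAlgebra k G, (MonoidAlgebra.ofCoeff (Finsupp.equivFunOnFinite.symm
      fun g => φ.1 g⁻¹) : MonoidAlgebra k G) * x = x * (MonoidAlgebra.ofCoeff
        (Finsupp.equivFunOnFinite.symm fun g => φ.1 g⁻¹)) := by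
      intro x
      rw [eq_sum_single x, Finset.mul_sum, Finset.sum_mul]
      refine Finset.sum_congr rfl fun g _ => ?_
      apply MonoidAlgebra.coeff_injective
      ext h
      rw [MonoidAlgebra.coeff_mul_single_apply, MonoidAlgebra.coeff_single_mul_apply, hcoeff,
        hcoeff, mul_comm]
      congr 1
      have := φ.2.1 (h * g⁻¹)⁻¹ g⁻¹
      rw [← this]
      congr 1
      group
    refine ⟨hcen, ?_⟩
    rw [← hcen]
    apply MonoidAlgebra.coeff_injective
    ext g
    rw [coeff_mul_fin, hcoeff]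
    rw [← φ.2.2 g⁻¹]
    refine (Fintype.sum_equiv ((Equiv.inv G).trans (Equiv.mulLeft g)) _ _ ?_).symm
    intro h
    simp only [Equiv.trans_apply, Equiv.inv_apply, Equiv.coe_mulLeft]
    rw [hcoeff, mul_comm]
    congr 2
    · group
    · group⟩
  left_inv z := by
    apply Subtype.ext
    apply MonoidAlgebra.coeff_injective
    ext g
    change z.1.coeff (g⁻¹)⁻¹ = _
    rw [inv_inv]
  right_inv φ := by
    apply Subtype.ext
    funext g
    change φ.1 (g⁻¹)⁻¹ = _
    rw [inv_inv]
  map_add' a b := rfl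
  map_smul' c a := rfl

theorem kc_eq {G : Type} [Group G] [Fintype G] (e : MonoidAlgebra k G)
    (he : CI e) : kc e = Module.finrank k (CFe e) :=
  LinearEquiv.finrank_eq (eZequiv e he)

/-! ### good exponents -/

/-- `g ^ p ^ n` is the `p'`-part of `g` -/
structure Good (p n : ℕ) (G : Type) [Group G] : Prop where
  pos : 1 ≤ n
  idem : ∀ g : G, (g ^ p ^ n) ^ p ^ n = g ^ p ^ n
  pel : ∀ g : G, IsPElt p (g * (g ^ p ^ n)⁻¹)

theorem exists_good (p : ℕ) [hp : Fact p.Prime] (G : Type) [Group G] [Finite G] :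
    ∃ n, Good p n G := by
  obtain ⟨a, m, hm, hG⟩ : ∃ a m, p.Coprime m ∧ Nat.card G = p ^ a * m := by
    have h0 : Nat.card G ≠ 0 := Nat.card_pos.ne'
    obtain ⟨a, m, hm, h⟩ := Nat.exists_eq_pow_mul_and_not_dvd h0 p hp.out.ne_one
    exact ⟨a, m, (Nat.Prime.coprime_iff_not_dvd hp.out).2 hm, h⟩
  have hm0 : 0 < m := by
    rcases Nat.eq_zero_or_pos m with h | h
    · subst h
      have h0 : Nat.card G ≠ 0 := Nat.card_pos.ne'
      simp at hG
      omega
    · exact h
  set n := (a + 1) * Nat.totient m with hn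
  have htot : 0 < Nat.totient m := Nat.totient_pos.2 hm0
  have han : a ≤ n := by nlinarith
  have hmod : p ^ n ≡ 1 [MOD m] := by
    have h := Nat.ModEq.pow_totient hm
    have h2 := h.pow (a + 1)
    rw [← pow_mul, one_pow, mul_comm] at h2
    exact h2
  have hdvd : m ∣ p ^ n - 1 := (Nat.modEq_iff_dvd' (Nat.one_le_pow _ _ hp.out.pos)).1 hmod.symm
  have hcard : ∀ g : G, g ^ (p ^ a * (p ^ n - 1)) = 1 := by
    intro g
    have : Nat.card G ∣ p ^ a * (p ^ n - 1) := by rw [hG]; exact Nat.mul_dvd_mul_left _ hdvd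
    obtain ⟨c, hc⟩ := this
    rw [hc, pow_mul, pow_card_eq_one', one_pow]
  have hkey : ∀ g : G, (g ^ p ^ n) ^ p ^ a = g ^ p ^ a := by
    intro g
    rw [← pow_mul]
    have : p ^ n * p ^ a = p ^ a * (p ^ n - 1) + p ^ a := by
      have h1 : 1 ≤ p ^ n := Nat.one_le_pow _ _ hp.out.pos
      obtain ⟨q, hq⟩ := Nat.exists_eq_add_of_le h1
      rw [hq]
      simp only [Nat.add_sub_cancel_left]
      ring
    rw [this, pow_add, hcard, one_mul]
  refine ⟨n, ?_, ?_, ?_⟩
  · rw [hn]
    exact Nat.one_le_iff_ne_zero.2 (Nat.mul_ne_zero (by omega) htot.ne')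
  · intro g
    obtain ⟨b, hb⟩ := Nat.exists_eq_add_of_le han
    have e1 : (g ^ p ^ n) ^ p ^ n = ((g ^ p ^ n) ^ p ^ a) ^ p ^ b := by
      rw [← pow_mul (g ^ p ^ n), ← pow_add, ← hb]
    have e2 : g ^ p ^ n = (g ^ p ^ a) ^ p ^ b := by
      rw [← pow_mul, ← pow_add, ← hb]
    rw [e1, hkey, ← e2]
  · intro g
    refine ⟨a, ?_⟩
    have hcomm : Commute g (g ^ p ^ n)⁻¹ := ((Commute.refl g).pow_right _).inv_right
    rw [hcomm.mul_pow, inv_pow, hkey, mul_inv_cancel]

theorem Good.sub {p n : ℕ} {G : Type} [Group G] (h : Good p n G) (H : Subgroup G) :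
    Good p n H := by
  refine ⟨h.pos, fun g => ?_, fun g => ?_⟩
  · apply Subtype.ext
    simpa using h.idem (g : G)
  · obtain ⟨m, hm⟩ := h.pel (g : G)
    refine ⟨m, ?_⟩
    apply Subtype.ext
    simpa using hm

theorem Good.pow_pel {p n : ℕ} {G : Type} [Group G] (h : Good p n G) {u : G}
    (hu : IsPElt p u) : u ^ p ^ n = 1 := by
  obtain ⟨m, hm⟩ := hu
  have h1 : ∀ j, (u ^ p ^ n) ^ p ^ (n * j) = u ^ p ^ n := by
    intro j
    induction j with
    | zero => simp
    | succ j ih => rw [mul_add, mul_one, pow_add, pow_mul, ih, h.idem]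
  have h2 : m ≤ n * m := Nat.le_mul_of_pos_left _ h.pos
  obtain ⟨b, hb⟩ := Nat.exists_eq_add_of_le h2
  rw [← h1 m, hb, ← pow_mul, mul_comm, pow_add p m b, mul_assoc, pow_mul, hm, one_pow]

/-! ### trace forms of class functions -/

section lam
variable {H : Type} [Group H] [Fintype H]

/-- the functional of a function on the group -/
noncomputable def lam (ψ : H → k) : MonoidAlgebra k H →+ k where
  toFun a := ∑ h, a.coeff h * ψ h
  map_zero' := by simp
  map_add' a b := by
    rw [← Finset.sum_add_distrib]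
    refine Finset.sum_congr rfl fun h _ => ?_
    rw [MonoidAlgebra.coeff_add, Finsupp.add_apply, add_mul]

theorem lam_apply (ψ : H → k) (a : MonoidAlgebra k H) : lam ψ a = ∑ h, a.coeff h * ψ h := rfl

theorem lam_mul (ψ : H → k) (a b : MonoidAlgebra k H) :
    lam ψ (a * b) = ∑ h, ∑ y, a.coeff h * (b.coeff y * ψ (h * y)) := by
  rw [lam_apply]
  simp only [coeff_mul_fin, Finset.sum_mul]
  rw [Finset.sum_comm]
  refine Finset.sum_congr rfl fun h _ => ?_
  refine Fintype.sum_equiv (Equiv.mulLeft h⁻¹) _ _ ?_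
  intro y
  simp only [Equiv.coe_mulLeft, mul_inv_cancel_left]
  ring

theorem lam_comm (ψ : H → k) (hψ : ∀ g h, ψ (h * g * h⁻¹) = ψ g) (a b : MonoidAlgebra k H) :
    lam ψ (a * b) = lam ψ (b * a) := by
  rw [lam_mul, lam_mul, Finset.sum_comm]
  refine Finset.sum_congr rfl fun y _ => Finset.sum_congr rfl fun h _ => ?_
  have : ψ (y * h) = ψ (h * y) := by
    have := hψ (h * y) y
    rw [← this]
    congr 1
    group
  rw [this]
  ring

theorem lam_single (ψ : H → k) (h : H) (c : k) : lam ψ (MonoidAlgebra.single h c) = c * ψ h := by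
  classical
  rw [lam_apply]
  rw [Finset.sum_eq_single h]
  · rw [MonoidAlgebra.coeff_single_apply, if_pos rfl]
  · intro b _ hb
    rw [MonoidAlgebra.coeff_single_apply, if_neg (Ne.symm hb), zero_mul]
  · intro hh
    exact absurd (Finset.mem_univ h) hh

theorem lam_mul_single (ψ : H → k) (a : MonoidAlgebra k H) (x : H) :
    lam ψ (a * MonoidAlgebra.single x 1) = ∑ h, a.coeff h * ψ (h * x) := by
  rw [lam_mul]
  refine Finset.sum_congr rfl fun h _ => ?_
  classical
  rw [Finset.sum_eq_single x]
  · rw [MonoidAlgebra.coeff_single_apply, if_pos rfl, one_mul]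
  · intro b _ hb
    rw [MonoidAlgebra.coeff_single_apply, if_neg (Ne.symm hb), zero_mul, mul_zero]
  · intro hh
    exact absurd (Finset.mem_univ x) hh

theorem lam_pow (p n : ℕ) [hp : Fact p.Prime] [CharP k p] (ψ : H → k)
    (hψ : ∀ g h, ψ (h * g * h⁻¹) = ψ g) (a : MonoidAlgebra k H) :
    lam ψ (a ^ p ^ n) = ∑ h, a.coeff h ^ p ^ n * ψ (h ^ p ^ n) := by
  have h := trace_pow p n (lam ψ) (lam_comm ψ hψ) (fun h : H => MonoidAlgebra.single h (a.coeff h))
  rw [← eq_sum_single] at h
  rw [h]
  refine Finset.sum_congr rfl fun h _ => ?_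
  rw [MonoidAlgebra.single_pow, lam_single]

/-- the passage from `x` to its `p'`-part under a central idempotent -/
theorem key (p n : ℕ) [hp : Fact p.Prime] [CharP k p] (hn : Good p n H)
    (ε : MonoidAlgebra k H) (hε : CI ε) (l : H → k) (hl : ∀ g h, l (h * g * h⁻¹) = l g) (x : H) :
    ∑ h, ε.coeff h * l (h * x ^ p ^ n) = ∑ h, ε.coeff h * l ((h * x) ^ p ^ n) := by
  set ψ : H → k := fun y => l (y ^ p ^ n) with hψ
  have hψc : ∀ g h, ψ (h * g * h⁻¹) = ψ g := by
    intro g h
    simp only [hψ, conj_pow, hl]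
  have hψp : ∀ g, ψ (g ^ p ^ n) = ψ g := by
    intro g
    simp only [hψ, hn.idem]
  have hpow : ∀ y : H, (ε * MonoidAlgebra.single y 1) ^ p ^ n =
      ε * MonoidAlgebra.single (y ^ p ^ n) 1 := by
    intro y
    have hc : Commute ε (MonoidAlgebra.single y 1) := hε.1 _
    rw [hc.mul_pow, MonoidAlgebra.single_pow, one_pow]
    congr 1
    exact IsIdempotentElem.pow_eq hε.2 (pow_pos hp.out.pos n).ne'
  -- step 1
  set c := ε * MonoidAlgebra.single (x ^ p ^ n) (1 : k) with hc
  have hcp : c ^ p ^ n = c := by rw [hc, hpow, hn.idem]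
  have s1 : lam l c = lam ψ c := by
    have e1 := lam_pow p n l hl c
    have e2 := lam_pow p n ψ hψc c
    rw [hcp] at e1 e2
    rw [e1, e2]
    refine Finset.sum_congr rfl fun h _ => ?_
    rw [hψp]
  -- step 2
  have s2 : lam ψ (ε * MonoidAlgebra.single x 1) = lam ψ c := by
    set a := ε * MonoidAlgebra.single x (1 : k) - c with ha
    have ha0 : a ^ p ^ n = 0 := by
      have e1 : a = ε * (MonoidAlgebra.single x 1 - MonoidAlgebra.single (x ^ p ^ n) 1) := by
        rw [ha, hc, mul_sub]
      have hcm : Commute (MonoidAlgebra.single x (1 : k))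
          (MonoidAlgebra.single (x ^ p ^ n) (1 : k)) := by
        change MonoidAlgebra.single x (1 : k) * MonoidAlgebra.single (x ^ p ^ n) (1 : k) = _ * _
        rw [MonoidAlgebra.single_mul_single, MonoidAlgebra.single_mul_single]
        congr 1
        exact ((Commute.refl x).pow_right _).eq
      have hchar : CharP (MonoidAlgebra k H) p :=
        charP_of_injective_algebraMap (algebraMap k (MonoidAlgebra k H)).injective p
      rw [e1, (show Commute ε _ from hε.1 _).mul_pow, sub_pow_char_pow_of_commute _ _ hcm,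
        MonoidAlgebra.single_pow, MonoidAlgebra.single_pow, one_pow, hn.idem, sub_self, mul_zero]
    have hχ : ∀ g h, (fun y => ψ y ^ p ^ n) (h * g * h⁻¹) = (fun y => ψ y ^ p ^ n) g := by
      intro g h
      simp only [hψc]
    have e2 := lam_pow p n (fun y => ψ y ^ p ^ n) hχ a
    rw [ha0, map_zero] at e2
    simp only [hψp, ← mul_pow] at e2
    rw [← sum_pow_char_pow] at e2
    have e3 : lam ψ a = 0 := by
      rw [lam_apply]
      exact (pow_eq_zero_iff (pow_pos hp.out.pos n).ne').1 e2.symm
    rw [ha, map_sub, sub_eq_zero] at e3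
    exact e3
  rw [← lam_mul_single, ← hc, s1, ← s2, lam_mul_single]

end lam

/-! ### the local step -/

section loc
variable {G : Type} [Group G] [Fintype G]

theorem coeff_class (e : MonoidAlgebra k G) (he : CI e) (g h : G) :
    e.coeff (h * g * h⁻¹) = e.coeff g := by
  have h1 : (e * MonoidAlgebra.single h (1 : k)).coeff (h * g) =
      (MonoidAlgebra.single h (1 : k) * e).coeff (h * g) := by rw [he.1]
  rw [MonoidAlgebra.coeff_mul_single_apply, MonoidAlgebra.coeff_single_mul_apply,
    mul_one, one_mul, inv_mul_cancel_left] at h1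
  exact h1

/-- conjugation by a `p`-element: only the centraliser counts -/
theorem sum_cent (p : ℕ) [hp : Fact p.Prime] [CharP k p] (u : G) (hu : IsPElt p u) (F : G → k)
    (hF : ∀ g, F (u * g * u⁻¹) = F g) [Fintype (Subgroup.centralizer ({u} : Set G))] :
    ∑ g, F g = ∑ g : Subgroup.centralizer ({u} : Set G), F g := by
  classical
  obtain ⟨m, hm⟩ := hu
  let f : Function.End G := fun g => u * g * u⁻¹
  have hfj : ∀ j, ∀ g, (f ^ j) g = u ^ j * g * (u ^ j)⁻¹ := by
    intro j
    induction j with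
    | zero =>
      intro g
      change g = u ^ 0 * g * (u ^ 0)⁻¹
      simp
    | succ j ih =>
      intro g
      rw [pow_succ']
      change f ((f ^ j) g) = _
      rw [ih]
      change u * (u ^ j * g * (u ^ j)⁻¹) * u⁻¹ = _
      rw [pow_succ']
      group
  have hf : f ^ p ^ m = 1 := by
    funext g
    rw [hfj, hm]
    change 1 * g * 1⁻¹ = g
    simp
  rw [sum_fixed p m f hf F hF]
  refine Finset.sum_bij' (fun g hg => (⟨g, ?_⟩ : Subgroup.centralizer ({u} : Set G)))
    (fun g _ => (g : G)) ?_ ?_ ?_ ?_ ?_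
  · rw [Subgroup.mem_centralizer_singleton_iff]
    have hg' : u * g * u⁻¹ = g := (Finset.mem_filter.1 hg).2
    rw [mul_inv_eq_iff_eq_mul] at hg'
    exact hg'.symm
  · intro g hg
    exact Finset.mem_univ _
  · intro g _
    rw [Finset.mem_filter]
    refine ⟨Finset.mem_univ _, ?_⟩
    change u * g * u⁻¹ = g
    have := Subgroup.mem_centralizer_singleton_iff.1 g.2
    rw [mul_inv_eq_iff_eq_mul, this]
  · intro g hg
    rfl
  · intro g _
    rfl
  · intro g hg
    rfl

/-- the Brauer idempotent at `u`, as a central idempotent of `k[C(u)]` -/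
theorem br_coeff (e : MonoidAlgebra k G) (u : G)
    (x : Subgroup.centralizer ({u} : Set G)) :
    (br (Subgroup.centralizer ({u} : Set G)) (Subgroup.zpowers u) e).coeff x = e.coeff (x : G) := by
  classical
  have : (x : G) ∈ Subgroup.centralizer ((Subgroup.zpowers u : Subgroup G) : Set G) := by
    rw [Subgroup.mem_centralizer_iff]
    intro y hy
    obtain ⟨j, rfl⟩ := Subgroup.mem_zpowers_iff.1 hy
    have hc : Commute u (x : G) := (Subgroup.mem_centralizer_singleton_iff.1 x.2).symm
    exact (hc.zpow_left j).eq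
  change (if (x : G) ∈ Subgroup.centralizer ((Subgroup.zpowers u : Subgroup G) : Set G)
    then e.coeff (x : G) else 0) = _
  rw [if_pos this]

theorem br_CI (p : ℕ) [hp : Fact p.Prime] [CharP k p] (e : MonoidAlgebra k G) (he : CI e)
    (u : G) (hu : IsPElt p u) :
    CI (br (Subgroup.centralizer ({u} : Set G)) (Subgroup.zpowers u) e) := by
  classical
  letI : Fintype (Subgroup.centralizer ({u} : Set G)) := Fintype.ofFinite _
  constructor
  · intro x
    rw [eq_sum_single x, Finset.mul_sum, Finset.sum_mul]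
    refine Finset.sum_congr rfl fun g _ => ?_
    apply MonoidAlgebra.coeff_injective
    ext h
    rw [MonoidAlgebra.coeff_mul_single_apply, MonoidAlgebra.coeff_single_mul_apply, br_coeff,
      br_coeff, mul_comm]
    congr 1
    have := coeff_class e he ((g⁻¹ * h : Subgroup.centralizer ({u} : Set G)) : G) (g : G)
    rw [← this]
    congr 1
    push_cast
    group
  · apply MonoidAlgebra.coeff_injective
    ext x
    rw [coeff_mul_fin, br_coeff]
    have h1 : e.coeff (x : G) = ∑ h : G, e.coeff h * e.coeff (h⁻¹ * (x : G)) := by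
      conv_lhs => rw [← he.2]
      rw [coeff_mul_fin]
    rw [h1, sum_cent p u hu (fun h => e.coeff h * e.coeff (h⁻¹ * (x : G)))]
    · refine Finset.sum_congr rfl fun h _ => ?_
      rw [br_coeff, br_coeff]
      rfl
    · intro h
      have hx : u * (x : G) = (x : G) * u := (Subgroup.mem_centralizer_singleton_iff.1 x.2).symm
      have e1 : (u * h * u⁻¹)⁻¹ * (x : G) = u * (h⁻¹ * (x : G)) * u⁻¹ := by
        have : u⁻¹ * (x : G) = (x : G) * u⁻¹ := by
          rw [inv_mul_eq_iff_eq_mul, ← mul_assoc, hx, mul_assoc, mul_inv_cancel, mul_one]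
        calc (u * h * u⁻¹)⁻¹ * (x : G) = u * h⁻¹ * (u⁻¹ * (x : G)) := by group
          _ = u * h⁻¹ * ((x : G) * u⁻¹) := by rw [this]
          _ = _ := by group
      simp only [e1, coeff_class e he]

/-- the operator of `e` on class functions, in the section of `u` -/
theorem local_step (p n : ℕ) [hp : Fact p.Prime] [CharP k p] (hn : Good p n G)
    (e : MonoidAlgebra k G) (he : CI e) (φ : G → k) (hφ : ∀ g h, φ (h * g * h⁻¹) = φ g)
    (u : G) (hu : IsPElt p u) [Fintype (Subgroup.centralizer ({u} : Set G))]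
    (x : Subgroup.centralizer ({u} : Set G)) :
    ∑ h, e.coeff h * φ (h * (u * (x : G) ^ p ^ n)) =
      ∑ h : Subgroup.centralizer ({u} : Set G),
        (br (Subgroup.centralizer ({u} : Set G)) (Subgroup.zpowers u) e).coeff h *
          φ (u * ((h : G) * (x : G)) ^ p ^ n) := by
  have hcx : ∀ y : Subgroup.centralizer ({u} : Set G), (y : G) * u = u * (y : G) := fun y =>
    Subgroup.mem_centralizer_singleton_iff.1 y.2
  set l : Subgroup.centralizer ({u} : Set G) → k := fun y => φ (u * (y : G)) with hl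
  have hlc : ∀ g h, l (h * g * h⁻¹) = l g := by
    intro g h
    simp only [hl]
    rw [← hφ (u * (g : G)) (h : G)]
    congr 1
    push_cast
    calc u * ((h : G) * (g : G) * (h : G)⁻¹) = (u * (h : G)) * (g : G) * (h : G)⁻¹ := by group
      _ = ((h : G) * u) * (g : G) * (h : G)⁻¹ := by rw [hcx]
      _ = _ := by group
  have h1 := key p n (hn.sub _) _ (br_CI p e he u hu) l hlc x
  have h2 : ∑ h, e.coeff h * φ (h * (u * (x : G) ^ p ^ n)) =
      ∑ h : Subgroup.centralizer ({u} : Set G),
        (br (Subgroup.centralizer ({u} : Set G)) (Subgroup.zpowers u) e).coeff h *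
          l (h * x ^ p ^ n) := by
    have hx' : u * (x : G) ^ p ^ n = (x : G) ^ p ^ n * u := by
      have := hcx (x ^ p ^ n)
      push_cast at this
      exact this.symm
    rw [sum_cent p u hu (fun h => e.coeff h * φ (h * (u * (x : G) ^ p ^ n)))]
    · refine Finset.sum_congr rfl fun h _ => ?_
      rw [br_coeff]
      simp only [hl]
      congr 2
      push_cast
      rw [← mul_assoc, hcx, mul_assoc]
    · intro g
      simp only [coeff_class e he]
      congr 1
      rw [← hφ (g * (u * (x : G) ^ p ^ n)) u]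
      congr 1
      have t1 : u * (g * (u * (x : G) ^ p ^ n)) * u⁻¹ = u * g * (x : G) ^ p ^ n := by
        rw [hx']; group
      rw [t1]
      group
  rw [h2, h1]
  refine Finset.sum_congr rfl fun h _ => ?_
  simp only [hl]
  push_cast
  rfl

end loc

end Crest.Agent.R170.B2334
end

-- ▼ part R170/B2b_334
section

/-!
Row 170, leaf B2 (helper334), second part: class functions split over the classes of `p`-elements.
-/

set_option autoImplicit false
open scoped BigOperators

namespace Crest.Agent.R170.B2334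

open Crest.Agent.R170 Crest.Agent.R170.J482

variable {k : Type} [Field k]

/-- class functions `ψ` with `ψ g = ψ g_{p'}`, fixed by `ε` -/
def RFe {H : Type} [Group H] [Fintype H] (p n : ℕ) (ε : MonoidAlgebra k H) :
    Submodule k (H → k) where
  carrier := {ψ | (∀ g h, ψ (h * g * h⁻¹) = ψ g) ∧ (∀ g, ψ (g ^ p ^ n) = ψ g) ∧
    ∀ g, ∑ h, ε.coeff h * ψ (h * g) = ψ g}
  add_mem' := by
    rintro a b ⟨ha, ha', ha''⟩ ⟨hb, hb', hb''⟩
    refine ⟨fun g h => ?_, fun g => ?_, fun g => ?_⟩
    · simp only [Pi.add_apply, ha, hb]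
    · simp only [Pi.add_apply, ha', hb']
    · simp only [Pi.add_apply, mul_add, Finset.sum_add_distrib, ha'', hb'']
  zero_mem' := ⟨fun g h => rfl, fun g => rfl, fun g => by simp⟩
  smul_mem' := by
    rintro c a ⟨ha, ha', ha''⟩
    refine ⟨fun g h => ?_, fun g => ?_, fun g => ?_⟩
    · simp only [Pi.smul_apply, ha]
    · simp only [Pi.smul_apply, ha']
    · simp only [Pi.smul_apply, smul_eq_mul]
      rw [← ha'' g, Finset.mul_sum]
      exact Finset.sum_congr rfl fun h _ => by ring

section decomp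
variable {G : Type} [Group G]

theorem IsPElt.conj {p : ℕ} {g : G} (h : IsPElt p g) (t : G) : IsPElt p (t * g * t⁻¹) := by
  obtain ⟨m, hm⟩ := h
  exact ⟨m, by rw [conj_pow, hm]; simp⟩

/-- index set: classes of `p`-elements -/
abbrev PC (p : ℕ) (G : Type) [Group G] : Type := {c : ConjClasses G // IsPElt p c.out}

/-- representative of a class -/
noncomputable def rp (c : ConjClasses G) : G := c.out

theorem rp_mk (c : ConjClasses G) : ConjClasses.mk (rp c) = c := Quotient.out_eq c

theorem exists_conj_out (v : G) : ∃ t : G, t * v * t⁻¹ = rp (ConjClasses.mk v) := by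
  have h : ConjClasses.mk v = ConjClasses.mk (rp (ConjClasses.mk v)) :=
    (rp_mk (ConjClasses.mk v)).symm
  rw [ConjClasses.mk_eq_mk_iff_isConj, isConj_iff] at h
  exact h

theorem isPElt_out {p : ℕ} {v : G} (hv : IsPElt p v) : IsPElt p (rp (ConjClasses.mk v)) := by
  obtain ⟨t, ht⟩ := exists_conj_out v
  rw [← ht]
  exact IsPElt.conj hv t

/-- the `p`-part -/
def vp (p n : ℕ) (g : G) : G := g * (g ^ p ^ n)⁻¹

theorem vp_conj (p n : ℕ) (g t : G) : vp p n (t * g * t⁻¹) = t * vp p n g * t⁻¹ := by
  unfold vp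
  rw [conj_pow]
  group

theorem vp_mul_pow (p n : ℕ) (g : G) : vp p n g * g ^ p ^ n = g := by
  unfold vp
  rw [inv_mul_cancel_right]

theorem conj_decomp (p n : ℕ) (t g : G) :
    t * vp p n g * t⁻¹ * (t * g ^ p ^ n * t⁻¹) = t * g * t⁻¹ := by
  have h : t * (vp p n g * g ^ p ^ n) * t⁻¹ = t * g * t⁻¹ := by rw [vp_mul_pow]
  rw [← h]
  group

theorem vp_comm (p n : ℕ) (g : G) : vp p n g * g ^ p ^ n = g ^ p ^ n * vp p n g := by
  unfold vp
  rw [inv_mul_cancel_right, ← mul_assoc]
  have : g ^ p ^ n * g = g * g ^ p ^ n := ((Commute.refl g).pow_left _).eq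
  rw [this, mul_inv_cancel_right]

theorem pow_mul_pel {p n : ℕ} (hn : Good p n G) {u : G} (hu : IsPElt p u) (x : G)
    (hx : x * u = u * x) : (u * x ^ p ^ n) ^ p ^ n = x ^ p ^ n := by
  have hc : Commute u (x ^ p ^ n) := (Commute.pow_left (show Commute x u from hx) _).symm
  rw [hc.mul_pow, hn.pow_pel hu, one_mul, hn.idem]

theorem vp_mul_pel {p n : ℕ} (hn : Good p n G) {u : G} (hu : IsPElt p u) (x : G)
    (hx : x * u = u * x) : vp p n (u * x ^ p ^ n) = u := by
  unfold vp
  rw [pow_mul_pel hn hu x hx, mul_inv_cancel_right]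

theorem mem_cent_of (p n : ℕ) (u g t : G) (h : t * vp p n g * t⁻¹ = u) :
    t * g ^ p ^ n * t⁻¹ ∈ Subgroup.centralizer ({u} : Set G) := by
  rw [Subgroup.mem_centralizer_singleton_iff, ← h]
  calc t * g ^ p ^ n * t⁻¹ * (t * vp p n g * t⁻¹) = t * (g ^ p ^ n * vp p n g) * t⁻¹ := by group
    _ = t * (vp p n g * g ^ p ^ n) * t⁻¹ := by rw [vp_comm]
    _ = _ := by group

/-- restriction to a section -/
theorem res_mem [Fintype G] (p n : ℕ) [hp : Fact p.Prime] [CharP k p] (hn : Good p n G)
    (e : MonoidAlgebra k G) (he : CI e) (φ : G → k) (hφ : φ ∈ CFe e) (u : G) (hu : IsPElt p u)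
    [Fintype (Subgroup.centralizer ({u} : Set G))] :
    (fun x : Subgroup.centralizer ({u} : Set G) => φ (u * (x : G) ^ p ^ n)) ∈
      RFe p n (br (Subgroup.centralizer ({u} : Set G)) (Subgroup.zpowers u) e) := by
  refine ⟨fun g h => ?_, fun g => ?_, fun g => ?_⟩
  · change φ (u * ((h * g * h⁻¹ : Subgroup.centralizer ({u} : Set G)) : G) ^ p ^ n) =
      φ (u * (g : G) ^ p ^ n)
    rw [← hφ.1 (u * (g : G) ^ p ^ n) (h : G)]
    congr 1
    push_cast
    rw [conj_pow]
    have hh : (h : G) * u = u * (h : G) := Subgroup.mem_centralizer_singleton_iff.1 h.2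
    calc u * ((h : G) * (g : G) ^ p ^ n * (h : G)⁻¹)
        = (u * (h : G)) * (g : G) ^ p ^ n * (h : G)⁻¹ := by group
      _ = ((h : G) * u) * (g : G) ^ p ^ n * (h : G)⁻¹ := by rw [hh]
      _ = _ := by group
  · change φ (u * ((g ^ p ^ n : Subgroup.centralizer ({u} : Set G)) : G) ^ p ^ n) =
      φ (u * (g : G) ^ p ^ n)
    push_cast
    rw [hn.idem]
  · have h1 := local_step p n hn e he φ hφ.1 u hu g
    rw [hφ.2] at h1
    change _ = φ (u * (g : G) ^ p ^ n)
    rw [h1]
    refine Finset.sum_congr rfl fun h _ => ?_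
    push_cast
    rfl

section family
variable {p n : ℕ} (hn : Good p n G)

/-- the class of the `p`-part -/
noncomputable def cl (g : G) : PC p G := ⟨ConjClasses.mk (vp p n g), isPElt_out (hn.pel g)⟩

/-- a conjugating element -/
noncomputable def tt (p n : ℕ) (g : G) : G := (exists_conj_out (vp p n g)).choose

theorem tt_spec (g : G) : tt p n g * vp p n g * (tt p n g)⁻¹ = rp (cl hn g).1 :=
  (exists_conj_out (vp p n g)).choose_spec

/-- extension of a family -/
noncomputable def ext (ψ : ∀ c : PC p G, Subgroup.centralizer ({rp c.1} : Set G) → k) (g : G) : k :=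
  ψ (cl hn g) ⟨tt p n g * g ^ p ^ n * (tt p n g)⁻¹, mem_cent_of p n _ g _ (tt_spec hn g)⟩

theorem ext_eq (ψ : ∀ c : PC p G, Subgroup.centralizer ({rp c.1} : Set G) → k)
    (hψ : ∀ c g h, ψ c (h * g * h⁻¹) = ψ c g) (g : G) (c : PC p G) (t : G)
    (ht : t * vp p n g * t⁻¹ = rp c.1) :
    ext hn ψ g = ψ c ⟨t * g ^ p ^ n * t⁻¹, mem_cent_of p n _ g t ht⟩ := by
  have hc : c = cl hn g := by
    apply Subtype.ext
    change c.1 = ConjClasses.mk (vp p n g)
    have h1 : c.1 = ConjClasses.mk (rp c.1) := (rp_mk c.1).symm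
    rw [h1, ← ht, ConjClasses.mk_eq_mk_iff_isConj, isConj_comm, isConj_iff]
    exact ⟨t, rfl⟩
  subst hc
  unfold ext
  have hw : t * (tt p n g)⁻¹ ∈ Subgroup.centralizer ({rp (cl hn g).1} : Set G) := by
    rw [Subgroup.mem_centralizer_singleton_iff]
    have h0 := tt_spec hn g
    calc t * (tt p n g)⁻¹ * rp (cl hn g).1
        = t * (tt p n g)⁻¹ * (tt p n g * vp p n g * (tt p n g)⁻¹) := by rw [h0]
      _ = (t * vp p n g * t⁻¹) * (t * (tt p n g)⁻¹) := by group
      _ = _ := by rw [ht]
  rw [← hψ (cl hn g) _ ⟨_, hw⟩]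
  congr 1
  apply Subtype.ext
  push_cast
  group

end family

section final
variable {p n : ℕ} [hp : Fact p.Prime] [CharP k p] [Fintype G] (hn : Good p n G)
  (e : MonoidAlgebra k G) (he : CI e)
  [hfin : ∀ u : G, Fintype (Subgroup.centralizer ({u} : Set G))]

/-- the idempotent at a class -/
noncomputable abbrev bc (e : MonoidAlgebra k G) (c : PC p G) :
    MonoidAlgebra k (Subgroup.centralizer ({rp c.1} : Set G)) :=
  br (Subgroup.centralizer ({rp c.1} : Set G)) (Subgroup.zpowers (rp c.1)) e

/-- class functions of `e` to families -/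
noncomputable def toFam : CFe e →ₗ[k] (∀ c : PC p G, RFe p n (bc e c)) where
  toFun φ := fun c => ⟨fun x => φ.1 (rp c.1 * (x : G) ^ p ^ n),
    res_mem p n hn e he φ.1 φ.2 (rp c.1) c.2⟩
  map_add' a b := rfl
  map_smul' a b := rfl

theorem toFam_inj : Function.Injective (toFam hn e he) := by
  rw [← LinearMap.ker_eq_bot, LinearMap.ker_eq_bot']
  intro φ hφ
  apply Subtype.ext
  funext g
  change φ.1 g = 0
  have h1 := congrFun (congrArg Subtype.val (congrFun hφ (cl hn g)))
    ⟨tt p n g * g ^ p ^ n * (tt p n g)⁻¹, mem_cent_of p n _ g _ (tt_spec hn g)⟩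
  change φ.1 (rp (cl hn g).1 * (tt p n g * g ^ p ^ n * (tt p n g)⁻¹) ^ p ^ n) = 0 at h1
  rw [← tt_spec hn g, conj_pow, hn.idem] at h1
  rw [← φ.2.1 g (tt p n g), ← h1, conj_decomp]

theorem toFam_surj : Function.Surjective (toFam hn e he) := by
  intro Ψ
  set ψ : ∀ c : PC p G, Subgroup.centralizer ({rp c.1} : Set G) → k := fun c => (Ψ c).1 with hψdef
  have hψ : ∀ c g h, ψ c (h * g * h⁻¹) = ψ c g := fun c => (Ψ c).2.1
  -- value on a section
  have hval : ∀ (c : PC p G) (x : Subgroup.centralizer ({rp c.1} : Set G)),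
      ext hn ψ (rp c.1 * (x : G) ^ p ^ n) = ψ c x := by
    intro c x
    have hx : (x : G) * rp c.1 = rp c.1 * (x : G) := Subgroup.mem_centralizer_singleton_iff.1 x.2
    have hv : vp p n (rp c.1 * (x : G) ^ p ^ n) = rp c.1 := vp_mul_pel hn c.2 _ hx
    have ht : (1 : G) * vp p n (rp c.1 * (x : G) ^ p ^ n) * 1⁻¹ = rp c.1 := by
      rw [hv]; simp
    have h4 : ψ c (x ^ p ^ n) = ψ c x := (Ψ c).2.2.1 x
    rw [ext_eq hn ψ hψ _ c 1 ht, ← h4]
    have hpm : (rp c.1 * (x : G) ^ p ^ n) ^ p ^ n = (x : G) ^ p ^ n := pow_mul_pel hn c.2 _ hx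
    congr 1
    apply Subtype.ext
    change 1 * (rp c.1 * (x : G) ^ p ^ n) ^ p ^ n * 1⁻¹ = _
    rw [hpm]
    simp
  have hclass : ∀ g h, ext hn ψ (h * g * h⁻¹) = ext hn ψ g := by
    intro g h
    have ht : (tt p n g * h⁻¹) * vp p n (h * g * h⁻¹) * (tt p n g * h⁻¹)⁻¹ = rp (cl hn g).1 := by
      rw [vp_conj, ← tt_spec hn g]
      group
    rw [ext_eq hn ψ hψ _ (cl hn g) _ ht, ext_eq hn ψ hψ g (cl hn g) _ (tt_spec hn g)]
    congr 1
    apply Subtype.ext
    push_cast
    rw [conj_pow]
    group
  have hmem : ext hn ψ ∈ CFe e := by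
    refine ⟨hclass, fun g => ?_⟩
    -- move to the section
    set u := rp (cl hn g).1 with hu
    have hx0 := mem_cent_of p n _ g _ (tt_spec hn g)
    set x : Subgroup.centralizer ({rp (cl hn g).1} : Set G) :=
      ⟨tt p n g * g ^ p ^ n * (tt p n g)⁻¹, hx0⟩ with hx
    have hg : tt p n g * g * (tt p n g)⁻¹ = rp (cl hn g).1 * (x : G) ^ p ^ n := by
      rw [hx]
      change _ = _ * (tt p n g * g ^ p ^ n * (tt p n g)⁻¹) ^ p ^ n
      rw [conj_pow, hn.idem, ← tt_spec hn g, conj_decomp]
    have h1 : ∑ h, e.coeff h * ext hn ψ (h * g) =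
        ∑ h, e.coeff h * ext hn ψ (h * (tt p n g * g * (tt p n g)⁻¹)) := by
      refine Fintype.sum_equiv (MulAut.conj (tt p n g)).toEquiv _ _ ?_
      intro h
      change _ = e.coeff (tt p n g * h * (tt p n g)⁻¹) *
        ext hn ψ (tt p n g * h * (tt p n g)⁻¹ * (tt p n g * g * (tt p n g)⁻¹))
      rw [coeff_class e he]
      congr 1
      rw [← hclass (h * g) (tt p n g)]
      congr 1
      group
    rw [h1, hg, local_step p n hn e he (ext hn ψ) hclass (rp (cl hn g).1) (cl hn g).2 x]
    have h2 : ∀ h : Subgroup.centralizer ({rp (cl hn g).1} : Set G),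
        ext hn ψ (rp (cl hn g).1 * ((h : G) * (x : G)) ^ p ^ n) = ψ (cl hn g) (h * x) := by
      intro h
      rw [← hval (cl hn g) (h * x)]
      push_cast
      rfl
    simp only [h2]
    have h3 := (Ψ (cl hn g)).2.2.2 x
    change ∑ h, _ * ψ (cl hn g) (h * x) = ψ (cl hn g) x at h3
    rw [h3, ← hval (cl hn g) x, ← hg, hclass]
  refine ⟨⟨ext hn ψ, hmem⟩, ?_⟩
  funext c
  apply Subtype.ext
  funext x
  exact hval c x

include hn he in
theorem finrank_CFe [Fintype (PC p G)] :
    Module.finrank k (CFe e) = ∑ c : PC p G, Module.finrank k (RFe p n (bc e c)) := by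
  rw [LinearEquiv.finrank_eq (LinearEquiv.ofBijective (toFam hn e he)
    ⟨toFam_inj hn e he, toFam_surj hn e he⟩)]
  exact Module.finrank_pi_fintype k

end final

end decomp

end Crest.Agent.R170.B2334
end

-- ▼ part R170/LC2_806
section

/-!
Row 170 (swarm A), leaf LC / LD2, part 2 (helper806): `T(kG)` for a finite group `G`.

`Good p n G` : `1 ≤ n` and `(g^(p^n))^(p^n) = g^(p^n)` for all `g`; then `g ↦ g^(p^n)` is the
`p`-regular part.
-/

set_option autoImplicit false
open scoped BigOperators

namespace Crest.Agent.R170.LC806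

open Crest.Agent.R170.J482

section Grp
variable {G : Type*} [Group G] [Finite G]

/-- `g ↦ g ^ p ^ n` is the `p`-regular part -/
def Good (p n : ℕ) (G : Type*) [Group G] : Prop :=
  1 ≤ n ∧ ∀ g : G, (g ^ p ^ n) ^ p ^ n = g ^ p ^ n

theorem exists_good (p : ℕ) [hp : Fact p.Prime] (G : Type*) [Group G] [Finite G] :
    ∃ n, Good p n G := by
  obtain ⟨a, m, hm, hG⟩ := Nat.exists_eq_pow_mul_and_not_dvd (n := Nat.card G) Nat.card_pos.ne' p
    hp.out.ne_one
  have hcop : Nat.Coprime p m := (Nat.Prime.coprime_iff_not_dvd hp.out).2 hm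
  have hmpos : 0 < m := by
    rcases Nat.eq_zero_or_pos m with h | h
    · subst h; exact absurd (dvd_zero p) hm
    · exact h
  refine ⟨(a + 1) * m.totient, ?_, fun g => ?_⟩
  · have : 0 < m.totient := Nat.totient_pos.2 hmpos
    nlinarith
  · have h1 : p ^ ((a + 1) * m.totient) ≡ 1 [MOD m] := by
      rw [mul_comm, pow_mul]
      have := (Nat.ModEq.pow_totient hcop).pow (a + 1)
      simpa using this
    have h2 : p ^ a ∣ p ^ ((a + 1) * m.totient) := by
      apply pow_dvd_pow
      have : 0 < m.totient := Nat.totient_pos.2 hmpos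
      nlinarith
    have h3 : 1 ≤ p ^ ((a + 1) * m.totient) := pow_pos hp.out.pos _
    have h4 : Nat.card G ∣ p ^ ((a + 1) * m.totient) * (p ^ ((a + 1) * m.totient) - 1) := by
      rw [hG]
      exact mul_dvd_mul h2 ((Nat.modEq_iff_dvd' h3).1 h1.symm)
    rw [← pow_mul]
    have h5 : p ^ ((a + 1) * m.totient) * p ^ ((a + 1) * m.totient)
        = p ^ ((a + 1) * m.totient) * (p ^ ((a + 1) * m.totient) - 1)
          + p ^ ((a + 1) * m.totient) := by
      rw [Nat.mul_sub, mul_one]
      rw [Nat.sub_add_cancel]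
      nlinarith
    rw [h5, pow_add]
    obtain ⟨c, hc⟩ := h4
    rw [hc, pow_mul, pow_card_eq_one', one_pow, one_mul]

variable {p : ℕ} [hp : Fact p.Prime] {n : ℕ}

omit [Finite G] hp in
theorem Good.pow_mul (h : Good p n G) (g : G) (j : ℕ) : g ^ p ^ (n * (j + 1)) = g ^ p ^ n := by
  induction j with
  | zero => simp
  | succ j ih =>
    rw [mul_add n (j + 1) 1, mul_one, pow_add, _root_.pow_mul, ih, h.2]




end Grp

section GA
variable {k G : Type*} [Field k] [Group G] [Finite G]
variable (p : ℕ) [hp : Fact p.Prime] [CharP k p] {n : ℕ}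


omit [Finite G] in
theorem single_sub_mem_TA (hn : Good p n G) (g : G) (c : k) :
    MonoidAlgebra.single g c - MonoidAlgebra.single (g ^ p ^ n) c ∈ TA k (MonoidAlgebra k G) p := by
  have h1 : MonoidAlgebra.single g c - MonoidAlgebra.single (g ^ p ^ n) c
      = c • (MonoidAlgebra.single g (1 : k) - MonoidAlgebra.single (g ^ p ^ n) 1) := by
    rw [smul_sub, MonoidAlgebra.smul_single', MonoidAlgebra.smul_single', mul_one]
  rw [h1]
  apply Submodule.smul_mem
  apply nilpotent_mem_TA
  refine ⟨p ^ n, ?_⟩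
  have hc : Commute (MonoidAlgebra.single g (1 : k)) (MonoidAlgebra.single (g ^ p ^ n) (1 : k)) := by
    unfold Commute SemiconjBy
    rw [MonoidAlgebra.single_mul_single, MonoidAlgebra.single_mul_single, ← pow_succ, ← pow_succ']
  haveI : CharP (MonoidAlgebra k G) p := by
    haveI : Nontrivial (MonoidAlgebra k G) := inferInstance
    exact charP_of_injective_algebraMap (algebraMap k (MonoidAlgebra k G)).injective p
  rw [sub_pow_char_pow_of_commute _ _ hc, MonoidAlgebra.single_pow, MonoidAlgebra.single_pow,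
    hn.2, sub_self]

/-- the linear functional on `k[G]` with values `φ g` -/
noncomputable def lin (φ : G → k) : MonoidAlgebra k G →ₗ[k] k where
  toFun a := a.coeff.sum fun g c => c * φ g
  map_add' a b := by
    rw [MonoidAlgebra.coeff_add]
    exact Finsupp.sum_add_index' (by simp) (by intros; rw [add_mul])
  map_smul' c a := by
    rw [MonoidAlgebra.coeff_smul, Finsupp.sum_smul_index' (by simp), RingHom.id_apply, smul_eq_mul,
      Finsupp.mul_sum]
    simp only [smul_eq_mul, mul_assoc]

omit [Finite G] hp [CharP k p] [Group G] in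
theorem lin_single (φ : G → k) (g : G) (c : k) : lin φ (MonoidAlgebra.single g c) = c * φ g := by
  change (Finsupp.single g c).sum (fun g c => c * φ g) = _
  rw [Finsupp.sum_single_index (by simp)]

omit [Finite G] hp [CharP k p] [Group G] in
theorem lin_eq_sum [Fintype G] (φ : G → k) (a : MonoidAlgebra k G) :
    lin φ a = ∑ g, a.coeff g * φ g := by
  change a.coeff.sum (fun g c => c * φ g) = _
  exact Finsupp.sum_fintype _ _ (by simp)

omit [Finite G] hp [CharP k p] in
theorem ext_single {f f' : MonoidAlgebra k G →ₗ[k] k}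
    (h : ∀ g, f (MonoidAlgebra.single g 1) = f' (MonoidAlgebra.single g 1)) : f = f' := by
  apply LinearMap.ext
  intro x
  induction x using MonoidAlgebra.induction_linear with
  | zero => simp
  | add a b ha hb => rw [map_add, map_add, ha, hb]
  | single g c =>
    have : MonoidAlgebra.single g c = c • MonoidAlgebra.single g (1 : k) := by
      rw [MonoidAlgebra.smul_single', mul_one]
    rw [this, map_smul, map_smul, h]

omit [Finite G] hp [CharP k p] in
theorem eq_lin (f : MonoidAlgebra k G →ₗ[k] k) :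
    f = lin fun g => f (MonoidAlgebra.single g 1) :=
  ext_single fun g => by rw [lin_single, one_mul]

omit [Finite G] hp [CharP k p] in
theorem lin_comm (φ : G → k) (hφ : ∀ g h, φ (g * h) = φ (h * g)) (a b : MonoidAlgebra k G) :
    lin φ (a * b) = lin φ (b * a) := by
  induction a using MonoidAlgebra.induction_linear with
  | zero => simp
  | add a a' ha ha' => rw [add_mul, mul_add, map_add, map_add, ha, ha']
  | single g c =>
    induction b using MonoidAlgebra.induction_linear with
    | zero => simp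
    | add b b' hb hb' => rw [add_mul, mul_add, map_add, map_add, hb, hb']
    | single h d =>
      rw [MonoidAlgebra.single_mul_single, MonoidAlgebra.single_mul_single, lin_single, lin_single,
        hφ g h, mul_comm c d]

/-- (P3) for a class function with values `0, 1` (or in the prime field), constant on sections -/
theorem lin_pow (hn : Good p n G) (φ : G → k) (hφ : ∀ g h, φ (g * h) = φ (h * g))
    (hs : ∀ g, φ (g ^ p ^ n) = φ g) (h01 : ∀ g, φ g ^ p = φ g) (a : MonoidAlgebra k G) (j : ℕ) :
    lin φ (a ^ p ^ (n * (j + 1))) = lin φ a ^ p ^ (n * (j + 1)) := by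
  classical
  letI := Fintype.ofFinite G
  have h := trace_pow (A := MonoidAlgebra k G) (R := k) p (n * (j + 1)) (lin φ).toAddMonoidHom
    (fun a b => lin_comm φ hφ a b) (fun g : G => MonoidAlgebra.single g (a.coeff g))
  rw [← eq_sum_single] at h
  change lin φ (a ^ p ^ (n * (j + 1)))
    = ∑ g, lin φ (MonoidAlgebra.single g (a.coeff g) ^ p ^ (n * (j + 1))) at h
  rw [h, lin_eq_sum, sum_pow_char_pow]
  refine Finset.sum_congr rfl fun g _ => ?_
  have hpow : ∀ m, φ g ^ p ^ m = φ g := by
    intro m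
    induction m with
    | zero => simp
    | succ m ih => rw [pow_succ, pow_mul, ih, h01]
  rw [MonoidAlgebra.single_pow, lin_single, hn.pow_mul, hs, mul_pow, hpow]

open Classical in
/-- section indicator -/
noncomputable def ind (k : Type*) [Field k] (p n : ℕ) (c : G) : G → k := fun g =>
  if IsConj (g ^ p ^ n) (c ^ p ^ n) then 1 else 0

omit [Finite G] hp in
theorem isConj_mul_comm (g h : G) (m : ℕ) : IsConj ((g * h) ^ m) ((h * g) ^ m) := by
  rw [isConj_iff]
  refine ⟨g⁻¹, ?_⟩
  rw [← conj_pow]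
  congr 1
  group

omit [Finite G] hp [CharP k p] in
theorem ind_comm (c g h : G) : ind k p n c (g * h) = ind k p n c (h * g) := by
  unfold ind
  have : IsConj ((g * h) ^ p ^ n) (c ^ p ^ n) ↔ IsConj ((h * g) ^ p ^ n) (c ^ p ^ n) :=
    ⟨fun H => (isConj_mul_comm h g _).trans H, fun H => (isConj_mul_comm g h _).trans H⟩
  by_cases h1 : IsConj ((g * h) ^ p ^ n) (c ^ p ^ n)
  · rw [if_pos h1, if_pos (this.1 h1)]
  · rw [if_neg h1, if_neg (fun h2 => h1 (this.2 h2))]

omit [Finite G] hp [CharP k p] in
theorem ind_pow (hn : Good p n G) (c g : G) : ind k p n c (g ^ p ^ n) = ind k p n c g := by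
  unfold ind
  rw [hn.2]

omit [Finite G] [CharP k p] in
theorem ind_01 (c g : G) : ind k p n c g ^ p = ind k p n c g := by
  unfold ind
  split_ifs
  · rw [one_pow]
  · rw [zero_pow hp.out.ne_zero]

/-- section sums vanish on `T` -/
theorem sec_TA (hn : Good p n G) (c : G) {a : MonoidAlgebra k G}
    (ha : a ∈ TA k (MonoidAlgebra k G) p) : lin (ind k p n c) a = 0 := by
  obtain ⟨m, hm⟩ := TA_pow_mem p ha
  have h1 := hm (n * (m + 1)) (by have := hn.1; nlinarith)
  have h2 := vanish_CA (lin (ind k p n c)) (fun a b => lin_comm _ (ind_comm p c) a b) h1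
  rw [lin_pow p hn _ (ind_comm p c) (ind_pow p hn c) (ind_01 p c)] at h2
  exact pow_eq_zero_iff (pow_pos hp.out.pos _).ne' |>.1 h2

/-- the equivalence relation: conjugate `p`-regular parts -/
def rsetoid (p n : ℕ) (G : Type*) [Group G] : Setoid G where
  r g h := IsConj (g ^ p ^ n) (h ^ p ^ n)
  iseqv := ⟨fun _ => IsConj.refl _, fun h => h.symm, fun h h' => h.trans h'⟩

omit [Finite G] hp [CharP k p] in
theorem const_of (φ : G → k) (hφ : ∀ g h, φ (g * h) = φ (h * g))
    (hs : ∀ g, φ g = φ (g ^ p ^ n)) {g h : G} (hr : IsConj (g ^ p ^ n) (h ^ p ^ n)) :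
    φ g = φ h := by
  obtain ⟨x, hx⟩ := isConj_iff.1 hr
  rw [hs g, hs h, ← hx, hφ (x * g ^ p ^ n) x⁻¹, inv_mul_cancel_left]

omit hp [CharP k p] in
/-- if all section sums of `a` vanish, every section class function vanishes at `a` -/
theorem lin_eq_zero (φ : G → k) (hφ : ∀ g h, φ (g * h) = φ (h * g))
    (hs : ∀ g, φ g = φ (g ^ p ^ n)) {a : MonoidAlgebra k G}
    (ha : ∀ c, lin (ind k p n c) a = 0) : lin φ a = 0 := by
  classical
  letI := Fintype.ofFinite G
  letI := rsetoid p n G
  rw [lin_eq_sum]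
  rw [← Finset.sum_fiberwise_of_maps_to (g := fun g : G => (Quotient.mk (rsetoid p n G) g))
    (t := Finset.univ.image (fun g : G => (Quotient.mk (rsetoid p n G) g)))
    (fun g _ => Finset.mem_image_of_mem _ (Finset.mem_univ g))]
  refine Finset.sum_eq_zero fun q _ => ?_
  have h1 := ha q.out
  rw [lin_eq_sum] at h1
  have h2 : ∑ g with Quotient.mk (rsetoid p n G) g = q, a.coeff g * φ g
      = (∑ g, a.coeff g * ind k p n q.out g) * φ q.out := by
    rw [Finset.sum_filter, Finset.sum_mul]
    refine Finset.sum_congr rfl fun g _ => ?_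
    have h3 : Quotient.mk (rsetoid p n G) g = q ↔ IsConj (g ^ p ^ n) (q.out ^ p ^ n) := by
      constructor
      · intro h
        have : Quotient.mk (rsetoid p n G) g = Quotient.mk (rsetoid p n G) q.out := by
          rw [h]; exact q.out_eq.symm
        exact Quotient.exact this
      · intro h
        have : Quotient.mk (rsetoid p n G) g = Quotient.mk (rsetoid p n G) q.out :=
          Quotient.sound h
        rw [this]; exact q.out_eq
    unfold ind
    by_cases h4 : IsConj (g ^ p ^ n) (q.out ^ p ^ n)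
    · rw [if_pos (h3.2 h4), if_pos h4, mul_one, const_of p φ hφ hs h4]
    · rw [if_neg (fun h => h4 (h3.1 h)), if_neg h4, mul_zero, zero_mul]
  rw [h2, h1, zero_mul]

/-- a functional kills `T(kG)` iff it is a class function constant on `p`-sections -/
theorem kills_TA_iff (hn : Good p n G) (f : MonoidAlgebra k G →ₗ[k] k) :
    (∀ a ∈ TA k (MonoidAlgebra k G) p, f a = 0) ↔
      (∀ g h : G, f (MonoidAlgebra.single (g * h) 1) = f (MonoidAlgebra.single (h * g) 1)) ∧
        ∀ g : G, f (MonoidAlgebra.single g 1) = f (MonoidAlgebra.single (g ^ p ^ n) 1) := by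
  constructor
  · intro h
    refine ⟨fun g h' => ?_, fun g => ?_⟩
    · have := h _ (CA_le_TA p (comm_mem (k := k) (MonoidAlgebra.single g (1 : k))
        (MonoidAlgebra.single h' 1)))
      rw [MonoidAlgebra.single_mul_single, MonoidAlgebra.single_mul_single, map_sub, sub_eq_zero,
        mul_one] at this
      exact this
    · have := h _ (single_sub_mem_TA p hn g (1 : k))
      rwa [map_sub, sub_eq_zero] at this
  · rintro ⟨h1, h2⟩ a ha
    rw [eq_lin f]
    exact lin_eq_zero p _ h1 h2 (fun c => sec_TA p hn c ha)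



end GA

end Crest.Agent.R170.LC806
end

-- ▼ part R170/LC3_806
section

/-!
Row 170 (swarm A), leaf LC, part 3 (helper806): Brauer's count for a central idempotent `e`.

`blockSimpleCount e` = dimension of the space of class functions `φ` with `φ g = φ (g_{p'})` and
`φ(e x) = φ(x)`.
-/

set_option autoImplicit false
open scoped BigOperators

namespace Crest.Agent.R170.LC806

open Crest.Agent.R170.J482 Crest.AlgebraR.Weights

variable {k G : Type*} [Field k] [Group G]

/-- class functions constant on `p`-sections and fixed by `e` -/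
noncomputable def SF (p n : ℕ) (e : MonoidAlgebra k G) : Submodule k (G → k) where
  carrier := {φ | (∀ g h, φ (g * h) = φ (h * g)) ∧ (∀ g, φ g = φ (g ^ p ^ n)) ∧
    ∀ x, lin φ (e * x) = lin φ x}
  zero_mem' := ⟨fun _ _ => rfl, fun _ => rfl, fun x => by
    have : lin (0 : G → k) = 0 := ext_single fun g => by rw [lin_single]; simp
    rw [this]; simp⟩
  add_mem' := by
    rintro φ ψ ⟨h1, h2, h3⟩ ⟨h1', h2', h3'⟩
    refine ⟨fun g h => by rw [Pi.add_apply, Pi.add_apply, h1, h1'],
      fun g => by rw [Pi.add_apply, Pi.add_apply, h2 g, h2' g], fun x => ?_⟩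
    have : lin (φ + ψ) = lin φ + lin ψ := ext_single fun g => by
      rw [LinearMap.add_apply, lin_single, lin_single, lin_single, Pi.add_apply, mul_add]
    rw [this, LinearMap.add_apply, LinearMap.add_apply, h3, h3']
  smul_mem' := by
    rintro c φ ⟨h1, h2, h3⟩
    refine ⟨fun g h => by rw [Pi.smul_apply, Pi.smul_apply, h1],
      fun g => by rw [Pi.smul_apply, Pi.smul_apply, h2 g], fun x => ?_⟩
    have : lin (c • φ) = c • lin φ := ext_single fun g => by
      rw [LinearMap.smul_apply, lin_single, lin_single, Pi.smul_apply, one_mul, one_mul]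
    rw [this, LinearMap.smul_apply, LinearMap.smul_apply, h3]


variable [Finite G]

theorem finiteDimensional_ga (k G : Type*) [Field k] [Group G] [Finite G] :
    FiniteDimensional k (MonoidAlgebra k G) :=
  Module.Finite.equiv (MonoidAlgebra.coeffLinearEquiv (S := k) (M := G) k).symm

variable (p : ℕ) [hp : Fact p.Prime] [CharP k p] {n : ℕ}

/-- **BRL**: Brauer's theorem for a central idempotent -/
theorem blockSimpleCount_eq_finrank [IsAlgClosed k] (hn : Good p n G) {e : MonoidAlgebra k G}
    (hc : ∀ x, e * x = x * e) (he : e * e = e) :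
    blockSimpleCount e = Module.finrank k (SF p n e) := by
  haveI : FiniteDimensional k (MonoidAlgebra k G) := finiteDimensional_ga k G
  unfold blockSimpleCount
  rw [LD170.simpleClassCount_eq_finrank_dual (k := k) e hc he]
  have hTT : ∀ f : MonoidAlgebra k G →ₗ[k] k, (∀ x ∈ LD170.TT k (MonoidAlgebra k G), f x = 0) ↔
      (∀ g h : G, f (MonoidAlgebra.single (g * h) 1) = f (MonoidAlgebra.single (h * g) 1)) ∧
        ∀ g : G, f (MonoidAlgebra.single g 1) = f (MonoidAlgebra.single (g ^ p ^ n) 1) := by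
    intro f
    rw [← kills_TA_iff p hn f]
    have : TA k (MonoidAlgebra k G) p = LD170.TT k (MonoidAlgebra k G) := TA_eq_sup_jacobson p
    rw [this]
  symm
  refine LinearEquiv.finrank_eq ?_
  exact
    { toFun := fun φ => ⟨lin φ.1, (hTT _).2 ⟨fun g h => by
          rw [lin_single, lin_single, φ.2.1], fun g => by
          rw [lin_single, lin_single, ← φ.2.2.1]⟩, φ.2.2.2⟩
      map_add' := by
        intro φ ψ
        apply Subtype.ext
        exact ext_single fun g => by
          change lin (φ.1 + ψ.1) _ = (lin φ.1 + lin ψ.1) _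
          rw [LinearMap.add_apply, lin_single, lin_single, lin_single, Pi.add_apply, mul_add]
      map_smul' := by
        intro c φ
        apply Subtype.ext
        exact ext_single fun g => by
          change lin (c • φ.1) _ = (c • lin φ.1) _
          rw [LinearMap.smul_apply, lin_single, lin_single, Pi.smul_apply, one_mul, one_mul]
      invFun := fun l => ⟨fun g => l.1 (MonoidAlgebra.single g 1), ((hTT _).1 l.2.1).1,
        ((hTT _).1 l.2.1).2, fun x => by
          rw [← eq_lin l.1]
          exact l.2.2 x⟩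
      left_inv := fun φ => Subtype.ext (by
        funext g
        change lin φ.1 _ = _
        rw [lin_single, one_mul])
      right_inv := fun l => Subtype.ext (eq_lin l.1).symm }

end Crest.Agent.R170.LC806
end

-- ▼ part R170/B2c_334
section

/-!
Row 170, leaf B2 (helper334), third part: the literal statement `SB2`.
-/

set_option autoImplicit false
open scoped BigOperators

namespace Crest.Agent.R170.B2334

open Crest.Agent.R170 Crest.Agent.R170.J482

variable {k : Type} [Field k]

theorem RFe_eq_SF {H : Type} [Group H] [Fintype H] (p n : ℕ) (ε : MonoidAlgebra k H) :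
    RFe p n ε = LC806.SF p n ε := by
  ext ψ
  have hthird : (∀ g, ∑ h, ε.coeff h * ψ (h * g) = ψ g) ↔
      ∀ x, LC806.lin ψ (ε * x) = LC806.lin ψ x := by
    have h0 : ∀ g : H, LC806.lin ψ (ε * MonoidAlgebra.single g 1) =
        ∑ h, ε.coeff h * ψ (h * g) := by
      intro g
      rw [LC806.lin_eq_sum, ← lam_mul_single, lam_apply]
    have h1 : ∀ g : H, LC806.lin ψ (MonoidAlgebra.single g 1) = ψ g := by
      intro g
      rw [LC806.lin_single, one_mul]
    constructor
    · intro h x
      have : (LC806.lin ψ).comp (LinearMap.mulLeft k ε) = LC806.lin ψ := by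
        apply LC806.ext_single
        intro g
        rw [h1]
        change LC806.lin ψ (ε * MonoidAlgebra.single g 1) = ψ g
        rw [h0, h]
      exact congrArg (fun f : MonoidAlgebra k H →ₗ[k] k => f x) this
    · intro h g
      rw [← h0, h, h1]
  constructor
  · rintro ⟨h1, h2, h3⟩
    refine ⟨fun g h => ?_, fun g => (h2 g).symm, hthird.1 h3⟩
    have := h1 (h * g) g
    rw [← this]
    congr 1
    group
  · rintro ⟨h1, h2, h3⟩
    refine ⟨fun g h => ?_, fun g => (h2 g).symm, hthird.2 h3⟩
    rw [h1]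
    congr 1
    group

theorem lc_eq {H : Type} [Group H] [Fintype H] (p n : ℕ) [hp : Fact p.Prime] [CharP k p]
    [IsAlgClosed k] (hn : Good p n H) (ε : MonoidAlgebra k H) (hε : CI ε) :
    lc ε = Module.finrank k (RFe p n ε) := by
  rw [RFe_eq_SF]
  exact LC806.blockSimpleCount_eq_finrank p ⟨hn.pos, hn.idem⟩ hε.1 hε.2

/-- **B2** -/
theorem B2 (p : ℕ) [hp : Fact p.Prime] (k : Type) [Field k] [IsAlgClosed k] [CharP k p] :
    SB2 p k := by
  intro G _ _ e he
  classical
  letI : Fintype G := Fintype.ofFinite G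
  letI hfin : ∀ u : G, Fintype (Subgroup.centralizer ({u} : Set G)) :=
    fun u => Fintype.ofFinite _
  haveI : Finite (PC p G) := inferInstance
  letI : Fintype (PC p G) := Fintype.ofFinite _
  obtain ⟨n, hn⟩ := exists_good p G
  rw [kc_eq e he, finrank_CFe (p := p) hn e he, finsum_eq_sum_of_fintype]
  refine Finset.sum_congr rfl fun c _ => ?_
  exact (lc_eq p n (hn.sub _) _ (br_CI p e he (rp c.1) c.2)).symm

end Crest.Agent.R170.B2334
end

-- ▼ part R170/T_312

/-!
# Row 170, leaf T (ring theory part): traces of a commutative algebra over an algebraically closed field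

`Z` a finite dimensional commutative algebra over an algebraically closed field `k`;
characters `χ : Z →ₐ[k] k` correspond to the primitive idempotents `idem χ`;
`trace_eq` : for every algebra map `ρ : Z → End_k M`,
`Tr (ρ z) = ∑ χ, χ z * dim (ρ (idem χ) M)`;
`trace_mul_of_idem` : `Tr (ρ (z * J)) = ∑ χ, χ z * Tr (ρ (idem χ * J))`.
-/

set_option autoImplicit false
set_option linter.unusedSectionVars false
set_option linter.style.haveILetI false

namespace Crest.Agent.R170.T312

open Module

section gen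

variable {k Z : Type*} [Field k] [CommRing Z] [Algebra k Z]

theorem ker_eq {χ ψ : Z →ₐ[k] k} (h : RingHom.ker (χ : Z →+* k) = RingHom.ker (ψ : Z →+* k)) :
    χ = ψ := by
  ext z
  have h1 : z - algebraMap k Z (χ z) ∈ RingHom.ker (χ : Z →+* k) := by
    rw [RingHom.mem_ker]
    show χ (z - algebraMap k Z (χ z)) = 0
    rw [map_sub, AlgHom.commutes]
    simp
  rw [h, RingHom.mem_ker] at h1
  have h2 : ψ (z - algebraMap k Z (χ z)) = 0 := h1
  rw [map_sub, AlgHom.commutes] at h2
  have h3 : ψ z = χ z := by simpa [sub_eq_zero] using h2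
  exact h3.symm

instance ker_max (χ : Z →ₐ[k] k) : (RingHom.ker (χ : Z →+* k)).IsMaximal :=
  RingHom.ker_isMaximal_of_surjective _ fun a => ⟨algebraMap k Z a, by
    show χ (algebraMap k Z a) = a
    rw [AlgHom.commutes]
    rfl⟩

variable [IsAlgClosed k] [Module.Finite k Z]

/-- every maximal ideal is the kernel of a character -/
theorem exists_char (m : Ideal Z) [hm : m.IsMaximal] :
    ∃ χ : Z →ₐ[k] k, RingHom.ker (χ : Z →+* k) = m := by
  letI := Ideal.Quotient.field m
  haveI : Module.Finite k (Z ⧸ m) :=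
    Module.Finite.of_surjective (Ideal.Quotient.mkₐ k m).toLinearMap
      Ideal.Quotient.mk_surjective
  have hb : Function.Bijective (algebraMap k (Z ⧸ m)) :=
    IsAlgClosed.algebraMap_bijective_of_isIntegral
  let e : k ≃ₐ[k] (Z ⧸ m) := AlgEquiv.ofBijective (Algebra.ofId k _) hb
  refine ⟨(e.symm : (Z ⧸ m) →ₐ[k] k).comp (Ideal.Quotient.mkₐ k m), ?_⟩
  ext z
  rw [RingHom.mem_ker]
  show e.symm (Ideal.Quotient.mk m z) = 0 ↔ z ∈ m
  rw [map_eq_zero_iff _ e.symm.injective, Ideal.Quotient.eq_zero_iff_mem]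

/-- an element killed by all characters is nilpotent -/
theorem nilp_of_char (z : Z) (h : ∀ χ : Z →ₐ[k] k, χ z = 0) : IsNilpotent z := by
  haveI : IsArtinianRing Z := IsArtinianRing.of_finite k Z
  rw [← mem_nilradical, nilradical_eq_sInf, Ideal.mem_sInf]
  intro P hP
  have h1 : Ideal.IsPrime P := hP
  have h2 : Ideal.IsMaximal P := IsArtinianRing.isMaximal_of_isPrime P
  obtain ⟨χ, hχ⟩ := exists_char (k := k) P
  rw [← hχ, RingHom.mem_ker]
  exact h χ

noncomputable instance : Fintype (Z →ₐ[k] k) := Fintype.ofFinite _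

/-- the evaluation map at all characters -/
noncomputable def ev (k Z : Type*) [Field k] [CommRing Z] [Algebra k Z] :
    Z →+* ((Z →ₐ[k] k) → k) := RingHom.pi fun χ => (χ : Z →+* k)

theorem ev_apply (z : Z) (χ : Z →ₐ[k] k) : ev k Z z χ = χ z := rfl

theorem ev_surj : Function.Surjective (ev k Z) := by
  classical
  intro a
  have hc : Pairwise fun χ ψ : Z →ₐ[k] k =>
      IsCoprime (RingHom.ker (χ : Z →+* k)) (RingHom.ker (ψ : Z →+* k)) := by
    intro χ ψ hne
    exact Ideal.isCoprime_of_isMaximal fun h => hne (ker_eq h)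
  obtain ⟨x, hx⟩ := Ideal.quotientInfToPiQuotient_surj hc
    fun χ => Ideal.Quotient.mk _ (algebraMap k Z (a χ))
  obtain ⟨z, rfl⟩ := Ideal.Quotient.mk_surjective x
  refine ⟨z, funext fun χ => ?_⟩
  have h1 := congrFun hx χ
  rw [Ideal.quotientInfToPiQuotient_mk'] at h1
  rw [Ideal.Quotient.eq, RingHom.mem_ker] at h1
  have h2 : χ (z - algebraMap k Z (a χ)) = 0 := h1
  rw [map_sub, AlgHom.commutes, sub_eq_zero] at h2
  exact h2

open Classical in
/-- the system of primitive idempotents -/
theorem exists_idem : ∃ e : (Z →ₐ[k] k) → Z, CompleteOrthogonalIdempotents e ∧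
    ∀ χ ψ : Z →ₐ[k] k, ψ (e χ) = if ψ = χ then 1 else 0 := by
  obtain ⟨e, h1, h2⟩ := CompleteOrthogonalIdempotents.lift_of_isNilpotent_ker (ev k Z)
    (fun x hx => nilp_of_char (k := k) x fun χ => congrFun (RingHom.mem_ker.1 hx) χ)
    (CompleteOrthogonalIdempotents.single fun _ : Z →ₐ[k] k => k)
    (fun χ => ev_surj _)
  refine ⟨e, h1, fun χ ψ => ?_⟩
  have h3 := congrFun (congrFun h2 χ) ψ
  rw [Function.comp_apply, ev_apply] at h3
  rw [h3, Pi.single_apply]

/-- the primitive idempotent of a character -/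
noncomputable def idem (χ : Z →ₐ[k] k) : Z := (exists_idem (k := k) (Z := Z)).choose χ

theorem idem_coi : CompleteOrthogonalIdempotents (idem : (Z →ₐ[k] k) → Z) :=
  (exists_idem (k := k) (Z := Z)).choose_spec.1

open Classical in
theorem char_idem (χ ψ : Z →ₐ[k] k) : ψ (idem χ) = if ψ = χ then 1 else 0 :=
  (exists_idem (k := k) (Z := Z)).choose_spec.2 χ ψ


theorem char_idem_ne {χ ψ : Z →ₐ[k] k} (h : ψ ≠ χ) : ψ (idem χ) = 0 := by
  classical
  rw [char_idem, if_neg h]

theorem idem_sum : ∑ χ : Z →ₐ[k] k, idem χ = (1 : Z) := idem_coi.complete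

theorem idem_sq (χ : Z →ₐ[k] k) : idem χ * idem χ = idem χ := idem_coi.idem χ







/-! ### traces -/

variable {M : Type*} [AddCommGroup M] [Module k M] [Module.Finite k M]

theorem trace_nilp (f : Module.End k M) (h : IsNilpotent f) : LinearMap.trace k M f = 0 :=
  (LinearMap.isNilpotent_trace_of_isNilpotent h).eq_zero

theorem trace_idem (f : Module.End k M) (h : f * f = f) :
    LinearMap.trace k M f = (finrank k (LinearMap.range f) : k) :=
  (LinearMap.IsIdempotentElem.isProj_range f h).trace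

/-- on the component of `χ` an element acts as `χ z` up to nilpotents -/
theorem nilp_comp (z : Z) (χ : Z →ₐ[k] k) :
    IsNilpotent ((z - algebraMap k Z (χ z)) * idem χ) := by
  refine nilp_of_char (k := k) _ fun ψ => ?_
  by_cases hne : ψ = χ
  · subst hne
    rw [map_mul, map_sub, AlgHom.commutes]
    simp
  · rw [map_mul, char_idem_ne hne, mul_zero]

theorem trace_comp (ρ : Z →ₐ[k] Module.End k M) (z : Z) (χ : Z →ₐ[k] k) :
    LinearMap.trace k M (ρ (z * idem χ)) = χ z * LinearMap.trace k M (ρ (idem χ)) := by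
  have h1 : z * idem χ = algebraMap k Z (χ z) * idem χ +
      (z - algebraMap k Z (χ z)) * idem χ := by ring
  have h2 : ρ (algebraMap k Z (χ z) * idem χ) = χ z • ρ (idem χ) := by
    rw [← Algebra.smul_def, map_smul]
  rw [h1, map_add, map_add, h2, map_smul, smul_eq_mul,
    trace_nilp _ ((nilp_comp z χ).map ρ), add_zero]

/-- **trace of an element = sum over the characters** -/
theorem trace_eq_tr (ρ : Z →ₐ[k] Module.End k M) (z : Z) :
    LinearMap.trace k M (ρ z) =
      ∑ χ : Z →ₐ[k] k, χ z * LinearMap.trace k M (ρ (idem χ)) := by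
  have h : z = ∑ χ : Z →ₐ[k] k, z * idem χ := by
    rw [← Finset.mul_sum, idem_sum, mul_one]
  conv_lhs => rw [h]
  rw [map_sum, map_sum]
  exact Finset.sum_congr rfl fun χ _ => trace_comp ρ z χ

/-- **trace of an element = sum over the characters of `χ z * dim (e_χ M)`** -/
theorem trace_eq (ρ : Z →ₐ[k] Module.End k M) (z : Z) :
    LinearMap.trace k M (ρ z) =
      ∑ χ : Z →ₐ[k] k, χ z * (finrank k (LinearMap.range (ρ (idem χ))) : k) := by
  rw [trace_eq_tr]
  refine Finset.sum_congr rfl fun χ _ => ?_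
  rw [trace_idem _ (by rw [← map_mul, idem_sq])]


end gen

end Crest.Agent.R170.T312
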